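import Vale.Agent.P188.Vol

/-! Generator weights, the norm `Psi`, the finite group `W`.
Plan: `gen_span`: every nonzero weight of `G` is a sum of generator weights and zeros (induct on
the lower central series: if `wt i = μ ≠ 0` is not a generator weight then every vector of weight
`μ` is a sum of brackets of weight vectors); with `∑ wt i = 0` and `wt_span`, the cone
`{v | ⟪μ, v⟫ ≤ 0 for all generator μ}` is zero; compactness gives the constant.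
`Psi_pos`: `Phi_strict` against `Phi 0 = 0`.  `W_finite'`: `Psi` is the maximum of finitely many
linear forms; call a form essential if it equals `Psi` on a nonempty open set; essential forms
are among the finitely many, are permuted by isometries, and span the dual.
`near_W`: compactness of the set of quadruples bounded by `C`. -/

namespace Vale.Agent.P188

open scoped InnerProductSpace
open Filter Topology

theorem wg_homog {V : Type} [NormedAddCommGroup V] [NormedSpace ℝ V] [FiniteDimensional ℝ V]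
    {f : V → ℝ} (hf : Continuous f) (hs : ∀ (t : ℝ) v, 0 ≤ t → f (t • v) = t * f v)
    (hp : ∀ v, v ≠ 0 → 0 < f v) : ∃ C : ℝ, 1 ≤ C ∧ ∀ v, ‖v‖ ≤ C * f v := by
  obtain ⟨a, ha, h⟩ := (isCompact_sphere (0 : V) 1).exists_forall_le' hf.continuousOn (a := 0)
    fun b hb => hp b (by
      rintro rfl
      simp at hb)
  refine ⟨max 1 a⁻¹, le_max_left _ _, fun v => ?_⟩
  by_cases hv : v = 0
  · subst hv
    have := hs 0 0 le_rfl
    rw [zero_mul, zero_smul] at this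
    rw [this, norm_zero, mul_zero]
  · have hn : 0 < ‖v‖ := norm_pos_iff.2 hv
    have h1 := h (‖v‖⁻¹ • v) (by simp [norm_smul, hn.ne'])
    rw [hs _ _ (inv_nonneg.2 hn.le), ← div_eq_inv_mul, le_div_iff₀ hn] at h1
    calc ‖v‖ = a⁻¹ * (a * ‖v‖) := by field_simp
      _ ≤ a⁻¹ * f v := by gcongr
      _ ≤ max 1 a⁻¹ * f v := mul_le_mul_of_nonneg_right (le_max_right _ _) (hp v hv).le

theorem wg_dense {V : Type} [NormedAddCommGroup V] [NormedSpace ℝ V] {φ : V →ₗ[ℝ] ℝ}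
    (h : φ ≠ 0) : Dense {s | φ s ≠ 0} := by
  have : Dense ((LinearMap.ker φ : Set V))ᶜ := by
    rw [← interior_eq_empty_iff_dense_compl]
    by_contra hne
    exact h (LinearMap.ker_eq_top.1
      (Submodule.eq_top_of_nonempty_interior' _ (Set.nonempty_iff_ne_empty.2 hne)))
  exact this

/-- `f` is the maximum of the linear forms given by `F` -/
def WgRep {V : Type} [NormedAddCommGroup V] [InnerProductSpace ℝ V] (f : V → ℝ) (F : Finset V) :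
    Prop :=
  ∀ s, (∀ ν ∈ F, ⟪ν, s⟫_ℝ ≤ f s) ∧ ∃ ν ∈ F, ⟪ν, s⟫_ℝ = f s

theorem wg_finite {V : Type} [NormedAddCommGroup V] [InnerProductSpace ℝ V]
    [FiniteDimensional ℝ V] {f : V → ℝ} (h0 : ∀ s, f s = 0 ↔ s = 0) {F : Finset V}
    (hF : WgRep f F) : {L : V →ₗ[ℝ] V | ∀ s, f (L s) = f s}.Finite := by
  classical
  obtain ⟨F, hF, hmin⟩ : ∃ F, WgRep f F ∧ ∀ ν ∈ F, ¬ WgRep f (F.erase ν) := by
    obtain ⟨F, hF, hm⟩ := exists_minimalFor_of_wellFoundedLT (WgRep f) Finset.card ⟨F, hF⟩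
    refine ⟨F, hF, fun ν hν h => ?_⟩
    have h1 := Finset.card_erase_lt_of_mem hν
    have := hm h h1.le
    omega
  have key : ∀ L : V →ₗ[ℝ] V, (∀ s, f (L s) = f s) → ∀ ν ∈ F, ∃ ν' ∈ F, ∀ s,
      ⟪ν', L s⟫_ℝ = ⟪ν, s⟫_ℝ := by
    intro L hL ν hν
    have hU : ∃ s, ∀ ν' ∈ F.erase ν, ⟪ν', s⟫_ℝ < ⟪ν, s⟫_ℝ := by
      by_contra hc
      push Not at hc
      refine hmin ν hν fun s => ⟨fun ν' h => (hF s).1 ν' (Finset.mem_of_mem_erase h), ?_⟩
      obtain ⟨ν₁, h1, h2⟩ := (hF s).2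
      by_cases h3 : ν₁ = ν
      · obtain ⟨ν', h4, h5⟩ := hc s
        exact ⟨ν', h4, le_antisymm ((hF s).1 ν' (Finset.mem_of_mem_erase h4))
          (by rw [← h2, h3]; exact h5)⟩
      · exact ⟨ν₁, Finset.mem_erase.2 ⟨h3, h1⟩, h2⟩
    have hopen : IsOpen (⋂ ν' ∈ F.erase ν, {s : V | ⟪ν', s⟫_ℝ < ⟪ν, s⟫_ℝ}) :=
      isOpen_biInter_finset fun ν' _ => isOpen_lt (by fun_prop) (by fun_prop)
    by_contra hc
    push Not at hc
    let φ : V → V →ₗ[ℝ] ℝ := fun ν' => (innerₛₗ ℝ ν').comp L - innerₛₗ ℝ ν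
    have hφ : ∀ ν' s, φ ν' s = ⟪ν', L s⟫_ℝ - ⟪ν, s⟫_ℝ := fun ν' s => rfl
    have hd : Dense (⋂ ν' ∈ (F : Set V), {s | φ ν' s ≠ 0}) := by
      refine dense_biInter_of_isOpen (fun ν' _ => ?_) F.countable_toSet fun ν' hν' => wg_dense ?_
      · exact isOpen_ne_fun (φ ν').continuous_of_finiteDimensional continuous_const
      · intro h
        obtain ⟨s, hs⟩ := hc ν' hν'
        apply hs
        rw [← sub_eq_zero, ← hφ, h, LinearMap.zero_apply]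
    obtain ⟨s, hs1, hs2⟩ := hd.inter_open_nonempty _ hopen (by
      obtain ⟨s, hs⟩ := hU
      exact ⟨s, by simpa using hs⟩)
    simp only [Set.mem_iInter, Set.mem_ofPred_eq] at hs1 hs2
    obtain ⟨ν₁, h1, h2⟩ := (hF s).2
    have h3 : ν₁ = ν := by
      by_contra h3
      have := hs1 ν₁ (Finset.mem_erase.2 ⟨h3, h1⟩)
      linarith [(hF s).1 ν hν]
    obtain ⟨ν₂, h4, h5⟩ := (hF (L s)).2
    apply hs2 ν₂ h4
    rw [hφ, h5, hL, ← h2, h3, sub_self]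
  choose g hg1 hg2 using key
  let G : {L : V →ₗ[ℝ] V | ∀ s, f (L s) = f s} → F → F := fun L ν => ⟨g L.1 L.2 ν.1 ν.2, hg1 _ _ _ _⟩
  have hG : Function.Injective G := by
    intro L L' h
    have hinj : Function.Injective L.1 := by
      rw [injective_iff_map_eq_zero]
      intro s hs
      rw [← h0, ← L.2 s, hs, h0]
    have hsurj := LinearMap.injective_iff_surjective.1 hinj
    refine Subtype.ext (LinearMap.ext fun s => ?_)
    obtain ⟨z, hz⟩ := hsurj (L.1 s - L'.1 s)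
    obtain ⟨ν, h1, h2⟩ := (hF z).2
    have h3 : g L.1 L.2 ν h1 = g L'.1 L'.2 ν h1 := congrArg Subtype.val (congrFun h ⟨ν, h1⟩)
    have h4 := hg2 L.1 L.2 ν h1 z
    rw [hz, inner_sub_right, hg2, h3, hg2, sub_self, h2] at h4
    rw [← sub_eq_zero, ← hz, (h0 z).1 h4.symm, map_zero]
  exact Set.finite_coe_iff.1 (Finite.of_injective G hG)

end Vale.Agent.P188

namespace Vale.Agent.P188.Geo
open scoped InnerProductSpace Pointwise
open Filter Topology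
variable (M : Geo)

theorem wg_bracket {v : M.V} (h : ∀ μ p, M.GenF μ p → ⟪μ, v⟫_ℝ ≤ 0) {i : Fin M.d}
    (hi : 0 < ⟪M.wt i, v⟫_ℝ) :
    M.X i ∈ Submodule.span ℝ {z | ∃ x k, 0 < ⟪M.wt k, v⟫_ℝ ∧ z = M.B x (M.X k)} := by
  classical
  by_contra hc
  obtain ⟨q, hq, hker⟩ := Submodule.exists_le_ker_of_notMem hc
  have hq0 : ∀ x k, 0 < ⟪M.wt k, v⟫_ℝ → q (M.B x (M.X k)) = 0 := fun x k hk =>
    hker (Submodule.subset_span ⟨x, k, hk, rfl⟩)
  let p : M.G →ₗ[ℝ] ℝ := ∑ j, (if M.wt j = M.wt i then q (M.X j) else 0) • M.co j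
  have hp : ∀ x, p x = ∑ j, (if M.wt j = M.wt i then q (M.X j) else 0) * M.co j x := fun x => by
    simp only [p, LinearMap.sum_apply, LinearMap.smul_apply, smul_eq_mul]
  have hpX : ∀ j, p (M.X j) = if M.wt j = M.wt i then q (M.X j) else 0 := fun j => by
    rw [hp]
    simp [co_X]
  have hXX : ∀ j k, p (M.B (M.X j) (M.X k)) = 0 := by
    intro j k
    by_cases hjk : M.wt j + M.wt k = M.wt i
    · have h1 : p (M.B (M.X j) (M.X k)) = q (M.B (M.X j) (M.X k)) := by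
        rw [hp]
        conv_rhs => rw [← M.sum_co (M.B (M.X j) (M.X k)), map_sum]
        refine Finset.sum_congr rfl fun m _ => ?_
        by_cases hm : M.co m (M.B (M.X j) (M.X k)) = 0
        · simp [hm]
        · rw [if_pos ((M.B_wt j k m hm).trans hjk), map_smul, smul_eq_mul, mul_comm]
      rw [h1]
      rw [← hjk, inner_add_left] at hi
      by_cases hk : 0 < ⟪M.wt k, v⟫_ℝ
      · exact hq0 _ k hk
      · rw [M.B_anti, map_neg, hq0 _ j (by linarith), neg_zero]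
    · rw [hp]
      refine Finset.sum_eq_zero fun m _ => ?_
      by_cases hm : M.co m (M.B (M.X j) (M.X k)) = 0
      · simp [hm]
      · rw [if_neg (fun h' => hjk ((M.B_wt j k m hm).symm.trans h')), zero_mul]
  have hG : M.GenF (M.wt i) p := by
    refine ⟨fun h0 => by simp [h0] at hi, fun x y => ?_, fun j hj => by rw [hpX, if_neg hj],
      i, by rwa [hpX, if_pos rfl]⟩
    rw [← M.sum_co x, ← M.sum_co y]
    simp only [map_sum, map_smul, LinearMap.sum_apply, LinearMap.smul_apply, hXX, smul_zero,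
      Finset.sum_const_zero]
  linarith [h _ _ hG]

theorem wg_cone {v : M.V} (h : ∀ μ p, M.GenF μ p → ⟪μ, v⟫_ℝ ≤ 0) : v = 0 := by
  let S : ℕ → Submodule ℝ M.G := fun n => Submodule.span ℝ
    {z | ∃ l : List M.G, l.length = n ∧ ∃ y, z = l.foldr (fun x z => M.B x z) y}
  have hB : ∀ n x, ∀ z ∈ S n, M.B x z ∈ S (n + 1) := by
    intro n x z hz
    have : S n ≤ (S (n + 1)).comap (M.B x) := by
      refine Submodule.span_le.2 ?_
      rintro _ ⟨l, hl, y, rfl⟩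
      exact Submodule.subset_span ⟨x :: l, by simp [hl], y, rfl⟩
    exact this hz
  have key : ∀ n i, 0 < ⟪M.wt i, v⟫_ℝ → M.X i ∈ S n := by
    intro n
    induction n with
    | zero => exact fun i _ => Submodule.subset_span ⟨[], rfl, _, rfl⟩
    | succ n ih =>
      intro i hi
      refine Submodule.span_le.2 ?_ (M.wg_bracket h hi)
      rintro _ ⟨x, k, hk, rfl⟩
      exact hB n x _ (ih k hk)
  have hS : S M.c = ⊥ := by
    rw [Submodule.span_eq_bot]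
    rintro _ ⟨l, hl, y, rfl⟩
    exact M.nil l hl.ge y
  have hle : ∀ i, ⟪M.wt i, v⟫_ℝ ≤ 0 := by
    intro i
    by_contra hi
    have h1 := key M.c i (not_le.1 hi)
    rw [hS, Submodule.mem_bot] at h1
    have h2 := M.co_X i i
    rw [h1, map_zero, if_pos rfl] at h2
    exact zero_ne_one h2
  have hsum : ∑ i, ⟪M.wt i, v⟫_ℝ = 0 := by rw [← sum_inner, M.unimod, inner_zero_left]
  exact M.wt_span v fun i =>
    (Finset.sum_eq_zero_iff_of_nonpos fun i _ => hle i).1 hsum i (Finset.mem_univ i)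

theorem gen_finite : {μ | ∃ p, M.GenF μ p}.Finite := by
  refine (Set.finite_range M.wt).subset ?_
  rintro μ ⟨p, hp⟩
  obtain ⟨i, hi, -⟩ := hp.exists_X
  exact ⟨i, hi⟩

theorem gen_span : ∃ C : ℝ, 1 ≤ C ∧ ∀ (v : M.V) (t : ℝ), 0 ≤ t →
    (∀ μ p, M.GenF μ p → ⟪μ, v⟫_ℝ ≤ t) → ‖v‖ ≤ C * t := by
  set F := M.gen_finite.toFinset with hF
  have hmem : ∀ μ, μ ∈ F ↔ ∃ p, M.GenF μ p := fun μ => by simp [hF]
  obtain ⟨C, hC, h⟩ := wg_homog (f := fun v : M.V => ∑ μ ∈ F, max 0 ⟪μ, v⟫_ℝ) (by fun_prop)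
    (fun t v ht => by
      rw [Finset.mul_sum]
      refine Finset.sum_congr rfl fun μ _ => ?_
      rw [real_inner_smul_right, mul_max_of_nonneg _ _ ht, mul_zero])
    (fun v hv => by
      by_contra hc
      refine hv (M.wg_cone fun μ p hp => ?_)
      have h1 : max 0 ⟪μ, v⟫_ℝ ≤ ∑ μ ∈ F, max 0 ⟪μ, v⟫_ℝ :=
        Finset.single_le_sum (f := fun μ => max 0 ⟪μ, v⟫_ℝ) (fun _ _ => le_max_left _ _)
          ((hmem μ).2 ⟨p, hp⟩)
      linarith [le_max_right 0 ⟪μ, v⟫_ℝ])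
  refine ⟨C * (F.card + 1), one_le_mul_of_one_le_of_one_le hC (by
    linarith [Nat.cast_nonneg (α := ℝ) F.card]), fun v t ht hv => (h v).trans ?_⟩
  have h1 : ∑ μ ∈ F, max 0 ⟪μ, v⟫_ℝ ≤ F.card • t :=
    Finset.sum_le_card_nsmul _ _ _ fun μ hμ => by
      obtain ⟨p, hp⟩ := (hmem μ).1 hμ
      exact max_le ht (hv μ p hp)
  rw [nsmul_eq_mul] at h1
  rw [mul_assoc]
  gcongr
  nlinarith

theorem wg_Psi_zero : M.Psi 0 = 0 := by simpa using M.Psi_smul 0 0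

theorem Psi_pos : ∃ C : ℝ, 1 ≤ C ∧ ∀ s, ‖s‖ ≤ C * M.Psi s := by
  obtain ⟨C, hC, h⟩ := M.gen_span
  refine ⟨C, hC, fun s => h s _ (M.Psi_nonneg s) fun μ p hp => ?_⟩
  have h1 := M.Phi_strict hp (r := fun i => max 0 ⟪M.wt i, s⟫_ℝ) (r' := 0)
    (κ := max 0 ⟪μ, s⟫_ℝ) (le_max_left _ _) (fun i _ => le_max_left _ _)
    (fun i hi => by simp [hi])
  have h2 : M.Phi 0 = 0 := by simpa using M.Phi_smul le_rfl 0
  rw [h2, zero_add] at h1
  exact (le_max_right _ _).trans h1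

theorem wg_Psi_eq_zero (s : M.V) : M.Psi s = 0 ↔ s = 0 := by
  obtain ⟨C, -, h⟩ := M.Psi_pos
  refine ⟨fun h0 => ?_, fun h0 => h0 ▸ M.wg_Psi_zero⟩
  have := h s
  rwa [h0, mul_zero, norm_le_zero_iff] at this

theorem wg_inner_list (l : List (Fin M.d)) (f : Fin M.d → M.V) (s : M.V) :
    ⟪(l.map f).sum, s⟫_ℝ = (l.map fun i => ⟪f i, s⟫_ℝ).sum := by
  induction l with
  | nil => simp
  | cons a l ih => simp [inner_add_left, ih]

theorem W_finite' : {L : M.V →ₗ[ℝ] M.V | ∀ s, M.Psi (L s) = M.Psi s}.Finite := by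
  classical
  let ν : (Fin (Module.finrank ℝ M.e) → List (Fin M.d)) → Finset (Fin M.d) → M.V := fun β T =>
    ∑ j, ((β j).map fun i => if i ∈ T then M.wt i else 0).sum
  have hν : ∀ β T s, ⟪ν β T, s⟫_ℝ =
      ∑ j, ((β j).map fun i => if i ∈ T then ⟪M.wt i, s⟫_ℝ else 0).sum := by
    intro β T s
    rw [sum_inner]
    refine Finset.sum_congr rfl fun j _ => ?_
    rw [wg_inner_list]
    congr 2
    funext i
    split_ifs <;> simp
  refine wg_finite M.wg_Psi_eq_zero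
    (F := Finset.image₂ ν M.frames_finite.toFinset Finset.univ) fun s => ⟨?_, ?_⟩
  · intro x hx
    obtain ⟨β, hβ, T, -, rfl⟩ := Finset.mem_image₂.1 hx
    rw [Set.Finite.mem_toFinset] at hβ
    refine le_trans ?_ (M.le_Phi hβ _)
    rw [hν]
    refine Finset.sum_le_sum fun j _ => List.sum_le_sum fun i _ => ?_
    split_ifs
    · exact le_max_right _ _
    · exact le_max_left _ _
  · obtain ⟨β, hβ, h⟩ := M.exists_Phi (fun i => max 0 ⟪M.wt i, s⟫_ℝ)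
    refine ⟨ν β (Finset.univ.filter fun i => 0 ≤ ⟪M.wt i, s⟫_ℝ),
      Finset.mem_image₂_of_mem (by simpa using hβ) (Finset.mem_univ _), ?_⟩
    rw [hν, Psi, h]
    refine Finset.sum_congr rfl fun j _ => ?_
    congr 2
    funext i
    simp only [Finset.mem_filter, Finset.mem_univ, true_and]
    split_ifs with h1
    · exact (max_eq_right h1).symm
    · exact (max_eq_left (not_le.1 h1).le).symm

theorem W_finite : M.W.Finite :=
  Set.Finite.of_injOn (f := fun w : M.V ≃ₗᵢ[ℝ] M.V => w.toLinearEquiv.toLinearMap)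
    (fun _ hw => hw) (fun _ _ _ _ h => LinearIsometryEquiv.ext fun v => LinearMap.congr_fun h v)
    M.W_finite'

theorem one_mem_W : (1 : M.V ≃ₗᵢ[ℝ] M.V) ∈ M.W := fun _ => rfl

theorem mul_mem_W {w w'} (h : w ∈ M.W) (h' : w' ∈ M.W) : w * w' ∈ M.W :=
  fun s => (h (w' s)).trans (h' s)

theorem inv_mem_W {w} (h : w ∈ M.W) : w⁻¹ ∈ M.W := fun s => by
  rw [← h (w⁻¹ s)]
  simp

theorem W_sep : ∃ c : ℝ, 0 < c ∧ ∀ w ∈ M.W, ∀ w' ∈ M.W,
    (∀ v, ‖w v - w' v‖ ≤ c * ‖v‖) → w = w' := by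
  have : ∀ᶠ c : ℝ in 𝓝[>] 0, ∀ w ∈ M.W, ∀ w' ∈ M.W,
      (∀ v, ‖w v - w' v‖ ≤ c * ‖v‖) → w = w' := by
    refine M.W_finite.eventually_all.2 fun w _ => M.W_finite.eventually_all.2 fun w' _ => ?_
    by_cases h : w = w'
    · exact Eventually.of_forall fun _ _ => h
    · obtain ⟨v, hv⟩ : ∃ v, w v ≠ w' v := by
        by_contra hc
        push Not at hc
        exact h (LinearIsometryEquiv.ext hc)
      have h1 : ∀ᶠ c : ℝ in 𝓝 0, c * ‖v‖ < ‖w v - w' v‖ :=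
        (by fun_prop : ContinuousAt (fun c : ℝ => c * ‖v‖) 0).eventually_lt continuousAt_const
          (by simpa [sub_eq_zero] using hv)
      exact (h1.filter_mono nhdsWithin_le_nhds).mono fun c hc hh => absurd (hh v) (not_le.2 hc)
  obtain ⟨c, h1, h2⟩ := (this.and self_mem_nhdsWithin).exists
  exact ⟨c, h2, h1⟩

theorem W_test {w w'} (h : w ∈ M.W) (h' : w' ∈ M.W) (hne : w ≠ w') :
    ∃ μ p s, M.GenF μ p ∧ 0 < ⟪μ, w s⟫_ℝ ∧ ⟪μ, w' s⟫_ℝ < 0 := by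
  have _ := h
  have _ := h'
  obtain ⟨μ, p, hp, hμ⟩ : ∃ μ p, M.GenF μ p ∧ w.symm μ ≠ w'.symm μ := by
    by_contra hc
    push Not at hc
    refine hne (LinearIsometryEquiv.ext fun v => sub_eq_zero.1 (M.wg_cone fun μ p hp => ?_))
    have h1 : ⟪μ, w v⟫_ℝ = ⟪w.symm μ, v⟫_ℝ := by
      rw [← w.inner_map_map (w.symm μ), w.apply_symm_apply]
    have h2 : ⟪μ, w' v⟫_ℝ = ⟪w'.symm μ, v⟫_ℝ := by
      rw [← w'.inner_map_map (w'.symm μ), w'.apply_symm_apply]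
    rw [inner_sub_right, h1, h2, hc μ p hp, sub_self]
  have h1 : ∀ v, ⟪μ, w v⟫_ℝ = ⟪w.symm μ, v⟫_ℝ := fun v => by
    rw [← w.inner_map_map (w.symm μ), w.apply_symm_apply]
  have h2 : ∀ v, ⟪μ, w' v⟫_ℝ = ⟪w'.symm μ, v⟫_ℝ := fun v => by
    rw [← w'.inner_map_map (w'.symm μ), w'.apply_symm_apply]
  have h3 : ⟪w.symm μ, w.symm μ⟫_ℝ = ⟪w'.symm μ, w'.symm μ⟫_ℝ := by
    rw [w.symm.inner_map_map, w'.symm.inner_map_map]
  have h4 : 0 < ⟪w.symm μ - w'.symm μ, w.symm μ - w'.symm μ⟫_ℝ :=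
    real_inner_self_pos.2 (sub_ne_zero.2 hμ)
  rw [inner_sub_left, inner_sub_right, inner_sub_right] at h4
  have h5 := real_inner_comm (w.symm μ) (w'.symm μ)
  refine ⟨μ, p, w.symm μ - w'.symm μ, hp, ?_, ?_⟩
  · rw [h1, inner_sub_right]
    linarith
  · rw [h2, inner_sub_right]
    linarith

/-- Angle gap between the weights and the `W`-images of the weight rays. -/
theorem angle_gap : ∃ γ : ℝ, 0 < γ ∧ γ ≤ 1 ∧ ∀ w ∈ M.W, ∀ i j, M.wt i ≠ 0 → M.wt j ≠ 0 →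
    M.OnRay (w (‖M.wt i‖⁻¹ • M.wt i)) j ∨
      ⟪M.wt j, w (‖M.wt i‖⁻¹ • M.wt i)⟫_ℝ ≤ (1 - γ) * ‖M.wt j‖ := by
  have : ∀ᶠ γ : ℝ in 𝓝[>] 0, ∀ w ∈ M.W, ∀ i j, M.wt i ≠ 0 → M.wt j ≠ 0 →
      M.OnRay (w (‖M.wt i‖⁻¹ • M.wt i)) j ∨
        ⟪M.wt j, w (‖M.wt i‖⁻¹ • M.wt i)⟫_ℝ ≤ (1 - γ) * ‖M.wt j‖ := by
    refine M.W_finite.eventually_all.2 fun w _ => eventually_all.2 fun i =>
      eventually_all.2 fun j => ?_
    by_cases hi : M.wt i = 0
    · exact Eventually.of_forall fun _ h => absurd hi h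
    have hu : ‖w (‖M.wt i‖⁻¹ • M.wt i)‖ = 1 := by
      rw [w.norm_map, norm_smul, norm_inv, norm_norm, inv_mul_cancel₀ (norm_ne_zero_iff.2 hi)]
    generalize w (‖M.wt i‖⁻¹ • M.wt i) = u at hu ⊢
    have h1 := real_inner_le_norm (M.wt j) u
    rcases h1.eq_or_lt with h2 | h2
    · rw [inner_eq_norm_mul_iff_real, hu, one_smul] at h2
      exact Eventually.of_forall fun _ _ hj => Or.inl ⟨hj, h2⟩
    · have h3 : ∀ᶠ γ : ℝ in 𝓝 0, ⟪M.wt j, u⟫_ℝ < (1 - γ) * ‖M.wt j‖ :=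
        continuousAt_const.eventually_lt
          (by fun_prop : ContinuousAt (fun γ : ℝ => (1 - γ) * ‖M.wt j‖) 0)
          (by simpa [hu] using h2)
      exact (h3.filter_mono nhdsWithin_le_nhds).mono fun γ hγ _ _ => Or.inr hγ.le
  have h1 : ∀ᶠ γ : ℝ in 𝓝[>] 0, γ ≤ 1 :=
    (eventually_le_nhds zero_lt_one).filter_mono nhdsWithin_le_nhds
  obtain ⟨c, ⟨h2, h3⟩, h4⟩ := ((this.and h1).and self_mem_nhdsWithin).exists
  exact ⟨c, h4, h3, h2⟩

theorem wg_Psi_cont : Continuous M.Psi := by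
  obtain ⟨C, hC, h⟩ := M.Psi_le
  refine (LipschitzWith.of_le_add_mul' C fun s s' => ?_).continuous
  have h1 := M.Psi_add_le s' (s - s')
  rw [add_sub_cancel] at h1
  rw [dist_eq_norm]
  linarith [h (s - s')]

theorem wg_exact (hO : M.Orth) {L L' : M.G →L[ℝ] M.G} (h1 : ∀ x ∈ M.ab, L x ∈ M.ab)
    (h2 : ∀ x ∈ M.ab, L' (L x) = x) (h3 : ∀ x ∈ M.ab, M.Psi (M.A x) ≤ M.Psi (M.A (L x)))
    (h4 : ∀ x ∈ M.ab, M.Psi (M.A x) ≤ M.Psi (M.A (L' x))) :
    ∃ w ∈ M.W, ∀ x ∈ M.ab, M.A (L x) = w (M.A x) := by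
  have h5 : ∀ x ∈ M.ab, M.Psi (M.A (L x)) = M.Psi (M.A x) := fun x hx =>
    le_antisymm (by simpa only [h2 x hx] using h4 _ (h1 x hx)) (h3 x hx)
  obtain ⟨ι, -, hι⟩ := M.exists_sec
  let σ : M.V →ₗ[ℝ] M.G := M.ah.toLinearMap ∘ₗ ι
  have hσ : ∀ v, σ v ∈ M.ab := fun v => M.ab.starProjection_apply_mem _
  have hσA : ∀ v, M.A (σ v) = v := fun v => (M.A_ah _).trans (hι v)
  let T : M.V →ₗ[ℝ] M.V := M.A ∘ₗ L.toLinearMap ∘ₗ σ
  have hT : ∀ v, M.Psi (T v) = M.Psi v := fun v => (h5 _ (hσ v)).trans (by rw [hσA])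
  let T' : M.V →ₗᵢ[ℝ] M.V := ⟨T, hO T hT⟩
  refine ⟨T'.toLinearIsometryEquiv rfl, hT, fun x hx => ?_⟩
  have h6 := h5 _ (M.ab.sub_mem hx (hσ (M.A x)))
  rw [map_sub M.A x, hσA, sub_self, wg_Psi_zero, wg_Psi_eq_zero, map_sub, map_sub, sub_eq_zero] at h6
  exact h6

/-- Approximate mutually inverse `Psi`-expanding maps are close to `W`. -/
theorem near_W (hO : M.Orth) (C κ : ℝ) (hκ : 0 < κ) : ∃ η : ℝ, 0 < η ∧
    ∀ L L' : M.G →L[ℝ] M.G, ‖L‖ ≤ C → ‖L'‖ ≤ C →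
      (∀ x ∈ M.ab, L x ∈ M.ab) →
      (∀ x ∈ M.ab, ‖L' (L x) - x‖ ≤ η * ‖x‖) →
      (∀ x ∈ M.ab, M.Psi (M.A x) - η * ‖x‖ ≤ M.Psi (M.A (L x))) →
      (∀ x ∈ M.ab, M.Psi (M.A x) - η * ‖x‖ ≤ M.Psi (M.A (L' x))) →
      ∃ w ∈ M.W, ∀ x ∈ M.ab, ‖M.A (L x) - w (M.A x)‖ ≤ κ * ‖x‖ := by
  by_contra hc
  have hc' : ∀ n : ℕ, ∃ P : (M.G →L[ℝ] M.G) × (M.G →L[ℝ] M.G),
      P ∈ Metric.closedBall 0 C ×ˢ Metric.closedBall 0 C ∧ (∀ x ∈ M.ab, P.1 x ∈ M.ab) ∧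
      (∀ x ∈ M.ab, ‖P.2 (P.1 x) - x‖ ≤ 1 / ((n : ℝ) + 1) * ‖x‖) ∧
      (∀ x ∈ M.ab, M.Psi (M.A x) - 1 / ((n : ℝ) + 1) * ‖x‖ ≤ M.Psi (M.A (P.1 x))) ∧
      (∀ x ∈ M.ab, M.Psi (M.A x) - 1 / ((n : ℝ) + 1) * ‖x‖ ≤ M.Psi (M.A (P.2 x))) ∧
      ¬ ∃ w ∈ M.W, ∀ x ∈ M.ab, ‖M.A (P.1 x) - w (M.A x)‖ ≤ κ * ‖x‖ := by
    intro n
    by_contra h
    refine hc ⟨1 / ((n : ℝ) + 1), Nat.one_div_pos_of_nat, fun L L' a1 a2 a3 a4 a5 a6 => ?_⟩
    by_contra a7
    exact h ⟨(L, L'), ⟨by simpa using a1, by simpa using a2⟩, a3, a4, a5, a6, a7⟩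
  choose P hP h1 h2 h3 h4 h5 using hc'
  obtain ⟨Q, -, φ, hφ, hlim⟩ :=
    ((isCompact_closedBall _ C).prod (isCompact_closedBall _ C)).tendsto_subseq hP
  have hA : Continuous M.A := M.A.continuous_of_finiteDimensional
  have hΨ := M.wg_Psi_cont
  have hη : ∀ x : M.G, Tendsto (fun n => 1 / ((φ n : ℝ) + 1) * ‖x‖) atTop (𝓝 0) := fun x => by
    simpa using (tendsto_one_div_add_atTop_nhds_zero_nat.comp hφ.tendsto_atTop).mul_const ‖x‖
  have lim : ∀ {Y : Type} [TopologicalSpace Y] {f : (M.G →L[ℝ] M.G) × (M.G →L[ℝ] M.G) → Y},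
      Continuous f → Tendsto (fun n => f (P (φ n))) atTop (𝓝 (f Q)) :=
    fun hf => (hf.tendsto Q).comp hlim
  obtain ⟨w, hw, hwx⟩ := M.wg_exact hO (L := Q.1) (L' := Q.2)
    (fun x hx => M.ab.closed_of_finiteDimensional.mem_of_tendsto
      (lim (f := fun P => P.1 x) (by fun_prop)) (Eventually.of_forall fun n => h1 _ x hx))
    (fun x hx => sub_eq_zero.1 (norm_le_zero_iff.1 (le_of_tendsto_of_tendsto'
      (lim (f := fun P => ‖P.2 (P.1 x) - x‖) (by fun_prop)) (hη x) fun n => h2 _ x hx)))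
    (fun x hx => by
      simpa using le_of_tendsto_of_tendsto' ((hη x).const_sub (M.Psi (M.A x)))
        (lim (f := fun P => M.Psi (M.A (P.1 x))) (by fun_prop)) fun n => h3 _ x hx)
    (fun x hx => by
      simpa using le_of_tendsto_of_tendsto' ((hη x).const_sub (M.Psi (M.A x)))
        (lim (f := fun P => M.Psi (M.A (P.2 x))) (by fun_prop)) fun n => h4 _ x hx)
  let Ac : M.G →L[ℝ] M.V := LinearMap.toContinuousLinearMap M.A
  have h6 := lim (f := fun P => ‖Ac‖ * ‖P.1 - Q.1‖) (by fun_prop)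
  simp only [sub_self, norm_zero, mul_zero] at h6
  obtain ⟨n, hn⟩ := (h6.eventually (eventually_le_nhds hκ)).exists
  refine h5 (φ n) ⟨w, hw, fun x hx => ?_⟩
  rw [← hwx x hx, ← map_sub]
  calc ‖M.A ((P (φ n)).1 x - Q.1 x)‖ = ‖Ac (((P (φ n)).1 - Q.1) x)‖ := rfl
    _ ≤ ‖Ac‖ * (‖(P (φ n)).1 - Q.1‖ * ‖x‖) :=
      (Ac.le_opNorm _).trans (by gcongr; exact ContinuousLinearMap.le_opNorm _ _)
    _ ≤ κ * ‖x‖ := by
      rw [← mul_assoc]
      gcongr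

end Vale.Agent.P188.Geo
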