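import Vale.Agent.P188.QV
import Vale.Agent.P188.WGrp

/-! Interface predicates of the coarse analysis. -/

namespace Vale.Agent.P188.Geo
open scoped InnerProductSpace Pointwise
open MeasureTheory
variable (M : Geo)

/-- Support vector of the image heights along the segment `x * (t • c)`, `0 ≤ t ≤ T`, sampled at
`J + 1` points. -/
noncomputable def hr (φ : M.G → M.G) (c : M.G) (T : ℝ) (J : ℕ) (x : M.G) : Fin M.d → ℝ :=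
  fun i => ⨆ j : Fin (J + 1), M.wv (M.A (φ (x * (((j : ℝ) * T / J) • c))) - M.A (φ x)) i

/-- `φ` is affine in the height on the fibres `l * ζ`, `l ∈ C₁ • B`, over the region `Ω`. -/
structure Aff0 (φ : M.G → M.G) (Ω : Set M.V) (S C₁ ε δ : ℝ) (B : Set M.G)
    (w : M.G → (M.V ≃ₗᵢ[ℝ] M.V)) (m : M.G → M.V) : Prop where
  memW : ∀ l, w l ∈ M.W
  meas_w : ∀ u, MeasurableSet {l | w l = u}
  meas_m : Measurable m
  a1 : ∀ ζ ∈ M.Z (C₁ * S), M.A ζ ∈ Ω →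
    M.mE.real ((C₁ • B) ∩ {l | ε * S < ‖M.A (φ (l * ζ)) - w l (M.A ζ) - m l‖}) ≤ δ * M.mE.real B
  a2 : ∀ y ∈ C₁ • M.K (M.h Ω),
    M.mE.real ((C₁ • B) ∩ {l | w (l * y) ≠ w l ∨ ε * S < ‖m (l * y) - m l‖}) ≤ δ * M.mE.real B

/-- `Aff0` together with the containment of relative displacements. -/
structure Aff (φ : M.G → M.G) (Ω : Set M.V) (S C₁ ε δ : ℝ) (B : Set M.G)
    (w : M.G → (M.V ≃ₗᵢ[ℝ] M.V)) (m : M.G → M.V) : Prop extends M.Aff0 φ Ω S C₁ ε δ B w m where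
  a3 : ∀ Ω' ⊆ Ω, Convex ℝ Ω' → IsCompact Ω' → ∀ ζ ∈ M.Z (C₁ * S), M.A ζ ∈ Ω' →
    ∀ y ∈ C₁ • M.K (M.h Ω'),
      M.mE.real ((C₁ • B) ∩ {l | (φ (l * ζ))⁻¹ * φ (l * y * ζ) ∉
        M.K (fun i => M.h (w l '' Ω') i - M.wv (w l (M.A ζ)) i + ε * S) * M.Z (S ^ 2)}) ≤
        δ * M.mE.real B

/-- Admissible data for the affinity theorem. -/
structure Adm (Ω : Set M.V) (S C₁ ε : ℝ) (B : Set M.G) : Prop where
  convex : Convex ℝ Ω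
  compact : IsCompact Ω
  nonempty : Ω.Nonempty
  bdd : Ω ⊆ Metric.closedBall 0 (C₁ * S)
  lb : M.IsLB B
  sub : B ⊆ M.e
  big : M.K (fun i => M.h Ω i + ε * S) ⊆ C₁ • B

/-- Unit vector on the ray of the weight `i`. -/
noncomputable def ray (i : Fin M.d) : M.V := ‖M.wt i‖⁻¹ • M.wt i

/-- Upper bound for the norms of the weights. -/
noncomputable def wmax : ℝ := ∑ i, ‖M.wt i‖

/-- The loose body: normalised by `K (hb 0 ((1 + 3η) R))`, contained in `K (hb 0 R)`. -/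
def Lb (η R : ℝ) : Set M.G :=
  Real.exp (-(M.c * (3 * η * R * M.wmax))) • M.K (M.hb 0 ((1 + 3 * η) * R))

/-- Concentration of the heights at scale `R`. -/
def Conc (φ : M.G → M.G) (R η D C₁ ε δ : ℝ) (w : M.V ≃ₗᵢ[ℝ] M.V) (m : M.V) : Prop :=
  ∀ ζ ∈ M.Z (C₁ * R), ‖M.A ζ‖ ≤ (1 - D * η) * R → ∀ B, M.IsLB B → B ⊆ M.e →
    M.K (M.hb 0 R) ⊆ C₁ • B → B ⊆ C₁ • M.K (M.hb 0 ((1 + η) * R)) →
      M.mE.real ((C₁ • B) ∩ {k | ε * R < ‖M.A (φ (k * ζ)) - w (M.A ζ) - m‖}) ≤ δ * M.mE.real B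

/-- Uniform sublinear height rigidity. -/
def T1Stmt : Prop := ∀ K C ε : ℝ, 0 < ε → ∃ C' : ℝ, ∀ φ, M.MQI K C φ → ∃ w ∈ M.W, ∀ p q,
  ‖M.A (φ q) - M.A (φ p) - w (M.A q - M.A p)‖ ≤ ε * M.ln (p⁻¹ * q) + C'

/-- Logarithmic height rigidity along flats. -/
def T2Stmt : Prop := ∀ K C : ℝ, ∃ C' : ℝ, ∀ φ, M.MQI K C φ → ∀ p, ∀ z ∈ M.u0, M.A z = 0 →
  ‖M.A (φ (p * z)) - M.A (φ p)‖ ≤ C' * Real.log (2 + ‖z‖)

end Vale.Agent.P188.Geo
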