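import Vale.Agent.P188.Defs

/-! Generic facts on word length and quasi-isometries. -/

namespace Vale.Agent.P188
variable {X Y Z : Type*} [Group X] [Group Y] [Group Z]

theorem wlen_one (S : Set X) : wlen S 1 = 0 :=
  Nat.eq_zero_of_le_zero (Nat.sInf_le ⟨[], rfl, by simp, rfl⟩)
theorem qi0_rev (S : Set X) (g : X) (n : ℕ)
    (h : ∃ l : List X, l.length = n ∧ (∀ x ∈ l, x ∈ S ∨ x⁻¹ ∈ S) ∧ l.prod = g) :
    ∃ l : List X, l.length = n ∧ (∀ x ∈ l, x ∈ S ∨ x⁻¹ ∈ S) ∧ l.prod = g⁻¹ := by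
  obtain ⟨l, h1, h2, h3⟩ := h
  refine ⟨(l.map fun x => x⁻¹).reverse, by simpa using h1, fun x hx => ?_,
    by rw [← List.prod_inv_reverse, h3]⟩
  obtain ⟨y, hy, rfl⟩ := List.mem_map.1 (List.mem_reverse.1 hx)
  simpa using (h2 y hy).symm
theorem wlen_inv (S : Set X) (g : X) : wlen S g⁻¹ = wlen S g := by
  unfold wlen
  congr 1
  ext n
  exact ⟨fun h => by simpa using qi0_rev S _ n h, qi0_rev S g n⟩
theorem wlen_le {S : Set X} {l : List X} (hl : ∀ x ∈ l, x ∈ S ∨ x⁻¹ ∈ S) :
    wlen S l.prod ≤ l.length := Nat.sInf_le ⟨l, rfl, hl, rfl⟩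
theorem wlen_spec {S : Set X} (hS : Subgroup.closure S = ⊤) (g : X) :
    ∃ l : List X, l.length = wlen S g ∧ (∀ x ∈ l, x ∈ S ∨ x⁻¹ ∈ S) ∧ l.prod = g := by
  have hg : g ∈ (Subgroup.closure S).toSubmonoid := by rw [hS]; trivial
  rw [Subgroup.closure_toSubmonoid] at hg
  obtain ⟨l, h1, h2⟩ := Submonoid.exists_list_of_mem_closure hg
  exact Nat.sInf_mem (s := {n | ∃ l : List X, l.length = n ∧ (∀ x ∈ l, x ∈ S ∨ x⁻¹ ∈ S) ∧
    l.prod = g}) ⟨l.length, l, rfl, fun x hx => h1 x hx, h2⟩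
theorem wlen_mul {S : Set X} (hS : Subgroup.closure S = ⊤) (g h : X) :
    wlen S (g * h) ≤ wlen S g + wlen S h := by
  obtain ⟨l, h1, h2, h3⟩ := wlen_spec hS g
  obtain ⟨m, h4, h5, h6⟩ := wlen_spec hS h
  have := wlen_le (S := S) (l := l ++ m) fun x hx => (List.mem_append.1 hx).elim (h2 x) (h5 x)
  rwa [List.prod_append, List.length_append, h1, h3, h4, h6] at this
theorem wlen_prod {S : Set X} (hS : Subgroup.closure S = ⊤) (l : List X) :
    wlen S l.prod ≤ (l.map (wlen S)).sum := by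
  induction l with
  | nil => simp [wlen_one]
  | cons a l ih =>
    rw [List.prod_cons, List.map_cons, List.sum_cons]
    exact (wlen_mul hS _ _).trans (Nat.add_le_add_left ih _)
theorem finite_ball {S : Set X} (hf : S.Finite) (hS : Subgroup.closure S = ⊤) (n : ℕ) :
    {g | wlen S g ≤ n}.Finite := by
  have hT : Finite {x : X // x ∈ S ∨ x⁻¹ ∈ S} := (hf.union hf.inv).to_subtype
  refine ((List.finite_length_le {x : X // x ∈ S ∨ x⁻¹ ∈ S} n).image
    fun l => (l.map Subtype.val).prod).subset fun g hg => ?_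
  obtain ⟨l, h1, h2, h3⟩ := wlen_spec hS g
  lift l to List {x : X // x ∈ S ∨ x⁻¹ ∈ S} using h2
  exact ⟨l, (by simpa using h1 : l.length = wlen S g).trans_le hg, h3⟩
theorem wdist_triangle {S : Set X} (hS : Subgroup.closure S = ⊤) (x y z : X) :
    wdist S x z ≤ wdist S x y + wdist S y z := by
  have := wlen_mul hS (x⁻¹ * y) (y⁻¹ * z)
  rw [mul_assoc, mul_inv_cancel_left] at this
  unfold wdist
  exact_mod_cast this
theorem wdist_comm (S : Set X) (x y : X) : wdist S x y = wdist S y x := by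
  rw [wdist, wdist, ← wlen_inv, mul_inv_rev, inv_inv]
theorem wdist_mul_left (S : Set X) (g x y : X) : wdist S (g * x) (g * y) = wdist S x y := by
  rw [wdist, wdist, mul_inv_rev, mul_assoc, inv_mul_cancel_left]
theorem wdist_mul_right (S : Set X) (x b : X) : wdist S x (x * b) = wlen S b := by
  rw [wdist, inv_mul_cancel_left]
theorem qi0_nonneg (S : Set X) (x y : X) : 0 ≤ wdist S x y := Nat.cast_nonneg _
theorem qi0_self (S : Set X) (x : X) : wdist S x x = 0 := by simp [wdist, wlen_one]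

theorem IsQI.mono {S : Set X} {T : Set Y} {K C K' C' : ℝ} {F : X → Y} (h : IsQI S T K C F)
    (hK : K ≤ K') (hC : C ≤ C') : IsQI S T K' C' F := by
  obtain ⟨h1, h2, h3, h4⟩ := h
  refine ⟨h1.trans hK, h2.trans hC, fun x x' => ?_, fun y => (h4 y).imp fun x hx => hx.trans hC⟩
  have a1 := mul_le_mul_of_nonneg_right (inv_anti₀ (by linarith) hK) (qi0_nonneg S x x')
  have a2 := mul_le_mul_of_nonneg_right hK (qi0_nonneg S x x')
  exact ⟨by linarith [(h3 x x').1], by linarith [(h3 x x').2]⟩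
theorem IsQI.comp {S : Set X} {T : Set Y} {U : Set Z} (hU : Subgroup.closure U = ⊤)
    {K C K' C' : ℝ} {F : X → Y} {F' : Y → Z} (h : IsQI S T K C F) (h' : IsQI T U K' C' F') :
    IsQI S U (K * K') (K' * C + 2 * C') (F' ∘ F) := by
  obtain ⟨h1, h2, h3, h4⟩ := h
  obtain ⟨k1, k2, k3, k4⟩ := h'
  have p : 0 ≤ K' := by linarith
  refine ⟨one_le_mul_of_one_le_of_one_le h1 k1, by positivity, fun x x' => ⟨?_, ?_⟩, fun z => ?_⟩
  · have a1 := mul_le_mul_of_nonneg_left (h3 x x').1 (inv_nonneg.2 p)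
    have a2 := mul_le_mul_of_nonneg_right ((inv_le_one_of_one_le₀ k1).trans k1) h2
    have a3 := (k3 (F x) (F x')).1
    rw [mul_inv]
    simp only [Function.comp]
    linarith
  · have a1 := mul_le_mul_of_nonneg_left (h3 x x').2 p
    have a3 := (k3 (F x) (F x')).2
    simp only [Function.comp]
    linarith
  · obtain ⟨y, hy⟩ := k4 z
    obtain ⟨x, hx⟩ := h4 y
    refine ⟨x, (wdist_triangle hU z (F' y) _).trans ?_⟩
    have a1 := mul_le_mul_of_nonneg_left hx p
    have a3 := (k3 y (F x)).2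
    simp only [Function.comp]
    linarith
theorem IsQI.comp_mul_left {S : Set X} {T : Set Y} {K C : ℝ} {F : X → Y} (h : IsQI S T K C F)
    (g : X) : IsQI S T K C (fun x => F (g * x)) := by
  obtain ⟨h1, h2, h3, h4⟩ := h
  refine ⟨h1, h2, fun x x' => ?_, fun y => ?_⟩
  · rw [← wdist_mul_left S g x x']
    exact h3 _ _
  · obtain ⟨x, hx⟩ := h4 y
    exact ⟨g⁻¹ * x, by simpa using hx⟩
theorem IsQI.mul_left {S : Set X} {T : Set Y} {K C : ℝ} {F : X → Y} (h : IsQI S T K C F)
    (g : Y) : IsQI S T K C (fun x => g * F x) := by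
  obtain ⟨h1, h2, h3, h4⟩ := h
  refine ⟨h1, h2, fun x x' => ?_, fun y => ?_⟩
  · rw [wdist_mul_left]
    exact h3 _ _
  · obtain ⟨x, hx⟩ := h4 (g⁻¹ * y)
    rw [← wdist_mul_left T g, mul_inv_cancel_left] at hx
    exact ⟨x, hx⟩
/-- Any coarse inverse is a quasi-isometry. -/
theorem IsQI.inv {S : Set X} {T : Set Y} (hS : Subgroup.closure S = ⊤)
    (hT : Subgroup.closure T = ⊤) {K C D : ℝ} {F : X → Y} (h : IsQI S T K C F) {F' : Y → X}
    (hD : 0 ≤ D) (h' : ∀ y, wdist T y (F (F' y)) ≤ D) :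
    IsQI T S K (K * (C + 2 * D)) F' ∧ ∀ x, wdist S x (F' (F x)) ≤ K * (C + D) := by
  obtain ⟨h1, h2, h3, -⟩ := h
  have p : 0 < K := by linarith
  have low : ∀ x x', wdist S x x' ≤ K * (wdist T (F x) (F x') + C) := fun x x' => by
    rw [← inv_mul_le_iff₀ p]
    linarith [(h3 x x').1]
  have key : ∀ x, wdist S x (F' (F x)) ≤ K * (C + D) := fun x =>
    (low _ _).trans (mul_le_mul_of_nonneg_left (by linarith [h' (F x)]) p.le)
  refine ⟨⟨h1, by positivity, fun y y' => ⟨?_, ?_⟩, fun x => ⟨F x, (key x).trans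
    (mul_le_mul_of_nonneg_left (by linarith) p.le)⟩⟩, key⟩
  · have a1 := wdist_triangle hT y (F (F' y)) y'
    have a2 := wdist_triangle hT (F (F' y)) (F (F' y')) y'
    have a3 := h' y'
    rw [wdist_comm] at a3
    have a4 : C + 2 * D ≤ K * (K * (C + 2 * D)) := by
      rw [← mul_assoc]
      exact le_mul_of_one_le_left (by positivity) (one_le_mul_of_one_le_of_one_le h1 h1)
    rw [sub_le_iff_le_add, inv_mul_le_iff₀ p]
    linarith [h' y, (h3 (F' y) (F' y')).2]
  · have a1 := wdist_triangle hT (F (F' y)) y (F (F' y'))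
    have a2 := wdist_triangle hT y y' (F (F' y'))
    have a3 := h' y
    rw [wdist_comm] at a3
    rw [← mul_add]
    exact (low _ _).trans (mul_le_mul_of_nonneg_left (by linarith [h' y']) p.le)
/-- Svarc-Milnor type criterion: bornologous, uniformly proper and cobounded. -/
theorem isQI_of_coarse {S : Set X} {T : Set Y} (hS : Subgroup.closure S = ⊤)
    (hT : Subgroup.closure T = ⊤) (F : X → Y) (D : ℝ)
    (h1 : ∀ x, ∀ s ∈ S, wdist T (F x) (F (x * s)) ≤ D)
    (h2 : ∀ R : ℝ, ∃ R' : ℝ, ∀ x x', wdist T (F x) (F x') ≤ R → wdist S x x' ≤ R')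
    (h3 : ∀ y, ∃ x, wdist T y (F x) ≤ D) : ∃ K C, IsQI S T K C F := by
  have hD : 0 ≤ D := (h3 1).elim fun x hx => (qi0_nonneg _ _ _).trans hx
  obtain ⟨R, hR⟩ := h2 (2 * D + 1)
  have hR0 : 0 ≤ R := (qi0_nonneg S 1 1).trans (hR 1 1 (by rw [qi0_self]; positivity))
  have up : ∀ l : List X, (∀ s ∈ l, s ∈ S ∨ s⁻¹ ∈ S) → ∀ x,
      wdist T (F x) (F (x * l.prod)) ≤ D * l.length := by
    intro l
    induction l with
    | nil => intro _ x; simp [qi0_self]
    | cons s l ih =>
      intro hl x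
      have a1 : wdist T (F x) (F (x * s)) ≤ D := by
        rcases hl s List.mem_cons_self with hs | hs
        · exact h1 x s hs
        · have := h1 (x * s) _ hs
          rwa [mul_inv_cancel_right, wdist_comm] at this
      have a2 := ih (fun t ht => hl t (List.mem_cons_of_mem _ ht)) (x * s)
      have a3 := wdist_triangle hT (F x) (F (x * s)) (F (x * s * l.prod))
      rw [List.prod_cons, ← mul_assoc, List.length_cons]
      push_cast
      linarith
  have low : ∀ l : List Y, (∀ s ∈ l, s ∈ T ∨ s⁻¹ ∈ T) → ∀ y x x', wdist T y (F x) ≤ D →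
      wdist T (y * l.prod) (F x') ≤ D → wdist S x x' ≤ R * (l.length + 1) := by
    intro l
    induction l with
    | nil =>
      intro _ y x x' a1 a2
      rw [wdist_comm] at a1
      rw [List.prod_nil, mul_one] at a2
      simpa using hR x x' (by linarith [wdist_triangle hT (F x) y (F x')])
    | cons s l ih =>
      intro hl y x x' a1 a2
      obtain ⟨z, hz⟩ := h3 (y * s)
      rw [List.prod_cons, ← mul_assoc] at a2
      have a3 := ih (fun t ht => hl t (List.mem_cons_of_mem _ ht)) (y * s) z x' hz a2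
      have a4 : wdist T y (y * s) ≤ 1 := by
        have := wlen_le (S := T) (l := [s]) (by simpa using hl s List.mem_cons_self)
        rw [wdist_mul_right]
        exact_mod_cast (by simpa using this : wlen T s ≤ 1)
      rw [wdist_comm] at a1
      have a5 := hR x z (by
        linarith [wdist_triangle hT (F x) y (F z), wdist_triangle hT y (y * s) (F z)])
      rw [List.length_cons]
      push_cast
      linarith [wdist_triangle hS x z x']
  refine ⟨D + R + 1, D + 1, by linarith, by linarith, fun x x' => ⟨?_, ?_⟩,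
    fun y => (h3 y).imp fun x hx => by linarith⟩
  · obtain ⟨l, a1, a2, a3⟩ := wlen_spec hT ((F x)⁻¹ * F x')
    have a4 := low l a2 (F x) x x' (by rwa [qi0_self]) (by rwa [a3, mul_inv_cancel_left, qi0_self])
    rw [a1, ← wdist] at a4
    rw [sub_le_iff_le_add, inv_mul_le_iff₀ (by positivity)]
    have := qi0_nonneg T (F x) (F x')
    exact a4.trans (mul_le_mul (by linarith) (by linarith) (by positivity) (by positivity))
  · obtain ⟨l, a1, a2, a3⟩ := wlen_spec hS (x⁻¹ * x')
    have a4 := up l a2 x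
    rw [a1, a3, mul_inv_cancel_left, ← wdist] at a4
    nlinarith [mul_nonneg hR0 (qi0_nonneg S x x'), qi0_nonneg S x x']
theorem isQI_subtype {S : Finset X} (hS : Subgroup.closure (S : Set X) = ⊤) (H : Subgroup X)
    [H.FiniteIndex] (S' : Finset H) (hS' : Subgroup.closure (S' : Set H) = ⊤) :
    ∃ K C, IsQI (S' : Set H) (S : Set X) K C (fun x => (x : X)) := by
  obtain ⟨D1, hD1⟩ := (S'.finite_toSet.image fun s : H => (wlen (S : Set X) (s : X) : ℝ)).bddAbove
  obtain ⟨D2, hD2⟩ := (Set.finite_range fun q : X ⧸ H => (wlen (S : Set X) q.out : ℝ)).bddAbove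
  refine isQI_of_coarse hS' hS _ (max D1 D2) (fun x s hs => ?_) (fun R => ?_) fun y => ?_
  · rw [Subgroup.coe_mul, wdist_mul_right]
    exact le_max_of_le_left (hD1 ⟨s, hs, rfl⟩)
  · obtain ⟨R', hR'⟩ := (((finite_ball S.finite_toSet hS ⌈R⌉₊).preimage
      (f := fun x : H => (x : X)) Subtype.val_injective.injOn).image
      fun x : H => (wlen (S' : Set H) x : ℝ)).bddAbove
    refine ⟨R', fun x x' h => hR' ⟨x⁻¹ * x', ?_, rfl⟩⟩
    have := h.trans (Nat.le_ceil R)
    unfold wdist at this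
    exact_mod_cast this
  · obtain ⟨h, hh⟩ := QuotientGroup.mk_out_eq_mul H y⁻¹
    refine ⟨h, le_max_of_le_right (hD2 ⟨QuotientGroup.mk y⁻¹, ?_⟩)⟩
    simp only [hh, wdist]

end Vale.Agent.P188
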