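import Vale.Agent.P188.WGrp
import Vale.Agent.P188.QI0

/-! Change of the Euclidean structure on the height space so that `W` acts orthogonally.
Plan: the finite group of `Psi`-isometries (`W_finite'`; they are invertible by `Psi_pos`) fixes
the form `∑ ‖L v‖²`; take a linear automorphism `T` with `‖T v‖² = ∑ ‖L v‖²`; `M'` has the same
`d k br star c`, `a' = T ∘ a`, `wt' i = (T⁻¹)† (wt i)`; then `del' (T v) = del v`, the group laws
agree, `Psi' (T s) = Psi s`, and the identity map is a `(1, 0)`-quasi-isometry. -/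

namespace Vale.Agent.P188.Geo

open scoped InnerProductSpace

/-- Transport of the height space along a linear automorphism. -/
noncomputable def orthTr (M : Geo) (T : M.V ≃ₗ[ℝ] M.V) : Geo where
  d := M.d
  k := M.k
  br := M.br
  wt := fun i => LinearMap.adjoint (T.symm : M.V →ₗ[ℝ] M.V) (M.wt i)
  a := (T : M.V →ₗ[ℝ] M.V) ∘ₗ M.a
  star := M.star
  c := M.c
  br_self := M.br_self
  jacobi := M.jacobi
  nil := M.nil
  br_wt := fun i j m h => by rw [M.br_wt i j m h, map_add]
  a_br := fun x y => by rw [LinearMap.comp_apply, M.a_br, map_zero]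
  a_wt := fun i h => by
    rw [LinearMap.comp_apply, M.a_wt i (fun h0 => h (by rw [h0, map_zero])), map_zero]
  a_surj := T.surjective.comp M.a_surj
  unimod := by rw [← map_sum, M.unimod, map_zero]
  wt_span := fun v h => by
    have h1 : T.symm v = 0 := M.wt_span _ fun i => by
      have := h i
      rwa [LinearMap.adjoint_inner_left] at this
    simpa using h1
  star_assoc := M.star_assoc
  bch := M.bch
  conj := M.conj

section
variable (M : Geo) (T : M.V ≃ₗ[ℝ] M.V)

theorem orthTr_inner (i : Fin M.d) (v : M.V) :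
    ⟪(M.orthTr T).wt i, (v : (M.orthTr T).V)⟫_ℝ = ⟪M.wt i, T.symm v⟫_ℝ :=
  LinearMap.adjoint_inner_left (T.symm : M.V →ₗ[ℝ] M.V) v (M.wt i)

theorem orthTr_ne (i : Fin M.d) : (M.orthTr T).wt i ≠ 0 ↔ M.wt i ≠ 0 := by
  refine not_congr ⟨fun h => ?_, fun h => ?_⟩
  · have h1 := M.orthTr_inner T i (T (M.wt i))
    rw [h, T.symm_apply_apply] at h1
    exact inner_self_eq_zero.1 (h1.symm.trans (inner_zero_left _))
  · show LinearMap.adjoint (T.symm : M.V →ₗ[ℝ] M.V) (M.wt i) = 0
    rw [h, map_zero]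

theorem orthTr_del (v : M.V) (x : M.G) : (M.orthTr T).del (T v) x = M.del v x := by
  apply M.ext_co
  intro i
  have h1 := (M.orthTr T).co_del (T v) x i
  rw [M.orthTr_inner T i, T.symm_apply_apply] at h1
  exact h1.trans (M.co_del v x i).symm

/-- The identity map is a group isomorphism. -/
noncomputable def orthEq : M.G ≃* (M.orthTr T).G where
  toFun x := x
  invFun x := x
  left_inv _ := rfl
  right_inv _ := rfl
  map_mul' x y := (congrArg (M.st x) (M.orthTr_del T (M.A x) y)).symm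

theorem orthTr_mon1 (L : Set (M.orthTr T).G) (x : (M.orthTr T).G) (h : (M.orthTr T).Mon L x) :
    M.Mon L x := by
  induction h with
  | base h => exact Mon.base (M := M) h
  | neg _ h => exact Mon.neg (M := M) h
  | lie _ _ h h' => exact Mon.lie (M := M) h h'

theorem orthTr_mon2 (L : Set M.G) (x : M.G) (h : M.Mon L x) : (M.orthTr T).Mon L x := by
  induction h with
  | base h => exact Mon.base (M := M.orthTr T) h
  | neg _ h => exact Mon.neg (M := M.orthTr T) h
  | lie _ _ h h' => exact Mon.lie (M := M.orthTr T) h h'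

theorem orthTr_e : (M.orthTr T).e = M.e := by
  have h1 : {y : M.G | ∃ i, (M.orthTr T).wt i ≠ 0 ∧ y = (M.orthTr T).X i} =
      {y : M.G | ∃ i, M.wt i ≠ 0 ∧ y = M.X i} :=
    Set.ext fun y => exists_congr fun i => and_congr (M.orthTr_ne T i) Iff.rfl
  have h2 : {x : M.G | (M.orthTr T).Mon
      {y : M.G | ∃ i, (M.orthTr T).wt i ≠ 0 ∧ y = (M.orthTr T).X i} x} =
      {x : M.G | M.Mon {y : M.G | ∃ i, M.wt i ≠ 0 ∧ y = M.X i} x} :=
    Set.ext fun x => (iff_of_eq (congrArg (fun L => (M.orthTr T).Mon L x) h1)).trans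
      ⟨M.orthTr_mon1 T _ x, M.orthTr_mon2 T _ x⟩
  exact congrArg (Submodule.span ℝ) h2

theorem orthTr_mono : ∀ l : List M.G, (M.orthTr T).mono l = M.mono l
  | [] => rfl
  | [_] => rfl
  | x :: y :: l => congrArg (M.B x) (orthTr_mono (y :: l))

/-- `Phi` with a free number of words. -/
noncomputable def orthPhi (n : ℕ) (r : Fin M.d → ℝ) : ℝ :=
  sSup {t | ∃ β : Fin n → List (Fin M.d), ((∀ j, ∀ i ∈ β j, M.wt i ≠ 0) ∧
    LinearIndependent ℝ (fun j => M.mono ((β j).map M.X))) ∧ t = ∑ j, ((β j).map r).sum}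

theorem orthTr_Phi (r : Fin M.d → ℝ) : (M.orthTr T).Phi r = M.Phi r := by
  have h1 : Module.finrank ℝ (M.orthTr T).e = Module.finrank ℝ M.e :=
    congrArg (fun W : Submodule ℝ M.G => Module.finrank ℝ W) (M.orthTr_e T)
  have h2 : ∀ n, (M.orthTr T).orthPhi n r = M.orthPhi n r := fun n => by
    refine congrArg sSup (Set.ext fun t => exists_congr fun β => and_congr (and_congr ?_ ?_) Iff.rfl)
    · exact forall_congr' fun j => forall_congr' fun i => forall_congr' fun _ => M.orthTr_ne T i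
    · have : (fun j => (M.orthTr T).mono ((β j).map (M.orthTr T).X)) =
          fun j => M.mono ((β j).map M.X) := funext fun j => M.orthTr_mono T _
      rw [this]
      exact Iff.rfl
  show (M.orthTr T).orthPhi (Module.finrank ℝ (M.orthTr T).e) r =
    M.orthPhi (Module.finrank ℝ M.e) r
  rw [h1, h2]

theorem orthTr_Psi (s : M.V) : (M.orthTr T).Psi s = M.Psi (T.symm s) := by
  have : (fun i : Fin M.d => max 0 ⟪(M.orthTr T).wt i, (s : (M.orthTr T).V)⟫_ℝ) =
      fun i => max 0 ⟪M.wt i, T.symm s⟫_ℝ := funext fun i => by rw [M.orthTr_inner T i s]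
  exact (congrArg (M.orthTr T).Phi this).trans (M.orthTr_Phi T _)

end

theorem orth_wlen {X Y : Type*} [Group X] [Group Y] (e : X ≃* Y) {S : Set X} {S' : Set Y}
    (h : ∀ x, e x ∈ S' ↔ x ∈ S) (g : X) : wlen S' (e g) = wlen S g := by
  unfold wlen
  congr 1
  ext n
  constructor
  · rintro ⟨l, h1, h2, h3⟩
    refine ⟨l.map e.symm, by simpa using h1, fun x hx => ?_, ?_⟩
    · obtain ⟨y, hy, rfl⟩ := List.mem_map.1 hx
      rw [← h, ← h, _root_.map_inv, e.apply_symm_apply]
      exact h2 y hy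
    · rw [← map_list_prod, h3, e.symm_apply_apply]
  · rintro ⟨l, h1, h2, h3⟩
    refine ⟨l.map e, by simpa using h1, fun x hx => ?_, ?_⟩
    · obtain ⟨y, hy, rfl⟩ := List.mem_map.1 hx
      rw [← _root_.map_inv, h, h]
      exact h2 y hy
    · rw [← map_list_prod, h3]

theorem orth_exists_T (M : Geo) : ∃ T : M.V ≃ₗ[ℝ] M.V, ∀ L : M.V →ₗ[ℝ] M.V,
    (∀ s, M.Psi (L s) = M.Psi s) → ∀ v, ‖T (L v)‖ = ‖T v‖ := by
  classical
  let S := {L : M.V →ₗ[ℝ] M.V | ∀ s, M.Psi (L s) = M.Psi s}
  have : Fintype S := M.W_finite'.fintype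
  let Φ : M.V →ₗ[ℝ] PiLp 2 (fun _ : S => M.V) :=
    (WithLp.linearEquiv 2 ℝ (S → M.V)).symm.toLinearMap ∘ₗ LinearMap.pi fun L : S => L.1
  have hΦ : ∀ v (L : S), Φ v L = L.1 v := fun _ _ => rfl
  have hinj : Function.Injective Φ := by
    intro v w h
    have := congrArg (fun z : PiLp 2 (fun _ : S => M.V) => z ⟨LinearMap.id, fun _ => rfl⟩) h
    exact this
  have hfr : Module.finrank ℝ (LinearMap.range Φ) = M.k := by
    rw [LinearMap.finrank_range_of_inj hinj]
    simp
  let U := ((stdOrthonormalBasis ℝ (LinearMap.range Φ)).reindex (finCongr hfr)).repr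
  refine ⟨(LinearEquiv.ofInjective Φ hinj).trans U.toLinearEquiv, fun L hL v => ?_⟩
  have hn : ∀ w, ‖((LinearEquiv.ofInjective Φ hinj).trans U.toLinearEquiv) w‖ = ‖Φ w‖ :=
    fun w => U.norm_map _
  rw [hn, hn]
  obtain ⟨C, -, hC⟩ := M.Psi_pos
  have hLi : Function.Injective L := by
    refine (injective_iff_map_eq_zero L).2 fun s hs => ?_
    have h0 : M.Psi 0 = 0 := by simpa using M.Psi_smul 0 0
    have h1 := hC s
    rw [← hL s, hs, h0, mul_zero] at h1
    exact norm_le_zero_iff.1 h1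
  have hLs : Function.Surjective L := LinearMap.injective_iff_surjective.1 hLi
  let f : S → S := fun L' => ⟨L'.1 ∘ₗ L, fun s => (L'.2 _).trans (hL s)⟩
  have hf : Function.Injective f := by
    intro L1 L2 h
    refine Subtype.ext (LinearMap.ext fun w => ?_)
    obtain ⟨w, rfl⟩ := hLs w
    exact congrArg (fun z : S => z.1 w) h
  have hsq : ‖Φ (L v)‖ ^ 2 = ‖Φ v‖ ^ 2 := by
    rw [PiLp.norm_sq_eq_of_L2, PiLp.norm_sq_eq_of_L2]
    exact Fintype.sum_bijective f (Finite.injective_iff_bijective.1 hf) _ _ fun L' => rfl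
  exact (pow_left_inj₀ (norm_nonneg _) (norm_nonneg _) two_ne_zero).1 hsq

theorem exists_orth (M : Geo) : ∃ (M' : Geo) (F : M.G → M'.G), M'.Orth ∧ IsQI M.Q M'.Q 1 0 F := by
  obtain ⟨T, hT⟩ := M.orth_exists_T
  refine ⟨M.orthTr T, M.orthEq T, fun L hL v => ?_, le_rfl, le_rfl, fun x x' => ?_, fun y => ?_⟩
  · let L1 : M.V →ₗ[ℝ] M.V := L
    have h1 := hT ((T.symm : M.V →ₗ[ℝ] M.V) ∘ₗ L1 ∘ₗ (T : M.V →ₗ[ℝ] M.V)) (fun s => by
      have h2 := ((M.orthTr_Psi T (L1 (T s))).symm.trans (hL (T s))).trans (M.orthTr_Psi T (T s))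
      rw [T.symm_apply_apply] at h2
      exact h2)
    have h3 : ∀ w : M.V, ‖L1 w‖ = ‖w‖ := fun w => by
      simpa only [LinearMap.comp_apply, LinearEquiv.coe_coe, LinearEquiv.apply_symm_apply]
        using h1 (T.symm w)
    exact h3 v
  · have h1 : wdist (M.orthTr T).Q (M.orthEq T x) (M.orthEq T x') = wdist M.Q x x' := by
      unfold wdist
      rw [← _root_.map_inv, ← map_mul, 
        orth_wlen (M.orthEq T) (S := M.Q) (S' := (M.orthTr T).Q) fun _ => Iff.rfl]
    rw [h1]
    simp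
  · refine ⟨(M.orthEq T).symm y, ?_⟩
    rw [MulEquiv.apply_symm_apply, wdist, inv_mul_cancel, wlen_one]
    simp

end Vale.Agent.P188.Geo
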