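import Vale.Agent.P188.Conc

/-! Uniform sublinear height rigidity from concentration.
Plan.  For `g` and `R ≥ S₀` choose `(w g R, m g R)` for `x ↦ φ (g * x)`.
Two-point lemma: if `ln y₀ ≤ d`, `R + C (d + 1) ≤ R'`, `R' + C (d + 1) ≤ (1 + η) R`, then
`w g R = w (g y₀) R'` and `‖m g R + w (A y₀) - m (g y₀) R'‖ ≤ C ε R`: write `y₀ = e₀ ζ₀`
(`nf_of_ln`), `g y₀ k ζ = g (e₀ * Ad ζ₀ k) (ζ₀ ζ)`; for `k ∈ K (hb 0 R')` the body
`B = Ad ζ₀ '' K (hb 0 R')` is squeezed between `K (hb 0 R)` and `K (hb 0 ((1+η) R))` (`Ad_Z_K` for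
`ζ₀` and `ζ₀⁻¹`), `e₀ ∈ B`; with `δ` small a common good `k` exists for the finitely many test
positions `ζ = 0, ι ((R / 4) b_j)`; `W_sep`.  (`R' = (1 + η / 2) R` works when
`C (d + 1) ≤ η R / 2`.)  Base scale: all points of the box are within `C R₀` of `g`
(`ln_K`, `A_lip`).  Scales `R_j = (1 + η / 2) ^ j R₀`; take `j` minimal with
`C (d + 1) ≤ η R_j / 2`, compare `(p, R_j)` with `(q, R_(j+1))`, sum the geometric series: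
error `≤ C R₀ + C (ε / η²) d`.  The colour is the same at all scales and points. -/

namespace Vale.Agent.P188.Geo
open scoped InnerProductSpace Pointwise
open MeasureTheory
variable (M : Geo)

theorem t1_wmin : ∃ c : ℝ, 1 ≤ c ∧ ∀ i, M.wt i ≠ 0 → 1 ≤ c * ‖M.wt i‖ := by
  have h0 : 0 ≤ ∑ i, ‖M.wt i‖⁻¹ := Finset.sum_nonneg fun i _ => by positivity
  refine ⟨1 + ∑ i, ‖M.wt i‖⁻¹, by linarith, fun i hi => ?_⟩
  have h1 : ‖M.wt i‖⁻¹ ≤ ∑ i, ‖M.wt i‖⁻¹ :=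
    Finset.single_le_sum (f := fun i => ‖M.wt i‖⁻¹) (fun i _ => by positivity) (Finset.mem_univ i)
  have h2 : 0 < ‖M.wt i‖ := norm_pos_iff.2 hi
  have h3 : ‖M.wt i‖⁻¹ * ‖M.wt i‖ = 1 := inv_mul_cancel₀ h2.ne'
  nlinarith [mul_le_mul_of_nonneg_right h1 h2.le]

theorem t1_hb (R : ℝ) (i) : M.hb 0 R i = R * ‖M.wt i‖ := by simp [hb]

theorem t1_K_mono {R R' : ℝ} (h : R ≤ R') : M.K (M.hb 0 R) ⊆ M.K (M.hb 0 R') :=
  M.K_mono fun i _ => by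
    rw [t1_hb, t1_hb]
    exact mul_le_mul_of_nonneg_right h (norm_nonneg _)

theorem t1_Ad : ∃ C : ℝ, 1 ≤ C ∧ ∀ (ρ R R' : ℝ), 0 ≤ ρ → ∀ ζ ∈ M.Z ρ, R + C * (ρ + 1) ≤ R' →
    M.Ad ζ '' M.K (M.hb 0 R) ⊆ M.K (M.hb 0 R') := by
  obtain ⟨c, hc, hw⟩ := M.t1_wmin
  obtain ⟨Ca, hCa, ha⟩ := M.Ad_Z_K
  obtain ⟨Cz, hCz, hz⟩ := M.Z_A
  have hac : 1 ≤ Ca * c := one_le_mul_of_one_le_of_one_le hCa hc
  refine ⟨Cz + Ca * c, by linarith, fun ρ R R' hρ ζ hζ hR => ?_⟩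
  refine (ha ρ _ hρ (M.hb_wtFun 0 R) ζ hζ).trans (M.K_mono fun i hi => ?_)
  rw [t1_hb, t1_hb]
  have h0 := norm_nonneg (M.wt i)
  have h1 : M.wv (M.A ζ) i ≤ ‖M.wt i‖ * (Cz * ρ) :=
    (real_inner_le_norm _ _).trans (mul_le_mul_of_nonneg_left (hz ρ hρ ζ hζ).2 h0)
  have h2 : Real.log (2 + ρ) ≤ ρ + 1 := by
    linarith [Real.log_le_sub_one_of_pos (show 0 < 2 + ρ by linarith)]
  have h3 : Ca * Real.log (2 + ρ) ≤ Ca * (ρ + 1) * (c * ‖M.wt i‖) :=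
    (mul_le_mul_of_nonneg_left h2 (by linarith)).trans
      (le_mul_of_one_le_right (by positivity) (hw i hi))
  have h4 := mul_le_mul_of_nonneg_right hR h0
  have h5 : 0 ≤ Cz * ‖M.wt i‖ := by positivity
  nlinarith

theorem t1_fin (r) (t : ℝ) (g : M.G) (S : Set M.G) :
    M.mE ((t • (M.Ad g '' M.K r)) ∩ S) ≠ ⊤ :=
  ((measure_mono Set.inter_subset_left).trans_lt
    ((((M.K_isLB r).image_Ad M g).compact.smul t).measure_lt_top (μ := subMu M.e))).ne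

theorem t1_fin' (r) (t : ℝ) (S : Set M.G) : M.mE ((t • M.K r) ∩ S) ≠ ⊤ :=
  ((measure_mono Set.inter_subset_left).trans_lt
    (((M.K_isLB r).compact.smul t).measure_lt_top (μ := subMu M.e))).ne

/-- Concentration for the standard body. -/
theorem t1_std {φ : M.G → M.G} {R η D C₁ ε δ : ℝ} {w m} (h : M.Conc φ R η D C₁ ε δ w m)
    (hR : 0 ≤ R) (hη : 0 ≤ η) (hC : 1 ≤ C₁) {ζ : M.G} (hζ : ζ ∈ M.Z (C₁ * R))
    (hA : ‖M.A ζ‖ ≤ (1 - D * η) * R) :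
    M.mE.real ((C₁ • M.K (M.hb 0 R)) ∩
      {k | ε * R < ‖M.A (φ (k * ζ)) - w (M.A ζ) - m‖}) ≤ δ * M.mE.real (M.K (M.hb 0 R)) :=
  h ζ hζ hA _ (M.K_isLB _) (M.K_sub_e _) ((M.K_isLB _).sc.subset_smul hC)
    ((M.t1_K_mono (by nlinarith)).trans ((M.K_isLB _).sc.subset_smul hC))

/-- The measure-theoretic core of the two-point lemma. -/
theorem t1_core {φ : M.G → M.G} {D η ε R R' C₁ Cx : ℝ} {w w' : M.V ≃ₗᵢ[ℝ] M.V} {m m' : M.V}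
    {e₀ ζ₀ ζ : M.G} (hη : 0 ≤ η) (hR' : 0 ≤ R') (hC₁ : 1 ≤ C₁) (hCx : 0 ≤ Cx) (hxC : Cx ≤ C₁)
    (hx : ∀ S, M.IsLB S → M.Tame S → ∀ x ∈ (1 : ℝ) • S, ∀ y ∈ (1 : ℝ) • S, x * y ∈ Cx • S)
    (hζ₀ : ζ₀ ∈ M.u0) (he₀ : e₀ ∈ M.K (M.hb 0 R))
    (hlow : M.K (M.hb 0 R) ⊆ M.Ad ζ₀ '' M.K (M.hb 0 R'))
    (hup : M.Ad ζ₀ '' M.K (M.hb 0 R') ⊆ M.K (M.hb 0 ((1 + η) * R)))
    (hprod : ζ₀ * ζ ∈ M.Z (C₁ * R)) (hAp : ‖M.A (ζ₀ * ζ)‖ ≤ (1 - D * η) * R)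
    (hζ : ζ ∈ M.Z (C₁ * R')) (hA : ‖M.A ζ‖ ≤ (1 - D * η) * R')
    (H : M.Conc φ R η D C₁ ε 4⁻¹ w m)
    (H' : M.Conc (fun x => φ (e₀ * ζ₀ * x)) R' η D C₁ ε 4⁻¹ w' m') :
    ‖w (M.A (e₀ * ζ₀)) + m - m' + (w (M.A ζ) - w' (M.A ζ))‖ ≤ ε * (R + R') := by
  have b1 := M.t1_std H' hR' hη hC₁ hζ hA
  have g3 := M.mE_K_pos (M.hb 0 R')
  have hK := M.K_isLB (M.hb 0 R')
  have hKe := M.K_sub_e (M.hb 0 R')
  have f1 := M.t1_fin' (M.hb 0 R') C₁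
  have f3 := M.t1_fin (M.hb 0 R') C₁ ζ₀
  generalize M.K (M.hb 0 R') = K' at *
  have hBlb : M.IsLB (M.Ad ζ₀ '' K') := hK.image_Ad M ζ₀
  have hBe : M.Ad ζ₀ '' K' ⊆ M.e := by
    rintro _ ⟨x, hx', rfl⟩
    exact M.Ad_mem_e _ (hKe hx')
  have he₀e : e₀ ∈ M.e := M.K_sub_e _ he₀
  have b2 := H _ hprod hAp _ hBlb hBe (hlow.trans (hBlb.sc.subset_smul hC₁))
    (hup.trans ((M.K_isLB _).sc.subset_smul hC₁))
  have b3 : M.mE.real (M.Ad ζ₀ '' K') = M.mE.real K' := by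
    rw [measureReal_def, measureReal_def, mE_image_Ad]
  rw [b3] at b2
  set S₁ := (C₁ • K') ∩ {k | ε * R' < ‖M.A (φ (e₀ * ζ₀ * (k * ζ))) - w' (M.A ζ) - m'‖}
    with hS₁
  set S₂ := (C₁ • (M.Ad ζ₀ '' K')) ∩
    {k | ε * R < ‖M.A (φ (k * (ζ₀ * ζ))) - w (M.A (ζ₀ * ζ)) - m‖} with hS₂
  set S₃ := M.Ad ζ₀⁻¹ '' ((fun x => e₀ * x) ⁻¹' S₂) with hS₃
  have b4 : M.mE S₃ = M.mE S₂ := by rw [hS₃, mE_image_Ad, M.mE_preimage_mul_left he₀e]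
  have hex : ∃ k ∈ K', k ∉ S₁ ∧ k ∉ S₃ := by
    by_contra hcon
    have hsub : K' ⊆ S₁ ∪ S₃ := fun k hk => by
      by_contra hk'
      exact hcon ⟨k, hk, fun h => hk' (Or.inl h), fun h => hk' (Or.inr h)⟩
    have f1' : M.mE S₁ ≠ ⊤ := f1 _
    have f3' : M.mE S₃ ≠ ⊤ := by rw [b4]; exact f3 _
    have g1 := (measureReal_mono hsub (measure_union_ne_top f1' f3')).trans
      (measureReal_union_le S₁ S₃)
    have g2 : M.mE.real S₃ = M.mE.real S₂ := by rw [measureReal_def, measureReal_def, b4]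
    linarith
  obtain ⟨k, hk, n1, n3⟩ := hex
  have hkB : M.Ad ζ₀ k ∈ M.Ad ζ₀ '' K' := ⟨k, hk, rfl⟩
  have hT : e₀ * M.Ad ζ₀ k ∈ C₁ • (M.Ad ζ₀ '' K') :=
    hBlb.sc.smul_mono (by rwa [abs_of_nonneg hCx])
      (hx _ hBlb (M.tame_of_e hBe) _ (M.lb_one (hlow he₀)) _ (M.lb_one hkB))
  have c1 : ‖M.A (φ (e₀ * ζ₀ * (k * ζ))) - w' (M.A ζ) - m'‖ ≤ ε * R' := by
    by_contra hcon
    exact n1 ⟨hK.sc.subset_smul hC₁ hk, not_le.1 hcon⟩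
  have c2 : ‖M.A (φ (e₀ * M.Ad ζ₀ k * (ζ₀ * ζ))) - w (M.A (ζ₀ * ζ)) - m‖ ≤ ε * R := by
    by_contra hcon
    refine n3 ⟨M.Ad ζ₀ k, ⟨hT, not_le.1 hcon⟩, ?_⟩
    rw [← Ad_mul, inv_mul_cancel, Ad_one]
  have c3 : e₀ * M.Ad ζ₀ k * (ζ₀ * ζ) = e₀ * ζ₀ * (k * ζ) := by
    rw [← M.conj_eq (Or.inr hζ₀)]
    group
  rw [c3, A_mul, map_add] at c2
  rw [A_mul, M.A_e he₀e, zero_add]
  generalize M.A (φ (e₀ * ζ₀ * (k * ζ))) = F at c1 c2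
  have c4 : w (M.A ζ₀) + m - m' + (w (M.A ζ) - w' (M.A ζ)) =
      (F - w' (M.A ζ) - m') - (F - (w (M.A ζ₀) + w (M.A ζ)) - m) := by abel
  rw [c4]
  linarith [norm_sub_le (F - w' (M.A ζ) - m') (F - (w (M.A ζ₀) + w (M.A ζ)) - m)]

/-- The two-point lemma. -/
theorem t1_two : ∃ C₀ C₁ : ℝ, 1 ≤ C₀ ∧ 1 ≤ C₁ ∧ ∀ (φ : M.G → M.G) (D η ε R R' d : ℝ)
    (w w' : M.V ≃ₗᵢ[ℝ] M.V) (m m' : M.V) (y₀ : M.G), 0 < η → η ≤ 4⁻¹ → D * η ≤ 4⁻¹ → 0 ≤ R →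
    M.ln y₀ ≤ d → R + C₀ * (d + 1) ≤ R' → R' + C₀ * (d + 1) ≤ (1 + η) * R →
    M.Conc φ R η D C₁ ε 4⁻¹ w m → M.Conc (fun x => φ (y₀ * x)) R' η D C₁ ε 4⁻¹ w' m' →
    ∀ v : M.V, ‖v‖ ≤ R / 4 → ‖w (M.A y₀) + m - m' + (w v - w' v)‖ ≤ ε * (R + R') := by
  obtain ⟨c, hc, hw⟩ := M.t1_wmin
  obtain ⟨Ca, hCa, ha⟩ := M.t1_Ad
  obtain ⟨Cz, hCz, hz⟩ := M.Z_A
  obtain ⟨Cn, hCn, hn⟩ := M.nf_of_ln
  obtain ⟨Cm, hCm, hm⟩ := M.mem_Z
  obtain ⟨Cy, hCy, hy⟩ := M.Z_mul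
  obtain ⟨Cx, hCx, hx⟩ := M.mul_mem 1 zero_le_one
  obtain ⟨ι, hι0, hιA⟩ := M.exists_sec
  obtain ⟨N, hN0, hιN⟩ : ∃ N : ℝ, 0 ≤ N ∧ ∀ v, ‖ι v‖ ≤ N * ‖v‖ :=
    ⟨_, norm_nonneg _, fun v => (LinearMap.toContinuousLinearMap ι).le_opNorm v⟩
  obtain ⟨L, hL⟩ : ∃ L : ℝ, L = 1 + Cm * N := ⟨_, rfl⟩
  have hmN : 0 ≤ Cm * N := by positivity
  have hL1 : 1 ≤ L := by linarith
  have hyL : L ≤ Cy * L := le_mul_of_one_le_left (by linarith) hCy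
  refine ⟨Cn * (2 * Ca + c + Cz), Cx + Cy * L,
    one_le_mul_of_one_le_of_one_le hCn (by linarith), by linarith, ?_⟩
  intro φ D η ε R R' d w w' m m' y₀ hη hη4 hD hR hd h1 h2 H H' v hv
  have hd0 : 0 ≤ d := (M.ln_nonneg _).trans hd
  obtain ⟨e₀, he₀, ζ₀, hζ₀, rfl⟩ := hn y₀ d hd
  have hρ1 : 1 ≤ Cn * (d + 1) := one_le_mul_of_one_le_of_one_le hCn (by linarith)
  have e1 : Cn * (2 * Ca + c + Cz) * (d + 1) =
      2 * (Ca * (Cn * (d + 1))) + c * (Cn * (d + 1)) + Cz * (Cn * (d + 1)) := by ring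
  rw [e1] at h1 h2
  clear e1 hn
  generalize Cn * (d + 1) = ρ at *
  have hρ0 : 0 ≤ ρ := by linarith
  have a1 : Ca ≤ Ca * ρ := le_mul_of_one_le_right (by linarith) hρ1
  have a2 : ρ ≤ c * ρ := le_mul_of_one_le_left hρ0 hc
  have a3 : ρ ≤ Cz * ρ := le_mul_of_one_le_left hρ0 hCz
  have a4 : η * R ≤ 4⁻¹ * R := mul_le_mul_of_nonneg_right hη4 hR
  have a5 : Ca * (ρ + 1) = Ca * ρ + Ca := by ring
  have a6 : (1 + η) * R = R + η * R := by ring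
  have hRR : R ≤ R' := by linarith
  have a7 : c * ρ ≤ R := by linarith
  have a8 : Cz * ρ ≤ R / 4 := by linarith
  have hDR : 3 / 4 * R ≤ (1 - D * η) * R := mul_le_mul_of_nonneg_right (by linarith) hR
  have hDR' : 3 / 4 * R' ≤ (1 - D * η) * R' :=
    mul_le_mul_of_nonneg_right (by linarith) (hR.trans hRR)
  have hlow : M.K (M.hb 0 R) ⊆ M.Ad ζ₀ '' M.K (M.hb 0 R') := by
    intro x hx'
    refine ⟨M.Ad ζ₀⁻¹ x, ha ρ R R' hρ0 ζ₀⁻¹ (M.Z_inv hζ₀) (by linarith) ⟨x, hx', rfl⟩, ?_⟩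
    rw [← Ad_mul, mul_inv_cancel, Ad_one]
  have hup : M.Ad ζ₀ '' M.K (M.hb 0 R') ⊆ M.K (M.hb 0 ((1 + η) * R)) :=
    ha ρ R' _ hρ0 ζ₀ hζ₀ (by linarith)
  have he₀B : e₀ ∈ M.K (M.hb 0 R) := by
    refine M.K_mono (fun i hi => ?_) he₀
    rw [t1_hb]
    calc ρ ≤ ρ * (c * ‖M.wt i‖) := le_mul_of_one_le_right hρ0 (hw i hi)
      _ = c * ρ * ‖M.wt i‖ := by ring
      _ ≤ R * ‖M.wt i‖ := mul_le_mul_of_nonneg_right a7 (norm_nonneg _)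
  have hLR : R ≤ L * R := le_mul_of_one_le_left hR hL1
  have hζ : ι v ∈ M.Z (L * R) := by
    refine M.Z_mono (by positivity) ?_ (hm _ (hι0 v))
    have b1 : ‖ι v‖ ≤ N * R := (hιN v).trans (mul_le_mul_of_nonneg_left (by linarith) hN0)
    calc Cm * ‖ι v‖ ≤ Cm * (N * R) := mul_le_mul_of_nonneg_left b1 (by linarith)
      _ = Cm * N * R := by ring
      _ ≤ L * R := mul_le_mul_of_nonneg_right (by linarith) hR
  have hζ₀' : ζ₀ ∈ M.Z (L * R) := M.Z_mono hρ0 (by linarith) hζ₀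
  have hprod : ζ₀ * ι v ∈ M.Z ((Cx + Cy * L) * R) := by
    refine M.Z_mono (by positivity) ?_ (hy _ (by positivity) _ hζ₀' _ hζ)
    rw [← mul_assoc]
    exact mul_le_mul_of_nonneg_right (by linarith) hR
  have hζ' : ι v ∈ M.Z ((Cx + Cy * L) * R') := by
    refine M.Z_mono (by positivity) ?_ hζ
    exact mul_le_mul (by linarith) hRR hR (by linarith)
  have hA0 : ‖M.A ζ₀‖ ≤ Cz * ρ := (hz ρ hρ0 ζ₀ hζ₀).2
  have hAp : ‖M.A (ζ₀ * ι v)‖ ≤ (1 - D * η) * R := by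
    rw [A_mul, hιA]
    linarith [norm_add_le (M.A ζ₀) v]
  have := M.t1_core hη.le (hR.trans hRR) (by linarith) (by linarith) (by linarith) hx
    (M.Z_sub_u0 _ hζ₀) he₀B hlow hup hprod hAp hζ' (by rw [hιA]; linarith) H H'
  rwa [hιA] at this

/-- Base scale. -/
theorem t1_base (K C : ℝ) {R η D C₁ ε : ℝ} (hR : 0 ≤ R) (hη : 0 ≤ η) (hD : D * η ≤ 4⁻¹)
    (hC : 1 ≤ C₁) : ∃ E : ℝ, ∀ φ, IsQI M.Q M.Q K C φ → ∀ w m, M.Conc φ R η D C₁ ε 4⁻¹ w m →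
      ‖M.A (φ 1) - m‖ ≤ E := by
  obtain ⟨Cl, hCl, hl⟩ := M.A_lip K C
  obtain ⟨r, hr⟩ := M.exists_ln_le (M.K_isLB (M.hb 0 R)).compact
  refine ⟨Cl * (r + 1) + ε * R, fun φ hφ w m H => ?_⟩
  have b1 := M.t1_std H hR hη hC (ζ := 1) (M.Z_isLB _).sc.zero_mem (by
    rw [A_one, norm_zero]
    exact mul_nonneg (by linarith) hR)
  have hex : ∃ k ∈ M.K (M.hb 0 R), ‖M.A (φ (k * 1)) - w (M.A 1) - m‖ ≤ ε * R := by
    by_contra hcon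
    have hsub : M.K (M.hb 0 R) ⊆ (C₁ • M.K (M.hb 0 R)) ∩
        {k | ε * R < ‖M.A (φ (k * 1)) - w (M.A 1) - m‖} := fun k hk =>
      ⟨(M.K_isLB _).sc.subset_smul hC hk, not_le.1 fun h => hcon ⟨k, hk, h⟩⟩
    have g1 := measureReal_mono hsub (M.t1_fin' _ _ _)
    have g3 := M.mE_K_pos (M.hb 0 R)
    linarith
  obtain ⟨k, hk, h1⟩ := hex
  rw [A_one, map_zero, sub_zero, mul_one] at h1
  have h2 := (hl φ hφ 1 k).1
  rw [one_mul] at h2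
  have h3 : Cl * (M.ln k + 1) ≤ Cl * (r + 1) :=
    mul_le_mul_of_nonneg_left (by linarith [hr k hk]) (by linarith)
  have h4 : M.A (φ 1) - m = (M.A (φ k) - m) - (M.A (φ k) - M.A (φ 1)) := by abel
  rw [h4]
  linarith [norm_sub_le (M.A (φ k) - m) (M.A (φ k) - M.A (φ 1))]

theorem t1 (h : M.ConcStmt) : M.T1Stmt := by
  intro K C ε hε
  obtain ⟨D, η, hD, hη, hDη, H⟩ := h K C
  have hη4 : η ≤ 4⁻¹ := by nlinarith
  obtain ⟨C₀, C₁, hC₀, hC₁, two⟩ := M.t1_two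
  obtain ⟨c, hc, hsep⟩ := M.W_sep
  set κ : ℝ := min (c / 24) (ε * η ^ 2 / (60 * C₀)) with hκ
  have hκ0 : 0 < κ := lt_min (by positivity) (by positivity)
  have hκ1 : κ ≤ c / 24 := min_le_left _ _
  have hκ2 : κ ≤ ε * η ^ 2 / (60 * C₀) := min_le_right _ _
  obtain ⟨S₀, HS⟩ := H η C₁ κ 4⁻¹ hη le_rfl hC₁ hκ0 (by norm_num)
  set R₀ : ℝ := max S₀ (2 * C₀ / η) with hR₀
  have hR₀1 : 2 * C₀ / η ≤ R₀ := le_max_right _ _
  have hR₀0 : 0 < R₀ := lt_of_lt_of_le (by positivity) hR₀1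
  set R : ℕ → ℝ := fun j => (1 + η / 2) ^ j * R₀ with hR
  have hθ : 1 < 1 + η / 2 := by linarith
  have hR0 : R 0 = R₀ := by simp [hR]
  have hRs : ∀ j, R (j + 1) = (1 + η / 2) * R j := fun j => by simp only [hR]; ring
  have hRge : ∀ j, R₀ ≤ R j := fun j =>
    le_mul_of_one_le_left hR₀0.le (one_le_pow₀ hθ.le)
  have hRpos : ∀ j, 0 < R j := fun j => hR₀0.trans_le (hRge j)
  obtain ⟨E, hE⟩ := M.t1_base K C (ε := κ) hR₀0.le hη.le hDη hC₁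
  refine ⟨2 * E + 20 * (κ / η) * R₀ + ε, fun φ hφ => ?_⟩
  have ex : ∀ (g : M.G) (j : ℕ), ∃ w ∈ M.W, ∃ m,
      M.Conc (fun x => φ (g * x)) (R j) η D C₁ κ 4⁻¹ w m := fun g j =>
    HS (R j) ((le_max_left _ _).trans (hRge j)) _ (hφ.comp_mul_left M g)
  choose w hw m hm using ex
  have key : ∀ (p q : M.G) (j : ℕ), C₀ * (M.ln (p⁻¹ * q) + 1) ≤ η / 2 * R j →
      w p j = w q (j + 1) ∧
        ‖w p j (M.A q - M.A p) + m p j - m q (j + 1)‖ ≤ 3 * κ * R j := by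
    intro p q j hj
    have hq : M.Conc (fun x => (fun x => φ (p * x)) (p⁻¹ * q * x)) (R (j + 1)) η D C₁ κ 4⁻¹
        (w q (j + 1)) (m q (j + 1)) := by
      have e : (fun x => (fun x => φ (p * x)) (p⁻¹ * q * x)) = fun x => φ (q * x) := by
        funext x
        simp only [← mul_assoc, mul_inv_cancel, one_mul]
      rw [e]
      exact hm q (j + 1)
    have t := two (fun x => φ (p * x)) D η κ (R j) (R (j + 1)) _ (w p j) (w q (j + 1)) (m p j)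
      (m q (j + 1)) (p⁻¹ * q) hη hη4 hDη (hRpos j).le le_rfl (by rw [hRs]; linarith)
      (by rw [hRs]; linarith) (hm p j) hq
    have hb : κ * (R j + R (j + 1)) ≤ 3 * κ * R j := by
      rw [hRs]
      have := mul_pos hκ0 (hRpos j)
      nlinarith
    have hA : M.A (p⁻¹ * q) = M.A q - M.A p := by rw [A_mul, A_inv]; abel
    rw [hA] at t
    have t0 := t 0 (by rw [norm_zero]; linarith [hRpos j])
    rw [map_zero, map_zero, sub_zero, add_zero] at t0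
    refine ⟨hsep _ (hw p j) _ (hw q (j + 1)) fun u => ?_, t0.trans hb⟩
    by_cases hu : u = 0
    · simp [hu]
    have hu0 : 0 < ‖u‖ := norm_pos_iff.2 hu
    have hs : 0 < R j / 4 / ‖u‖ := by have := hRpos j; positivity
    have t1 := t ((R j / 4 / ‖u‖) • u) (by
      rw [norm_smul, Real.norm_of_nonneg hs.le, div_mul_cancel₀ _ hu0.ne'])
    rw [map_smul, map_smul, ← smul_sub] at t1
    generalize w p j (M.A q - M.A p) + m p j - m q (j + 1) = a at t0 t1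
    generalize w p j u - w q (j + 1) u = b at t1 ⊢
    have t2 : ‖(R j / 4 / ‖u‖) • b‖ ≤ 6 * κ * R j := by
      have e : (R j / 4 / ‖u‖) • b = (a + (R j / 4 / ‖u‖) • b) - a := by abel
      rw [e]
      linarith [norm_sub_le (a + (R j / 4 / ‖u‖) • b) a]
    rw [norm_smul, Real.norm_of_nonneg hs.le, div_mul_eq_mul_div, div_le_iff₀ hu0] at t2
    have t3 : R j * ‖b‖ ≤ R j * (24 * κ * ‖u‖) := by linarith
    have t4 := le_of_mul_le_mul_left t3 (hRpos j)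
    nlinarith
  have self : ∀ (g : M.G) (j : ℕ), w g j = w g 0 ∧ ‖m g 0 - m g j‖ ≤ 6 * (κ / η) * (R j - R₀) := by
    intro g j
    induction j with
    | zero => simp [hR0]
    | succ j ih =>
      have hj : C₀ * (M.ln (g⁻¹ * g) + 1) ≤ η / 2 * R j := by
        rw [inv_mul_cancel, ln_one, zero_add, mul_one]
        have := (div_le_iff₀ hη).1 (hR₀1.trans (hRge j))
        linarith
      obtain ⟨k1, k2⟩ := key g g j hj
      rw [sub_self, map_zero, zero_add] at k2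
      refine ⟨k1 ▸ ih.1, ?_⟩
      have e : m g 0 - m g (j + 1) = (m g 0 - m g j) + (m g j - m g (j + 1)) := by abel
      have e2 : 6 * (κ / η) * (R (j + 1) - R₀) = 6 * (κ / η) * (R j - R₀) + 3 * κ * R j := by
        rw [hRs]
        field_simp
        ring
      rw [e, e2]
      linarith [norm_add_le (m g 0 - m g j) (m g j - m g (j + 1)), ih.2]
  have exj : ∀ d : ℝ, 0 ≤ d → ∃ j, C₀ * (d + 1) ≤ η / 2 * R j ∧
      R j ≤ R₀ + 3 * C₀ * (d + 1) / η := by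
    intro d hd
    have hex : ∃ j, C₀ * (d + 1) ≤ η / 2 * R j := by
      obtain ⟨n, hn⟩ := pow_unbounded_of_one_lt (C₀ * (d + 1) / (η / 2 * R₀)) hθ
      refine ⟨n, ?_⟩
      rw [div_lt_iff₀ (by positivity)] at hn
      simp only [hR]
      linarith
    have hpos : 0 ≤ 3 * C₀ * (d + 1) / η := by positivity
    classical
    refine ⟨Nat.find hex, Nat.find_spec hex, ?_⟩
    rcases h0 : Nat.find hex with _ | j
    · rw [hR0]; linarith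
    · have hlt := Nat.find_min hex (show j < Nat.find hex by omega)
      have : R (j + 1) ≤ 3 * C₀ * (d + 1) / η := by
        rw [le_div_iff₀ hη, hRs]
        have := mul_pos hη (hRpos j)
        nlinarith [not_le.1 hlt]
      linarith
  have wall : ∀ p q, w p 0 = w q 0 := fun p q => by
    obtain ⟨j, hj, -⟩ := exj _ (M.ln_nonneg (p⁻¹ * q))
    rw [← (self p j).1, (key p q j hj).1, (self q (j + 1)).1]
  refine ⟨w 1 0, hw 1 0, fun p q => ?_⟩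
  obtain ⟨j, hj, hj'⟩ := exj _ (M.ln_nonneg (p⁻¹ * q))
  have k2 := (key p q j hj).2
  rw [(self p j).1, wall p 1] at k2
  have s1 := (self p j).2
  have s2 := (self q (j + 1)).2
  have hb : ∀ g, ‖M.A (φ g) - m g 0‖ ≤ E := fun g => by
    have := hE _ (hφ.comp_mul_left M g).2 (w g 0) (m g 0) (hR0 ▸ hm g 0)
    simpa using this
  have s3 := hb p
  have s4 := hb q
  generalize w 1 0 (M.A q - M.A p) = a at k2 ⊢
  have e : M.A (φ q) - M.A (φ p) - a = (M.A (φ q) - m q 0) - (M.A (φ p) - m p 0) +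
      (m q 0 - m q (j + 1)) - (m p 0 - m p j) - (a + m p j - m q (j + 1)) := by abel
  have n1 := norm_sub_le (M.A (φ q) - m q 0) (M.A (φ p) - m p 0)
  have n2 := norm_add_le ((M.A (φ q) - m q 0) - (M.A (φ p) - m p 0)) (m q 0 - m q (j + 1))
  have n3 := norm_sub_le ((M.A (φ q) - m q 0) - (M.A (φ p) - m p 0) + (m q 0 - m q (j + 1)))
    (m p 0 - m p j)
  have n4 := norm_sub_le ((M.A (φ q) - m q 0) - (M.A (φ p) - m p 0) + (m q 0 - m q (j + 1)) -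
    (m p 0 - m p j)) (a + m p j - m q (j + 1))
  rw [e]
  set l := κ / η with hl
  have hl0 : 0 < l := by positivity
  have hκl : κ = l * η := by rw [hl]; field_simp
  have hRj := hRpos j
  have u1 : 6 * l * (R (j + 1) - R₀) + 6 * l * (R j - R₀) + 3 * κ * R j ≤ 20 * l * R j := by
    rw [hRs, hκl]
    have v1 := mul_pos hl0 hRj
    have v2 := mul_pos hl0 hR₀0
    nlinarith
  have u2 : 20 * l * R j ≤ 20 * l * (R₀ + 3 * C₀ * (M.ln (p⁻¹ * q) + 1) / η) :=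
    mul_le_mul_of_nonneg_left hj' (by positivity)
  have u3 : 20 * l * (3 * C₀ * (M.ln (p⁻¹ * q) + 1) / η) ≤ ε * (M.ln (p⁻¹ * q) + 1) := by
    have v1 : 20 * l * (3 * C₀ * (M.ln (p⁻¹ * q) + 1) / η) =
        (κ * (60 * C₀) / η ^ 2) * (M.ln (p⁻¹ * q) + 1) := by
      rw [hl]
      field_simp
      ring
    rw [v1]
    refine mul_le_mul_of_nonneg_right ?_ (by linarith [M.ln_nonneg (p⁻¹ * q)])
    rw [div_le_iff₀ (by positivity)]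
    exact (le_div_iff₀ (by positivity)).1 hκ2
  linarith

end Vale.Agent.P188.Geo
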