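import Vale.Agent.P188.AffDefs

/-! Logarithmic rigidity along flats.
Plan.  By `gen_span` it suffices to bound `⟪μ, A φ (p z) - A φ p⟫` from above for each generator
`(μ, π)` (finitely many `μ`, fix one `π` each).  Take `T1` with small `ε`, `w` its orientation,
`s = - w⁻¹ μ`, `c = ι s`, and `ξ n x = π (φ (x * (n • c)))`, `n : ℕ`.
(1) `|ξ n x - π (φ x)| ≤ C₁ exp ⟪μ, A φ x⟫` (telescoping with `GenF.mul`, `GenF.abs_le_ln`; the
heights decrease linearly by `T1`).  (2) for `z' ∈ u0`, `ξ n (x z') - ξ n x → 0`: the distance is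
`ln (Ad (-(n • c)) z') = o (n)` (`Ad_Z_Z`, `ln_Z`), against `exp (- n ‖μ‖² / 2)`.
(3) spread: with `y = φ q * (Λ • X i)`, `wt i = μ`, `π (X i) ≠ 0`, `q'` with `φ q'` near `y`:
`|ξ n q' - ξ n q| ≥ exp ⟪μ, A φ q⟫` for a constant `Λ`, and `ln (q⁻¹ q') ≤ R₀`.
(4) `q = p z`, `q⁻¹ q' = x ζ` (`nf_of_ln`), `q' = p (Ad z x) (z ζ)`, `q = p z`; by (2) compare with
`ξ n (p * Ad z x)` and `ξ n p`; `ln (Ad z x) ≤ C log (2 + ‖z‖)` (`mem_Z`, `Ad_Z_K`, `ln_K`), so by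
(1) both are within `(2 + ‖z‖) ^ C exp ⟪μ, A φ p⟫` of `π (φ p)`. -/

namespace Vale.Agent.P188.Geo
open scoped InnerProductSpace Pointwise
open Filter
variable (M : Geo)

theorem t2_diff {μ : M.V} {π : M.G →ₗ[ℝ] ℝ} (hp : M.GenF μ π) {D : ℝ} (hD0 : 0 ≤ D)
    (hD : ∀ g, |π g| ≤ Real.exp (D * M.ln g)) (a b : M.G) {L : ℝ} (hL : M.ln (a⁻¹ * b) ≤ L) :
    |π b - π a| ≤ Real.exp ⟪μ, M.A a⟫_ℝ * Real.exp (D * L) := by
  have h1 := GenF.mul M hp a (a⁻¹ * b)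
  rw [mul_inv_cancel_left] at h1
  rw [h1, add_sub_cancel_left, abs_mul, abs_of_pos (Real.exp_pos _)]
  refine mul_le_mul_of_nonneg_left ((hD _).trans ?_) (Real.exp_pos _).le
  exact Real.exp_le_exp.2 (mul_le_mul_of_nonneg_left hL hD0)

theorem t2_ht (μ : M.V) {D : ℝ} (hD0 : 0 ≤ D) (hD : ∀ g, ‖M.A g‖ ≤ D * M.ln g) (a b : M.G)
    {L : ℝ} (hL : M.ln (a⁻¹ * b) ≤ L) :
    ⟪μ, M.A b⟫_ℝ ≤ ⟪μ, M.A a⟫_ℝ + ‖μ‖ * D * L := by
  have h1 := M.A_mul a (a⁻¹ * b)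
  rw [mul_inv_cancel_left] at h1
  rw [h1, inner_add_right]
  have h2 := real_inner_le_norm μ (M.A (a⁻¹ * b))
  have h3 := (hD (a⁻¹ * b)).trans (mul_le_mul_of_nonneg_left hL hD0)
  have h4 := mul_le_mul_of_nonneg_left h3 (norm_nonneg μ)
  nlinarith

/-- Conjugation along a ray of `u0` has sublinear length. -/
theorem t2_sub {c z : M.G} (hc : c ∈ M.u0) (hz : z ∈ M.u0) {δ : ℝ} (hδ : 0 < δ) :
    ∀ᶠ n : ℕ in atTop, M.ln (((n : ℝ) • c)⁻¹ * z * ((n : ℝ) • c)) ≤ δ * n := by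
  obtain ⟨CZ, hZ1, hZ⟩ := M.mem_Z
  obtain ⟨CA, hA1, hA⟩ := M.Ad_Z_Z
  obtain ⟨CL, hL1, hL⟩ := M.ln_Z
  set E : ℝ := CL * CA * (CZ * (‖c‖ + 1)) with hE
  have hE0 : 0 < E := by positivity
  set β : ℝ := min 1 (δ / 2 / E) with hβ
  have hβ0 : 0 < β := lt_min one_pos (by positivity)
  have hβE : E * β ≤ δ / 2 := by
    have : β ≤ δ / 2 / E := min_le_right _ _
    rwa [le_div_iff₀ hE0, mul_comm] at this
  have e1 := (tendsto_natCast_atTop_atTop (R := ℝ)).eventually_ge_atTop ‖(β ^ M.c)⁻¹ • z‖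
  have e2 := (tendsto_natCast_atTop_atTop (R := ℝ)).eventually_ge_atTop (2 * CL / δ)
  filter_upwards [e1, e2] with n h1 h2
  have hn : (0 : ℝ) ≤ n := n.cast_nonneg
  have hg : (n : ℝ) • c ∈ M.u0 := M.u0.smul_mem _ hc
  have hρ : 0 ≤ CZ * (‖c‖ + 1) * n := by positivity
  have hgZ : ((n : ℝ) • c)⁻¹ ∈ M.Z (CZ * (‖c‖ + 1) * n) := by
    refine M.Z_inv (M.Z_mono (by positivity) ?_ (hZ _ hg))
    rw [norm_smul, Real.norm_of_nonneg hn]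
    nlinarith [mul_nonneg (zero_le_one.trans hZ1) hn]
  have hzZ : z ∈ (β ^ M.c) • M.Z (CZ * (‖c‖ + 1) * n) := by
    refine ⟨(β ^ M.c)⁻¹ • z, M.Z_mono (by positivity) ?_ (hZ _ (M.u0.smul_mem _ hz)), ?_⟩
    · have h3 : ‖(β ^ M.c)⁻¹ • z‖ ≤ (‖c‖ + 1) * n := by nlinarith [norm_nonneg c]
      rw [mul_assoc]
      exact mul_le_mul_of_nonneg_left h3 (zero_le_one.trans hZ1)
    · simp only
      rw [smul_smul, mul_inv_cancel₀ (by positivity), one_smul]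
  have h4 := hL _ (by positivity) _ (hA _ β hρ hβ0.le (min_le_left _ _) _ hgZ _ hzZ)
  rw [← M.conj_eq (Or.inr (M.inv_mem_u0 hg)), inv_inv] at h4
  refine h4.trans ?_
  have h5 : CL ≤ δ / 2 * n := by
    rw [div_le_iff₀ hδ] at h2
    linarith
  have h6 := mul_le_mul_of_nonneg_right hβE hn
  have h7 : CL * (CA * β * (CZ * (‖c‖ + 1) * n) + 1) = E * β * n + CL := by rw [hE]; ring
  linarith

/-- Linear descent of the height along a ray. -/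
theorem t2_ray (h : M.T1Stmt) {μ : M.V} (hμ : μ ≠ 0) (K C : ℝ) : ∃ γ b : ℝ, 0 ≤ γ ∧
    ∀ φ, M.MQI K C φ → ∃ c ∈ M.u0, ‖c‖ ≤ γ ∧ ∀ x (n : ℕ),
      ⟪μ, M.A (φ (x * ((n : ℝ) • c)))⟫_ℝ ≤ ⟪μ, M.A (φ x)⟫_ℝ - n * (‖μ‖ ^ 2 / 2) + b := by
  obtain ⟨ι, hι, hιA⟩ := M.exists_sec
  have hμ0 : 0 < ‖μ‖ := norm_pos_iff.2 hμ
  set γ : ℝ := ‖LinearMap.toContinuousLinearMap ι‖ * ‖μ‖ with hγ
  have hγ0 : 0 ≤ γ := by positivity
  set ε : ℝ := ‖μ‖ / (2 * (γ + 1)) with hε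
  have hε0 : 0 < ε := by positivity
  have hεγ : ε * γ ≤ ‖μ‖ / 2 := by
    rw [hε, div_mul_eq_mul_div, div_le_div_iff₀ (by positivity) (by positivity)]
    nlinarith
  obtain ⟨C', hC'⟩ := h K C ε hε0
  refine ⟨γ, ‖μ‖ * (ε + C'), hγ0, fun φ hφ => ?_⟩
  obtain ⟨w, -, hw⟩ := hC' φ hφ
  have hc : ‖ι (-w.symm μ)‖ ≤ γ := by
    have := (LinearMap.toContinuousLinearMap ι).le_opNorm (-w.symm μ)
    rwa [norm_neg, LinearIsometryEquiv.norm_map] at this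
  refine ⟨ι (-w.symm μ), hι _, hc, fun x n => ?_⟩
  have hn : (0 : ℝ) ≤ n := n.cast_nonneg
  have h1 := hw x (x * ((n : ℝ) • ι (-w.symm μ)))
  rw [M.A_mul, add_sub_cancel_left, map_smul, hιA, map_smul, map_neg w,
    LinearIsometryEquiv.apply_symm_apply, inv_mul_cancel_left] at h1
  have h2 := M.ln_tame (Or.inr (M.u0.smul_mem (n : ℝ) (hι (-w.symm μ))))
  rw [norm_smul, Real.norm_of_nonneg hn] at h2
  have h3 := real_inner_le_norm μ (M.A (φ (x * ((n : ℝ) • ι (-w.symm μ)))) - M.A (φ x) -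
    (n : ℝ) • -μ)
  rw [inner_sub_right, inner_sub_right, inner_smul_right, inner_neg_right,
    real_inner_self_eq_norm_sq] at h3
  have h4 : M.ln ((n : ℝ) • ι (-w.symm μ)) ≤ n * γ + 1 := by
    nlinarith [mul_le_mul_of_nonneg_left hc hn]
  have h5 := h1.trans (add_le_add_left (mul_le_mul_of_nonneg_left h4 hε0.le) C')
  have h6 := mul_le_mul_of_nonneg_left h5 hμ0.le
  have h7 := mul_le_mul_of_nonneg_left hεγ (mul_nonneg hn hμ0.le)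
  nlinarith

theorem t2_tele {f : ℕ → ℝ} {D r : ℝ} (hr0 : 0 ≤ r) (hr : r < 1) (hD : 0 ≤ D)
    (h : ∀ n, |f (n + 1) - f n| ≤ D * r ^ n) (n : ℕ) : |f n - f 0| ≤ D / (1 - r) := by
  have h1 : 0 < 1 - r := sub_pos.2 hr
  have key : ∀ n, |f n - f 0| ≤ D / (1 - r) * (1 - r ^ n) := by
    intro n
    induction n with
    | zero => simp
    | succ n ih =>
      have h2 := abs_sub_le (f (n + 1)) (f n) (f 0)
      have h3 : D / (1 - r) * (1 - r ^ (n + 1)) = D * r ^ n + D / (1 - r) * (1 - r ^ n) := by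
        field_simp
        ring
      linarith [h n]
  have h4 : 0 ≤ D / (1 - r) := by positivity
  nlinarith [key n, pow_nonneg hr0 n, mul_nonneg h4 (pow_nonneg hr0 n)]

/-- Steps (1) and (2) of the plan. -/
theorem t2_xi (h : M.T1Stmt) {μ : M.V} {π : M.G →ₗ[ℝ] ℝ} (hp : M.GenF μ π) (K C : ℝ) :
    ∃ C₁ : ℝ, 0 ≤ C₁ ∧ ∀ φ, M.MQI K C φ → ∃ c : M.G,
      (∀ x (n : ℕ), |π (φ (x * ((n : ℝ) • c))) - π (φ x)| ≤ C₁ * Real.exp ⟪μ, M.A (φ x)⟫_ℝ) ∧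
      ∀ x, ∀ z ∈ M.u0, ∀ η : ℝ, 0 < η → ∀ᶠ n : ℕ in atTop,
        |π (φ (x * z * ((n : ℝ) • c))) - π (φ (x * ((n : ℝ) • c)))| ≤ η := by
  obtain ⟨γ, b, hγ, hr⟩ := M.t2_ray h hp.1 K C
  obtain ⟨D, hD1, hD⟩ := GenF.abs_le_ln M hp
  have hD0 : 0 ≤ D := zero_le_one.trans hD1
  set a : ℝ := ‖μ‖ ^ 2 / 2 with ha
  have ha0 : 0 < a := by have := norm_pos_iff.2 hp.1; positivity
  have hr1 : Real.exp (-a) < 1 := Real.exp_lt_one_iff.2 (by linarith)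
  have hr2 : 0 < 1 - Real.exp (-a) := sub_pos.2 hr1
  refine ⟨Real.exp (b + D * (K * (γ + 1) + C)) / (1 - Real.exp (-a)), by positivity,
    fun φ hφ => ?_⟩
  obtain ⟨c, hc, hcγ, hcn⟩ := hr φ hφ
  have hK : 1 ≤ K := hφ.2.1
  refine ⟨c, fun x n => ?_, fun x z hz η hη => ?_⟩
  · have key := t2_tele (f := fun n : ℕ => π (φ (x * ((n : ℝ) • c))))
      (D := Real.exp (b + D * (K * (γ + 1) + C)) * Real.exp ⟪μ, M.A (φ x)⟫_ℝ)
      (Real.exp_pos (-a)).le hr1 (by positivity) (fun n => ?_) n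
    · simp only [Nat.cast_zero, zero_smul] at key
      rw [← M.one_def, mul_one] at key
      rwa [div_mul_eq_mul_div]
    · have h1 : x * (((n + 1 : ℕ) : ℝ) • c) = x * ((n : ℝ) • c) * c := by
        have := M.smul_mul_smul (Or.inr hc) (n : ℝ) 1
        rw [one_smul] at this
        rw [mul_assoc, this, Nat.cast_succ]
      have h2 := IsQI.ln_le M hφ.2 (x * ((n : ℝ) • c)) c
      have h3 : K * M.ln c ≤ K * (γ + 1) :=
        mul_le_mul_of_nonneg_left ((M.ln_tame (Or.inr hc)).trans (by linarith)) (by linarith)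
      rw [h1]
      refine (M.t2_diff hp hD0 hD _ _ (h2.trans (add_le_add_left h3 C))).trans ?_
      rw [← Real.exp_nat_mul, ← Real.exp_add, ← Real.exp_add, ← Real.exp_add, Real.exp_le_exp]
      linarith [hcn x n]
  · have hDK : 0 < D * K := by positivity
    have e1 := M.t2_sub hc hz (δ := a / 2 / (D * K)) (by positivity)
    have e2 := (tendsto_natCast_atTop_atTop (R := ℝ)).eventually_ge_atTop
      ((⟪μ, M.A (φ x)⟫_ℝ + b + D * C - Real.log η) / (a / 2))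
    filter_upwards [e1, e2] with n h1 h2
    have h3 := IsQI.ln_le M hφ.2 (x * ((n : ℝ) • c)) (((n : ℝ) • c)⁻¹ * z * ((n : ℝ) • c))
    have h4 : x * ((n : ℝ) • c) * (((n : ℝ) • c)⁻¹ * z * ((n : ℝ) • c)) =
        x * z * ((n : ℝ) • c) := by group
    rw [h4] at h3
    have h5 := h3.trans (add_le_add_left (mul_le_mul_of_nonneg_left h1 (by linarith)) C)
    refine (M.t2_diff hp hD0 hD _ _ h5).trans ?_
    rw [← Real.exp_add, ← Real.le_log_iff_exp_le hη]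
    rw [div_le_iff₀ (by positivity)] at h2
    have h6 : D * (K * (a / 2 / (D * K) * n) + C) = a / 2 * n + D * C := by field_simp
    linarith [hcn x n]

/-- Step (3) of the plan. -/
theorem t2_spread {μ : M.V} {π : M.G →ₗ[ℝ] ℝ} (hp : M.GenF μ π) (K C : ℝ) {C₁ : ℝ}
    (h1 : 0 ≤ C₁) : ∃ R : ℝ, ∀ φ, M.MQI K C φ → ∀ q, ∃ q', M.ln (q⁻¹ * q') ≤ R ∧
      ∀ ξ : M.G → ℝ, (∀ x, |ξ x - π (φ x)| ≤ C₁ * Real.exp ⟪μ, M.A (φ x)⟫_ℝ) →
        Real.exp ⟪μ, M.A (φ q)⟫_ℝ ≤ |ξ q' - ξ q| := by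
  obtain ⟨D, hD1, hD⟩ := GenF.abs_le_ln M hp
  have hD0 : 0 ≤ D := zero_le_one.trans hD1
  obtain ⟨N, hN1, hN⟩ := M.norm_ah_le
  obtain ⟨i, hi, hπ⟩ := GenF.exists_X M hp
  set T : ℝ := 1 + Real.exp (D * C) + C₁ * Real.exp (‖μ‖ * N * C) + C₁ with hT
  have hT0 : 0 ≤ T := by positivity
  refine ⟨K * (|T / π (M.X i)| + 1 + 2 * C), fun φ hφ q => ?_⟩
  obtain ⟨q', hq⟩ := hφ.2.2.2.2 (φ q * ((T / π (M.X i)) • M.X i))
  rw [M.wdist_eq] at hq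
  have hX : M.A ((T / π (M.X i)) • M.X i) = 0 := by
    rw [map_smul, M.A_X i (hi ▸ hp.1), smul_zero]
  refine ⟨q', ?_, fun ξ hξ => ?_⟩
  · have h2 := (hφ.2.2.2.1 q q').1
    rw [M.wdist_eq, M.wdist_eq] at h2
    have h3 := M.ln_mul ((T / π (M.X i)) • M.X i) ((φ q * ((T / π (M.X i)) • M.X i))⁻¹ * φ q')
    have h4 : (T / π (M.X i)) • M.X i * ((φ q * ((T / π (M.X i)) • M.X i))⁻¹ * φ q') =
        (φ q)⁻¹ * φ q' := by group
    rw [h4] at h3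
    have h5 := M.ln_tame (Or.inl hX)
    rw [norm_smul, M.len_norm_X, mul_one, Real.norm_eq_abs] at h5
    have hK : 0 < K := lt_of_lt_of_le one_pos hφ.2.1
    rw [← inv_mul_le_iff₀ hK]
    linarith
  · have hA : M.A (φ q * ((T / π (M.X i)) • M.X i)) = M.A (φ q) := by
      rw [M.A_mul, hX, add_zero]
    have h2 := M.t2_diff hp hD0 hD _ _ hq
    have h3 := M.t2_ht μ (zero_le_one.trans hN1) (fun g => (hN g).2) _ _ hq
    rw [hA] at h2 h3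
    have h4 := GenF.mul M hp (φ q) ((T / π (M.X i)) • M.X i)
    rw [map_smul, smul_eq_mul, div_mul_cancel₀ _ hπ] at h4
    rw [h4] at h2
    have h5 := Real.exp_le_exp.2 h3
    rw [Real.exp_add] at h5
    have h6 := (hξ q').trans (mul_le_mul_of_nonneg_left h5 h1)
    have h7 := hξ q
    rw [abs_le] at h2 h6 h7
    refine le_trans ?_ (le_abs_self _)
    rw [hT] at h2
    linarith [h2.1, h6.1, h7.2]

/-- The bound for one generator. -/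
theorem t2_one (h : M.T1Stmt) {μ : M.V} {π : M.G →ₗ[ℝ] ℝ} (hp : M.GenF μ π) (K C : ℝ) :
    ∃ C' : ℝ, ∀ φ, M.MQI K C φ → ∀ p, ∀ z ∈ M.u0, M.A z = 0 →
      ⟪μ, M.A (φ (p * z)) - M.A (φ p)⟫_ℝ ≤ C' * Real.log (2 + ‖z‖) := by
  obtain ⟨C₁, h1, hξ⟩ := M.t2_xi h hp K C
  obtain ⟨R, hR⟩ := M.t2_spread hp K C h1
  obtain ⟨D, hD1, hD⟩ := GenF.abs_le_ln M hp
  have hD0 : 0 ≤ D := zero_le_one.trans hD1
  obtain ⟨N, hN1, hN⟩ := M.norm_ah_le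
  obtain ⟨F, hF1, hF⟩ := M.nf_of_ln
  obtain ⟨CZ, hZ1, hZ⟩ := M.mem_Z
  obtain ⟨J, hJ1, hJ⟩ := M.ln_conj_K 1 zero_le_one
  set E : ℝ := ‖μ‖ * N + D with hE
  have hE0 : 0 ≤ E := by positivity
  refine ⟨2 * |Real.log (2 * (2 * C₁ + 1)) + E * (K * (J * (F * (R + 1) + Real.log CZ)) + C)| +
    E * K * J, fun φ hφ p z hz hAz => ?_⟩
  obtain ⟨c, hc1, hc2⟩ := hξ φ hφ
  obtain ⟨q', hq, hq'⟩ := hR φ hφ (p * z)
  obtain ⟨x, hx, ζ, hζ, hxζ⟩ := hF _ R hq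
  have hR0 : 0 ≤ R := (M.ln_nonneg _).trans hq
  have hK : 1 ≤ K := hφ.2.1
  have hC : 0 ≤ C := hφ.2.2.1
  have hu := hJ (fun _ => F * (R + 1)) (CZ * ‖z‖) (F * (R + 1)) (by positivity) (by positivity)
    (fun _ _ _ => rfl) z⁻¹ (M.Z_inv (hZ z hz)) (fun i _ => by simp [M.A_inv, hAz, wv]) x
    (by rwa [one_smul])
  rw [inv_inv] at hu
  have hlog : Real.log (2 + CZ * ‖z‖) ≤ Real.log CZ + Real.log (2 + ‖z‖) := by
    rw [← Real.log_mul (by positivity) (by positivity)]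
    exact Real.log_le_log (by positivity) (by nlinarith)
  set L : ℝ := K * (J * (F * (R + 1) + (Real.log CZ + Real.log (2 + ‖z‖)))) + C with hL
  have hu' : M.ln ((φ p)⁻¹ * φ (p * (z * x * z⁻¹))) ≤ L := by
    refine (IsQI.ln_le M hφ.2 p _).trans (add_le_add_left (mul_le_mul_of_nonneg_left
      (hu.trans (mul_le_mul_of_nonneg_left (by linarith) (by linarith))) (by linarith)) C)
  have hL0 : 0 ≤ L := (M.ln_nonneg _).trans hu'
  have hq2 : q' = p * (z * x * z⁻¹) * (z * ζ) := by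
    rw [← mul_inv_cancel_left (p * z) q', hxζ]
    group
  have hη : 0 < Real.exp ⟪μ, M.A (φ (p * z))⟫_ℝ / 4 := by positivity
  obtain ⟨n, a1, a2⟩ := ((hc2 (p * (z * x * z⁻¹)) (z * ζ) (M.mul_mem_u0 hz (M.Z_sub_u0 _ hζ)) _
    hη).and (hc2 p z hz _ hη)).exists
  rw [← hq2] at a1
  have a3 := hq' (fun y => π (φ (y * ((n : ℝ) • c)))) (fun y => hc1 y n)
  have a4 := hc1 (p * (z * x * z⁻¹)) n
  have a5 := hc1 p n
  have a6 := M.t2_diff hp hD0 hD _ _ hu'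
  have a7 := Real.exp_le_exp.2 (M.t2_ht μ (zero_le_one.trans hN1) (fun g => (hN g).2) _ _ hu')
  rw [Real.exp_add] at a7
  have b0 : 0 ≤ ‖μ‖ * N * L := by positivity
  have b1 : Real.exp (‖μ‖ * N * L) ≤ Real.exp (E * L) :=
    Real.exp_le_exp.2 (by rw [hE]; nlinarith [mul_nonneg hD0 hL0])
  have b2 : Real.exp (D * L) ≤ Real.exp (E * L) := Real.exp_le_exp.2 (by rw [hE]; nlinarith)
  have b3 : 1 ≤ Real.exp (E * L) := Real.one_le_exp (by positivity)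
  set P : ℝ := Real.exp ⟪μ, M.A (φ p)⟫_ℝ with hP
  have hP0 : 0 < P := Real.exp_pos _
  have c1 := a4.trans (mul_le_mul_of_nonneg_left
    (a7.trans (mul_le_mul_of_nonneg_left b1 hP0.le)) h1)
  have c2 := a6.trans (mul_le_mul_of_nonneg_left b2 hP0.le)
  have c3 := a5.trans (mul_le_mul_of_nonneg_left (le_mul_of_one_le_right hP0.le b3) h1)
  have c4 : Real.exp ⟪μ, M.A (φ (p * z))⟫_ℝ ≤ 2 * (2 * C₁ + 1) * (P * Real.exp (E * L)) := by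
    rw [abs_le] at a1 a2 c1 c2 c3
    rcases le_abs.1 a3 with a3 | a3 <;> linarith [a1.1, a1.2, a2.1, a2.2, c1.1, c1.2, c2.1, c2.2,
      c3.1, c3.2]
  rw [← Real.exp_log (show 0 < 2 * (2 * C₁ + 1) by positivity), hP, ← Real.exp_add,
    ← Real.exp_add, Real.exp_le_exp] at c4
  have d1 := len_log (norm_nonneg z)
  have d2 := le_abs_self
    (Real.log (2 * (2 * C₁ + 1)) + E * (K * (J * (F * (R + 1) + Real.log CZ)) + C))
  have d3 := mul_le_mul_of_nonneg_left d1 (abs_nonneg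
    (Real.log (2 * (2 * C₁ + 1)) + E * (K * (J * (F * (R + 1) + Real.log CZ)) + C)))
  rw [inner_sub_right]
  rw [hL] at c4
  linarith

theorem t2 (h : M.T1Stmt) : M.T2Stmt := by
  intro K C
  have key : ∀ μ : M.V, ∃ C' : ℝ, ∀ π, M.GenF μ π → ∀ φ, M.MQI K C φ → ∀ p, ∀ z ∈ M.u0,
      M.A z = 0 → ⟪μ, M.A (φ (p * z)) - M.A (φ p)⟫_ℝ ≤ C' * Real.log (2 + ‖z‖) := by
    intro μ
    by_cases hμ : ∃ π, M.GenF μ π
    · obtain ⟨π, hπ⟩ := hμ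
      obtain ⟨C', hC'⟩ := M.t2_one h hπ K C
      exact ⟨C', fun _ _ => hC'⟩
    · exact ⟨0, fun π hπ => absurd ⟨π, hπ⟩ hμ⟩
  choose c hc using key
  obtain ⟨D, -, hD⟩ := M.gen_span
  refine ⟨D * ∑ μ ∈ M.gen_finite.toFinset, |c μ|, fun φ hφ p z hz hA => ?_⟩
  have h0 : 0 ≤ Real.log (2 + ‖z‖) := le_trans (by norm_num) (len_log (norm_nonneg z))
  rw [mul_assoc]
  refine hD _ _ (mul_nonneg (Finset.sum_nonneg fun _ _ => abs_nonneg _) h0) fun μ π hπ => ?_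
  refine (hc μ π hπ φ hφ p z hz hA).trans (mul_le_mul_of_nonneg_right ?_ h0)
  exact (le_abs_self _).trans (Finset.single_le_sum (f := fun μ => |c μ|)
    (fun _ _ => abs_nonneg _) (M.gen_finite.mem_toFinset.2 ⟨π, hπ⟩))

end Vale.Agent.P188.Geo
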