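import Vale.Agent.P188.M.Main
import Vale.Agent.P188.Orth
import Vale.Agent.P188.N.Main
import Vale.Agent.P188.T1
import Vale.Agent.P188.T2
import Vale.Agent.P188.F.Main

namespace Vale.Agent.P188

theorem main {H Γ : Type*} [Group H] [Group Γ] (S : Finset H) (T : Finset Γ)
    (hS : Subgroup.closure (S : Set H) = ⊤) (hT : Subgroup.closure (T : Set Γ) = ⊤)
    (hΓ : VirtPolycyclic Γ) {K C : ℝ} {F : H → Γ} (hF : IsQI (S : Set H) (T : Set Γ) K C F) :
    VirtPolycyclic H := by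
  obtain ⟨M, K₁, C₁, α, hα⟩ := exists_geo T hT hΓ
  obtain ⟨M', β, hO, hβ⟩ := M.exists_orth
  have hA : M'.AffStmt := M'.affStmt_of (fun K C C₁ ε δ h1 h2 h3 => M'.aff0_exists hO K C C₁ ε δ h1 h2 h3)
  have h1 : M'.T1Stmt := M'.t1 (M'.conc hA (M'.sib hA))
  exact M'.final_algebra h1 (M'.t2 h1) S hS ((hF.comp M.closure_Q hα).comp M'.closure_Q hβ)

end Vale.Agent.P188
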