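import Vale.Agent.P188.Nu

/-! Upper and lower volume bounds for products of bodies.
Plan for `ub`: `fubini_sub` for `I s ≤ e` (version `f (q * i)`); the `q`-range is a translate
(`map_quot`, `proj_mul`) of the projection of `C₀ • K rQ` (`vol_proj_K`); two points
`x₁ = k₁ τ₁`, `x₂ = k₂ τ₂` of a fibre have `x₁⁻¹ x₂ = τ₁⁻¹ (k₁⁻¹ k₂) τ₂ ∈ I s`; `split_K` gives
`k₁⁻¹ k₂ = y z`, so `τ₁⁻¹ z τ₂ ∈ I s`, `z τ₂ τ₁⁻¹ ∈ I s` is small, lies in `C • K r` (`small_I`),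
and `x₁⁻¹ x₂ ∈ Ad τ₁⁻¹ '' (C • K r ∩ I s)`, of `I s`-volume `≤ C vol_I (K r)` (`map_Ad_unip`,
`map_mul_left`); `sec_proj_le`, `vol_proj_K`, `vol_K` bound `vol_I (K r)`.
`inter_le`: `le_sec_proj` with `T` the intersection; its projection lies in the projection of
`Ad g '' (C₀ • K r₁)`, which has the volume of the projection of `C₀ • K r₁` (`map_quot` twice,
`conj_eq`); `sec_proj_le` for `K r₂`.  `prod_lb`: Fubini; the density of `y * g * τ` at a point is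
at most `mE ((C • K r₂) ∩ Ad g⁻¹ '' (C • K r₁))`.  `conv_le`: same density bound and `add_inter`. -/

namespace Vale.Agent.P188.Geo
open scoped InnerProductSpace Pointwise
open MeasureTheory
variable (M : Geo)

theorem ub_finite : (Set.range M.I).Finite := by
  classical
  have key : ∀ s s', M.OnRay s = M.OnRay s' → ∀ x, M.MonOff s x → M.MonOff s' x := by
    intro s s' h x hx
    induction hx with
    | base h1 h2 => exact .base h1 (h ▸ h2)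
    | left _ h2 ih => exact .left ih h2
    | right h1 _ ih => exact .right h1 ih
  refine (Set.finite_range fun P : Fin M.d → Prop =>
    Submodule.span ℝ {x | ∃ s, M.OnRay s = P ∧ M.MonOff s x}).subset ?_
  rintro _ ⟨s, rfl⟩
  refine ⟨M.OnRay s, congrArg (Submodule.span ℝ) ?_⟩
  ext x
  exact ⟨fun ⟨s', h1, h2⟩ => key _ _ h1 x h2, fun h => ⟨s, rfl, h⟩⟩

theorem ub_sec : ∃ C : ℝ, 1 ≤ C ∧ ∀ s r, (subMu (M.I s)).real (M.K r) *
    (subMu (M.e ⊓ (M.I s)ᗮ)).real ((M.e ⊓ (M.I s)ᗮ).starProjection '' M.K r) ≤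
      C * M.mE.real (M.K r) := by
  have h : ∀ J : Set.range M.I, J.1 ≤ M.e := by
    rintro ⟨_, s, rfl⟩
    exact M.I_le_e s
  choose f h1 h2 using fun J : Set.range M.I => sec_proj_le (h J)
  have := M.ub_finite.to_subtype
  obtain ⟨C, hC⟩ := (Set.finite_range f).bddAbove
  refine ⟨max 1 C, le_max_left _ _, fun s r => ?_⟩
  refine (h2 ⟨_, s, rfl⟩ _ (M.K_isLB r).sc (M.K_isLB r).compact (M.K_sub_e r)).trans ?_
  exact mul_le_mul_of_nonneg_right (le_max_of_le_right (hC ⟨_, rfl⟩)) measureReal_nonneg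

theorem ub_volI : ∃ C : ℝ, 1 ≤ C ∧ ∀ (s : M.V) (r : Fin M.d → ℝ) (τ t : ℝ), ‖s‖ = 1 → 0 ≤ t →
    (∀ i, M.OnRay s i → τ * ‖M.wt i‖ - t ≤ r i) → (subMu (M.I s)).real (M.K r) ≤
      C * Real.exp (-(M.nu s * τ) + C * t) * M.mE.real (M.K r) := by
  obtain ⟨C1, c1, h1⟩ := M.ub_sec
  obtain ⟨C2, c2, h2⟩ := M.vol_proj_K
  refine ⟨C1 * C2, one_le_mul_of_one_le_of_one_le c1 c2, fun s r τ t hs ht h => ?_⟩
  have h3 := mul_le_mul_of_nonneg_left ((h2 s r τ t hs ht).2 h)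
    (measureReal_nonneg (μ := subMu (M.I s)) (s := M.K r))
  have h4 := mul_le_mul_of_nonneg_left (h1 s r) (zero_le_one.trans c2)
  have h5 : C2 * t ≤ C1 * C2 * t := by gcongr; exact le_mul_of_one_le_left (by positivity) c1
  refine le_of_mul_le_mul_right ?_ (Real.exp_pos (M.nu s * τ - C2 * t))
  refine (h3.trans (by linarith : _ ≤ C1 * C2 * M.mE.real (M.K r) * 1)).trans ?_
  rw [mul_right_comm _ (Real.exp _), mul_assoc _ (Real.exp _), ← Real.exp_add]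
  gcongr
  exact Real.one_le_exp (by linarith)

theorem ub_smul (W : Submodule ℝ M.G) {t : ℝ} (ht : 1 ≤ t) (S : Set M.G) :
    (subMu W).real (t • S) ≤ t ^ Module.finrank ℝ M.G * (subMu W).real S := by
  rw [subMu_real_smul W t (by positivity)]
  exact mul_le_mul_of_nonneg_right (pow_le_pow_right₀ ht W.finrank_le) measureReal_nonneg

theorem ub_sub_e {S : Set M.G} (h : S ⊆ M.e) (t : ℝ) : t • S ⊆ M.e := by
  rintro _ ⟨x, hx, rfl⟩
  exact M.e.smul_mem t (h hx)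

section Ideal
variable {M} {I : Submodule ℝ M.G} (hI : I ≤ M.e) (hi : ∀ x ∈ M.e, ∀ y ∈ I, M.B x y ∈ I)
include hI hi

theorem ub_left {x y : M.G} (hx : x ∈ M.e) (hy : y ∈ M.e) :
    (M.e ⊓ Iᗮ).starProjection (x * (M.e ⊓ Iᗮ).starProjection y) =
      (M.e ⊓ Iᗮ).starProjection (x * y) := by
  have h := (M.e ⊓ Iᗮ).starProjection_apply_mem y
  rw [M.proj_mul M.sub_e hI hi hx h.1, M.proj_mul M.sub_e hI hi hx hy,
    Submodule.starProjection_eq_self_iff.2 h]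

theorem ub_right {x y : M.G} (hx : x ∈ M.e) (hy : y ∈ M.e) :
    (M.e ⊓ Iᗮ).starProjection ((M.e ⊓ Iᗮ).starProjection x * y) =
      (M.e ⊓ Iᗮ).starProjection (x * y) := by
  have h := (M.e ⊓ Iᗮ).starProjection_apply_mem x
  rw [M.proj_mul M.sub_e hI hi h.1 hy, M.proj_mul M.sub_e hI hi hx hy,
    Submodule.starProjection_eq_self_iff.2 h]

theorem ub_proj {g g' : M.G} (hg : g ∈ M.e) (hg' : g' ∈ M.e) {S T : Set M.G} (hS : S ⊆ M.e)
    (h : ∀ y ∈ T, ∃ x ∈ S, y = g * x * g') :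
    subMu (M.e ⊓ Iᗮ) ((M.e ⊓ Iᗮ).starProjection '' T) ≤
      subMu (M.e ⊓ Iᗮ) ((M.e ⊓ Iᗮ).starProjection '' S) := by
  have h1 := (M.map_quot M.sub_e hI hi (M.inv_mem_e hg)).1
  have h2 := (M.map_quot M.sub_e hI hi (M.inv_mem_e hg')).2
  refine le_trans ?_ ((Measure.le_map_apply (Continuous.aemeasurable (by fun_prop)) _).trans_eq
    (congrFun (congrArg _ h1) _))
  refine le_trans ?_ ((Measure.le_map_apply (Continuous.aemeasurable (by fun_prop)) _).trans_eq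
    (congrFun (congrArg _ h2) _))
  refine measure_mono ?_
  rintro _ ⟨y, hy, rfl⟩
  obtain ⟨x, hx, rfl⟩ := h y hy
  have h3 := M.mul_mem_e hg (hS hx)
  refine ⟨x, hx, ?_⟩
  beta_reduce
  rw [ub_right hI hi (M.mul_mem_e h3 hg') (M.inv_mem_e hg'), mul_inv_cancel_right,
    ub_left hI hi (M.inv_mem_e hg) h3, inv_mul_cancel_left]

theorem ub_subI : M.Sub I := ⟨fun x hx y hy => hi x (hI hx) y hy, M.tame_of_e hI⟩

theorem ub_fibre {E : Set M.G} (hE : MeasurableSet E) {a : ENNReal}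
    (h : ∀ x ∈ E, x ∈ M.e → subMu I {i | x * i ∈ E} ≤ a) :
    M.mE E ≤ a * subMu (M.e ⊓ Iᗮ) ((M.e ⊓ Iᗮ).starProjection '' E) := by
  have h1 := (M.fubini_sub M.sub_e hI hi (measurable_one.indicator hE)).2
  rw [lintegral_indicator_one hE] at h1
  rw [← measure_toMeasurable ((M.e ⊓ Iᗮ).starProjection '' E),
    ← lintegral_indicator_const (measurableSet_toMeasurable _ _)]
  refine h1.trans_le (lintegral_mono_ae ?_)
  filter_upwards [subMu_ae (M.e ⊓ Iᗮ)] with q hq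
  have h2 : ∀ x, ∫⁻ i, E.indicator 1 (x * i) ∂subMu I = subMu I {i | x * i ∈ E} := fun x =>
    lintegral_indicator_one (hE.preimage (measurable_const_mul x))
  by_cases h3 : ∃ i ∈ I, q * i ∈ E
  · obtain ⟨i, h4, h5⟩ := h3
    have h6 : (M.e ⊓ Iᗮ).starProjection (q * i) = q := by
      rw [← ub_left hI hi hq.1 (hI h4), proj_inf_orth hI (hI h4),
        Submodule.starProjection_eq_self_iff.2 h4, sub_self, ← M.one_def, mul_one,
        Submodule.starProjection_eq_self_iff.2 hq]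
    rw [Set.indicator_of_mem (subset_toMeasurable _ _ (Set.mem_image _ _ _ |>.2 ⟨_, h5, h6⟩)),
      ← lintegral_of_map (measurable_const_mul i) (M.map_mul_left (ub_subI hI hi) h4)
        (f := fun i => E.indicator 1 (q * i))
        ((measurable_one.indicator hE).comp (measurable_const_mul q))]
    simp only [← mul_assoc]
    rw [h2]
    exact h _ h5 (M.mul_mem_e hq.1 (hI h4))
  · rw [h2, ← subMu_inter, show {i | q * i ∈ E} ∩ (I : Set M.G) = ∅ from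
      Set.eq_empty_of_forall_notMem fun i h4 => h3 ⟨i, h4.2, h4.1⟩, measure_empty]
    exact zero_le

theorem ub_fibre' {E S V : Set M.G} (hE : MeasurableSet E) (hS : IsCompact S) (hV : IsCompact V)
    (hS' : S ⊆ M.e) {g g' : M.G} (hg : g ∈ M.e) (hg' : g' ∈ M.e)
    (h1 : ∀ y ∈ E, ∃ x ∈ S, y = g * x * g')
    (h : ∀ x ∈ E, ∃ u ∈ M.e, ∀ i ∈ I, x * i ∈ E → u * i * u⁻¹ ∈ V) :
    M.mE.real E ≤ (subMu I).real V *
      (subMu (M.e ⊓ Iᗮ)).real ((M.e ⊓ Iᗮ).starProjection '' S) := by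
  have h2 := ub_fibre hI hi hE (a := subMu I V) fun x hx _ => by
    obtain ⟨u, hu, h3⟩ := h x hx
    have h4 := M.map_Ad_unip I (Or.inl (M.A_e hu)) (hi u hu)
    refine le_trans ?_ ((Measure.le_map_apply (Continuous.aemeasurable
      (M.Ad u).continuous_of_finiteDimensional) _).trans_eq (congrFun (congrArg _ h4) _))
    rw [← subMu_inter]
    refine measure_mono fun i h5 => ?_
    have h6 := h3 i h5.2 h5.1
    rwa [M.conj_eq (Or.inl (M.A_e (hI h5.2)))] at h6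
  rw [Measure.real, Measure.real, Measure.real, ← ENNReal.toReal_mul]
  exact ENNReal.toReal_mono (ENNReal.mul_ne_top hV.measure_ne_top
    (hS.image (by fun_prop)).measure_ne_top)
    (h2.trans (mul_le_mul_right (ub_proj hI hi hg hg' hS' h1) _))

end Ideal

theorem ub_est (C₀ C₁ : ℝ) (h₀ : 1 ≤ C₀) (h₁ : 1 ≤ C₁) : ∃ C : ℝ, 1 ≤ C ∧
    ∀ (s : M.V) (r₁ r₂ : Fin M.d → ℝ) (τ₁ τ₂ t : ℝ) (g g' : M.G) (E : Set M.G), ‖s‖ = 1 → 0 ≤ t →
      g ∈ M.e → g' ∈ M.e → MeasurableSet E →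
      (∀ i, M.OnRay s i → r₁ i ≤ τ₁ * ‖M.wt i‖ + t) →
      (∀ i, M.OnRay s i → τ₂ * ‖M.wt i‖ - t ≤ r₂ i) →
      (∀ y ∈ E, ∃ x ∈ C₀ • M.K r₁, y = g * x * g') →
      (∀ x ∈ E, ∃ u ∈ M.e, ∀ i ∈ M.I s, x * i ∈ E → u * i * u⁻¹ ∈ C₁ • M.K r₂) →
      M.mE.real E ≤ C * Real.exp (-(M.nu s * (τ₂ - τ₁)) + C * t) * M.mE.real (M.K r₂) := by
  obtain ⟨C2, c2, h2⟩ := M.ub_volI
  obtain ⟨C3, c3, h3⟩ := M.vol_proj_K
  set n := Module.finrank ℝ M.G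
  have c4 : 1 ≤ C₁ ^ n * C₀ ^ n :=
    one_le_mul_of_one_le_of_one_le (one_le_pow₀ h₁) (one_le_pow₀ h₀)
  have c5 : C2 * C3 ≤ (C2 + C3) * (C2 + C3) := by nlinarith
  have c6 : C2 + C3 ≤ (C2 + C3) * (C2 + C3) := by nlinarith
  have c7 := le_mul_of_one_le_left (by positivity : 0 ≤ (C2 + C3) * (C2 + C3)) c4
  refine ⟨C₁ ^ n * C₀ ^ n * ((C2 + C3) * (C2 + C3)), by linarith,
    fun s r₁ r₂ τ₁ τ₂ t g g' E hs ht hg hg' hE a1 a2 a3 a4 => ?_⟩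
  refine (ub_fibre' (M.I_le_e s) (M.B_I s) hE ((M.K_isLB r₁).compact.smul C₀)
    ((M.K_isLB r₂).compact.smul C₁) (M.ub_sub_e (M.K_sub_e r₁) C₀) hg hg' a3 a4).trans ?_
  rw [Set.image_smul_comm _ _ _ fun x => map_smul _ C₀ x]
  refine (mul_le_mul ((M.ub_smul _ h₁ _).trans (mul_le_mul_of_nonneg_left (h2 s r₂ τ₂ t hs ht a2)
    (by positivity))) ((M.ub_smul _ h₀ _).trans (mul_le_mul_of_nonneg_left
      ((h3 s r₁ τ₁ t hs ht).1 a1) (by positivity))) measureReal_nonneg (by positivity)).trans ?_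
  calc _ = C₁ ^ n * C₀ ^ n * (C2 * C3) * (Real.exp (-(M.nu s * τ₂) + C2 * t) *
        Real.exp (M.nu s * τ₁ + C3 * t)) * M.mE.real (M.K r₂) := by ring
    _ ≤ _ := by
      rw [← Real.exp_add]
      gcongr _ * ?_ * Real.exp ?_ * _
      linarith [mul_le_mul_of_nonneg_right (c6.trans c7) ht]

theorem ub_dens {A B V Y : Set M.G} (hA : MeasurableSet A) (hB : MeasurableSet B)
    (hY : MeasurableSet Y) (hB' : B ⊆ M.e) {g : M.G} (hg : g ∈ M.e)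
    (h : ∀ y ∈ A, ∀ y' ∈ A, ∀ τ ∈ B, ∀ τ' ∈ B, y * g * τ = y' * g * τ' → τ * τ'⁻¹ ∈ V) :
    M.mE.prod M.mE {p | p.1 ∈ A ∧ p.2 ∈ B ∧ p.1 * g * p.2 ∈ Y} ≤ M.mE V * M.mE Y := by
  have : SFinite M.mE := inferInstanceAs (SFinite (subMu M.e))
  have m1 : MeasurableSet {p : M.G × M.G | p.1 ∈ A ∧ p.2 ∈ B ∧ p.1 * g * p.2 ∈ Y} :=
    (measurable_fst hA).inter ((measurable_snd hB).inter
      (hY.preimage (Continuous.measurable (by fun_prop))))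
  have m2 : MeasurableSet {p : M.G × M.G | p.1 * (g * p.2)⁻¹ ∈ A ∧ p.2 ∈ B ∧ p.1 ∈ Y} :=
    (hA.preimage (Continuous.measurable (by fun_prop))).inter
      ((measurable_snd hB).inter (measurable_fst hY))
  have h1 : M.mE.prod M.mE {p | p.1 ∈ A ∧ p.2 ∈ B ∧ p.1 * g * p.2 ∈ Y} =
      M.mE.prod M.mE {p | p.1 * (g * p.2)⁻¹ ∈ A ∧ p.2 ∈ B ∧ p.1 ∈ Y} := by
    rw [Measure.prod_apply_symm m1, Measure.prod_apply_symm m2]
    refine lintegral_congr_ae ?_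
    filter_upwards [subMu_ae M.e] with τ hτ
    rw [← M.mE_preimage_mul_right (M.mul_mem_e hg hτ) (_ ⁻¹' {p : M.G × M.G | _ ∧ _ ∧ p.1 ∈ Y})]
    congr 1
    ext y
    simp only [Set.mem_preimage, Set.mem_ofPred_eq, mul_inv_cancel_right, mul_assoc y g τ]
  rw [h1, Measure.prod_apply m2, ← lintegral_indicator_const hY]
  refine lintegral_mono fun z => ?_
  rcases Set.eq_empty_or_nonempty (Prod.mk z ⁻¹'
    {p : M.G × M.G | p.1 * (g * p.2)⁻¹ ∈ A ∧ p.2 ∈ B ∧ p.1 ∈ Y}) with h2 | ⟨τ', h2, h3, h4⟩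
  · rw [h2, measure_empty]
    exact zero_le
  · rw [Set.indicator_of_mem h4, ← M.mE_preimage_mul_right (M.inv_mem_e (hB' h3)) V]
    exact measure_mono fun τ hτ => h _ hτ.1 _ h2 _ hτ.2.1 _ h3 (by group)

theorem ub_dens' {A B V Y : Set M.G} (hA : MeasurableSet A) (hB : MeasurableSet B)
    (hY : MeasurableSet Y) (hB' : B ⊆ M.e) {g : M.G} (hg : g ∈ M.e) (hV : IsCompact V)
    (hY' : M.mE Y ≠ ⊤)
    (h : ∀ y ∈ A, ∀ y' ∈ A, ∀ τ ∈ B, ∀ τ' ∈ B, y * g * τ = y' * g * τ' → τ * τ'⁻¹ ∈ V) :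
    (M.mE.prod M.mE).real {p | p.1 ∈ A ∧ p.2 ∈ B ∧ p.1 * g * p.2 ∈ Y} ≤
      M.mE.real V * M.mE.real Y := by
  rw [Measure.real, Measure.real, Measure.real, ← ENNReal.toReal_mul]
  exact ENNReal.toReal_mono (ENNReal.mul_ne_top (hV.measure_ne_top (μ := subMu M.e)) hY')
    (M.ub_dens hA hB hY hB' hg h)

theorem ub (C₀ : ℝ) (h : 1 ≤ C₀) : ∃ C : ℝ, 1 ≤ C ∧
    ∀ (s : M.V) (r rQ : Fin M.d → ℝ) (ρ τ τQ t : ℝ) (g : M.G), ‖s‖ = 1 → 0 ≤ ρ → 0 ≤ t → g ∈ M.e →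
      (∀ i, M.wt i ≠ 0 → -ρ ≤ r i) → (∀ i, M.OnRay s i → r i ≤ ρ) →
      (∀ i, M.wt i ≠ 0 → ¬ M.OnRay s i → 2 * M.c * ρ ≤ r i) →
      (∀ i, M.OnRay s i → τ * ‖M.wt i‖ - t ≤ r i) →
      (∀ i, M.OnRay s i → rQ i ≤ τQ * ‖M.wt i‖ + t) →
      M.mE.real (((C₀ • M.K r) * (C₀ • M.K (fun _ => ρ))) ∩ ({g} * (C₀ • M.K rQ))) ≤
        C * Real.exp (M.Phi r + M.nu s * (τQ - τ) + C * t) := by
  have h0 := zero_le_one.trans h
  obtain ⟨C1, c1, h1⟩ := M.mul_mem C₀ h0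
  obtain ⟨C2, c2, h2⟩ := M.split_K C1 (zero_le_one.trans c1)
  obtain ⟨C3, c3, h3⟩ := M.mul_mem (C1 + C2) (by positivity)
  obtain ⟨C4, c4, h4⟩ := M.small_I C3 (zero_le_one.trans c3)
  obtain ⟨C5, c5, h5⟩ := M.mul_mem (C2 + C4) (by positivity)
  obtain ⟨C6, c6, h6⟩ := M.ub_est C₀ C5 h c5
  obtain ⟨C7, c7, h7⟩ := M.vol_K
  refine ⟨C6 * C7, one_le_mul_of_one_le_of_one_le c6 c7,
    fun s r rQ ρ τ τQ t g hs hρ ht hg a1 a2 a3 a4 a5 => ?_⟩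
  have up : ∀ {r : Fin M.d → ℝ} {a b : ℝ} {x : M.G}, x ∈ a • M.K r → 0 ≤ a → a ≤ b →
      x ∈ b • M.K r := fun hx ha hab =>
    (M.K_isLB _).sc.smul_mono (by rwa [abs_of_nonneg ha]) hx
  have hI := ub_subI (M.I_le_e s) (M.B_I s)
  refine (h6 s rQ r τQ τ t g 1 _ hs ht hg M.e.zero_mem ?_ a5 a4 ?_ ?_).trans ?_
  · exact ((((M.K_isLB r).compact.smul C₀).mul ((M.K_isLB _).compact.smul C₀)).inter
      (isCompact_singleton.mul ((M.K_isLB rQ).compact.smul C₀))).measurableSet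
  · rintro _ ⟨-, _, rfl, x, hx, rfl⟩
    exact ⟨x, hx, (mul_one _).symm⟩
  · rintro _ ⟨⟨k₁, k1, τ₁, t1, rfl⟩, -⟩
    have u1 := M.ub_sub_e (M.K_sub_e _) C₀ t1
    refine ⟨τ₁, u1, ?_⟩
    rintro i hi ⟨⟨k₂, k2, τ₂, t2, e1⟩, -⟩
    obtain ⟨y, y1, z, z1, y2, e2⟩ := h2 s r ρ a2 _ (h1 _ (M.K_isLB r) (M.K_tame r) _
      (M.inv_mem (M.K_isLB r).sc (M.K_tame r) k1) _ k2)
    have w1 := h3 _ (M.K_isLB _) (M.K_tame _) _ (up z1 (by positivity) (by linarith)) _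
      (up (h1 _ (M.K_isLB _) (M.K_tame _) _ t2 _ (M.inv_mem (M.K_isLB _).sc (M.K_tame _) t1))
        (by positivity) (by linarith))
    have e3 : τ₁ * i * τ₁⁻¹ = y * (z * (τ₂ * τ₁⁻¹)) := by
      have e4 : k₂ * τ₂ = k₁ * τ₁ * i := e1
      rw [← mul_assoc y, ← e2, mul_assoc k₁⁻¹, ← mul_assoc k₂, e4]
      group
    have w2 : τ₁ * i * τ₁⁻¹ ∈ M.I s := by
      rw [M.conj_eq (Or.inl (M.A_e (M.I_le_e s hi)))]
      exact M.Ad_mem_of_B _ (M.A_e u1) (M.B_I s _ u1) hi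
    have w3 : z * (τ₂ * τ₁⁻¹) ∈ M.I s := by
      have y3 : y⁻¹ ∈ M.I s := by
        rw [M.inv_eq_neg (Or.inl (M.A_e (M.I_le_e s y2)))]
        exact neg_mem y2
      rw [← inv_mul_cancel_left y (z * _), ← e3, hI.mul_eq M y3 w2]
      exact M.st_mem _ hI.lie y3 w2
    rw [e3]
    exact h5 _ (M.K_isLB r) (M.K_tame r) _ (up y1 (by positivity) (by linarith)) _
      (up (h4 s r ρ hρ a1 a3 _ w1 w3) (by positivity) (by linarith))
  · refine (mul_le_mul_of_nonneg_left (h7 r).2 (by positivity)).trans ?_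
    rw [mul_mul_mul_comm, ← Real.exp_add]
    gcongr _ * Real.exp ?_
    linarith [mul_le_mul_of_nonneg_right (le_mul_of_one_le_right (by positivity) c7 :
      C6 ≤ C6 * C7) ht]

theorem inter_le (C₀ : ℝ) (h : 1 ≤ C₀) : ∃ C : ℝ, 1 ≤ C ∧
    ∀ (s : M.V) (r₁ r₂ : Fin M.d → ℝ) (τ₁ τ₂ t : ℝ) (g : M.G), ‖s‖ = 1 → 0 ≤ t → g ∈ M.e →
      (∀ i, M.OnRay s i → r₁ i ≤ τ₁ * ‖M.wt i‖ + t) →
      (∀ i, M.OnRay s i → τ₂ * ‖M.wt i‖ - t ≤ r₂ i) →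
      M.mE.real ((C₀ • M.K r₂) ∩ M.Ad g '' (C₀ • M.K r₁)) ≤
        C * Real.exp (-(M.nu s * (τ₂ - τ₁)) + C * t) * M.mE.real (M.K r₂) := by
  obtain ⟨C1, c1, h1⟩ := M.mul_mem C₀ (zero_le_one.trans h)
  obtain ⟨C, c, h2⟩ := M.ub_est C₀ C1 h c1
  refine ⟨C, c, fun s r₁ r₂ τ₁ τ₂ t g hs ht hg a1 a2 =>
    h2 s r₁ r₂ τ₁ τ₂ t g g⁻¹ _ hs ht hg (M.inv_mem_e hg) ?_ a1 a2 ?_ fun x hx => ?_⟩
  · exact (((M.K_isLB r₂).compact.smul C₀).inter (((M.K_isLB r₁).compact.smul C₀).image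
      (M.Ad g).continuous_of_finiteDimensional)).measurableSet
  · rintro _ ⟨-, x, hx, rfl⟩
    exact ⟨x, hx, (M.conj_eq (Or.inl (M.A_e (M.ub_sub_e (M.K_sub_e _) C₀ hx)))).symm⟩
  · refine ⟨1, M.e.zero_mem, fun i _ hi => ?_⟩
    simpa using h1 _ (M.K_isLB r₂) (M.K_tame r₂) _
      (M.inv_mem (M.K_isLB r₂).sc (M.K_tame r₂) hx.1) _ hi.1

theorem prod_lb : ∃ C : ℝ, 1 ≤ C ∧
    ∀ (s : M.V) (r₁ r₂ : Fin M.d → ℝ) (τ₁ τ₂ t : ℝ) (g : M.G) (Y : Set M.G), ‖s‖ = 1 → 0 ≤ t →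
      g ∈ M.e → MeasurableSet Y → M.mE Y ≠ ⊤ →
      (∀ i, M.OnRay s i → r₁ i ≤ τ₁ * ‖M.wt i‖ + t) →
      (∀ i, M.OnRay s i → τ₂ * ‖M.wt i‖ - t ≤ r₂ i) →
      2⁻¹ * (M.mE.real (M.K r₁) * M.mE.real (M.K r₂)) ≤
        (M.mE.prod M.mE).real {p | p.1 ∈ M.K r₁ ∧ p.2 ∈ M.K r₂ ∧ p.1 * g * p.2 ∈ Y} →
      Real.exp (M.Phi r₁ + M.nu s * (τ₂ - τ₁) - C * t) ≤ C * M.mE.real Y := by
  obtain ⟨C1, c1, h1⟩ := M.mul_mem 1 zero_le_one
  obtain ⟨C2, c2, h2⟩ := M.inter_le C1 c1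
  obtain ⟨C3, c3, h3⟩ := M.vol_K
  have c4 : C2 ≤ 2 * C2 * C3 := by nlinarith
  refine ⟨2 * C2 * C3, c2.trans c4, fun s r₁ r₂ τ₁ τ₂ t g Y hs ht hg hY hY' a1 a2 a3 => ?_⟩
  have h4 := M.ub_dens' (M.K_isLB r₁).compact.measurableSet (M.K_isLB r₂).compact.measurableSet
    hY (M.K_sub_e r₂) hg (((M.K_isLB r₂).compact.smul C1).inter
      (((M.K_isLB r₁).compact.smul C1).image (M.Ad g⁻¹).continuous_of_finiteDimensional)) hY'
    fun y hy y' hy' τ hτ τ' hτ' e => by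
      have h5 := h1 _ (M.K_isLB r₁) (M.K_tame r₁) _
        (M.inv_mem (M.K_isLB r₁).sc (M.K_tame r₁) (M.lb_one hy)) _ (M.lb_one hy')
      refine ⟨h1 _ (M.K_isLB r₂) (M.K_tame r₂) _ (M.lb_one hτ) _
        (M.inv_mem (M.K_isLB r₂).sc (M.K_tame r₂) (M.lb_one hτ')), _, h5, ?_⟩
      rw [← M.conj_eq (Or.inl (M.A_e (M.ub_sub_e (M.K_sub_e _) C1 h5))),
        show τ = (y * g)⁻¹ * (y' * g * τ') by rw [← e, inv_mul_cancel_left]]
      group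
  have h5 := (a3.trans h4).trans (mul_le_mul_of_nonneg_right
    (h2 s r₁ r₂ τ₁ τ₂ t g⁻¹ hs ht (M.inv_mem_e hg) a1 a2) measureReal_nonneg)
  have h6 : M.mE.real (M.K r₁) ≤
      2 * C2 * Real.exp (-(M.nu s * (τ₂ - τ₁)) + C2 * t) * M.mE.real Y :=
    le_of_mul_le_mul_right (by linarith) (M.mE_K_pos r₂)
  have h7 := (h3 r₁).1.trans (mul_le_mul_of_nonneg_left h6 (by positivity))
  refine le_of_mul_le_mul_right ?_ (Real.exp_pos (-(M.nu s * (τ₂ - τ₁)) + C2 * t))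
  refine le_trans ?_ (h7.trans_eq (by ring))
  rw [← Real.exp_add]
  exact Real.exp_le_exp.2 (by linarith [mul_le_mul_of_nonneg_right c4 ht])

/-- The law of `l * t` is dominated by the uniform law on a dilate of `L + T`. -/
theorem conv_le (C₀ : ℝ) (h : 1 ≤ C₀) : ∃ C : ℝ, 1 ≤ C ∧ ∀ L T D : Set M.G, M.IsLB L → M.IsLB T →
    L ⊆ M.e → T ⊆ M.e → (∀ x ∈ T, ∀ y ∈ L, M.B x y ∈ L) → MeasurableSet D →
      (M.mE.prod M.mE).real {p | p.1 ∈ C₀ • L ∧ p.2 ∈ C₀ • T ∧ p.1 * p.2 ∈ D} *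
          M.mE.real ((4 : ℝ)⁻¹ • (L + T)) ≤
        C * M.mE.real L * M.mE.real T * M.mE.real ((C • (4 : ℝ)⁻¹ • (L + T)) ∩ D) := by
  have h0 := zero_le_one.trans h
  obtain ⟨C1, c1, h1⟩ := M.mul_mem C₀ h0
  obtain ⟨C2, c2, h2⟩ := M.mul_mem (C₀ * 4) (by positivity)
  obtain ⟨C3, c3, h3⟩ := add_inter M.e
  set n := Module.finrank ℝ M.G
  have c4 : 1 ≤ C1 ^ n * C3 := one_le_mul_of_one_le_of_one_le (one_le_pow₀ c1) c3
  refine ⟨C1 ^ n * C3 * C2, one_le_mul_of_one_le_of_one_le c4 c2,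
    fun L T D hL hT hL' hT' hi hD => ?_⟩
  have hS := hL.add M hT hi
  have hLT : L + T ⊆ M.e := by
    rintro _ ⟨x, hx, y, hy, rfl⟩
    exact M.e.add_mem (hL' hx) (hT' hy)
  have tL := M.tame_of_e hL'
  have tT := M.tame_of_e hT'
  have hc := hS.compact.smul (C1 ^ n * C3 * C2)
  have e4 : (C₀ * 4) • (4 : ℝ)⁻¹ • (L + T) = C₀ • (L + T) := by
    rw [smul_smul, mul_inv_cancel_right₀ four_ne_zero]
  have h4 := M.ub_dens' (hL.compact.smul C₀).measurableSet (hT.compact.smul C₀).measurableSet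
    (hc.measurableSet.inter hD) (M.ub_sub_e hT' C₀) (g := 1) M.e.zero_mem
    ((hL.inter M hT).compact.smul C1)
    (ne_top_of_le_ne_top (hc.measure_ne_top (μ := subMu M.e)) (measure_mono Set.inter_subset_left))
    fun y hy y' hy' τ hτ τ' hτ' e => by
      rw [Set.smul_set_inter₀ (by positivity)]
      refine ⟨?_, h1 _ hT tT _ hτ _ (M.inv_mem hT.sc tT hτ')⟩
      rw [show τ = (y * 1)⁻¹ * (y' * 1 * τ') by rw [← e, inv_mul_cancel_left]]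
      simpa [mul_assoc] using h1 _ hL tL _ (M.inv_mem hL.sc tL hy) _ hy'
  have h5 : {p : M.G × M.G | p.1 ∈ C₀ • L ∧ p.2 ∈ C₀ • T ∧ p.1 * p.2 ∈ D} =
      {p | p.1 ∈ C₀ • L ∧ p.2 ∈ C₀ • T ∧
        p.1 * 1 * p.2 ∈ ((C1 ^ n * C3 * C2) • (4 : ℝ)⁻¹ • (L + T)) ∩ D} := by
    ext ⟨x, y⟩
    refine and_congr_right fun hx => and_congr_right fun hy => ?_
    rw [mul_one]
    refine ⟨fun h6 => ⟨hS.sc.smul_mono ?_ (h2 _ hS (M.tame_of_e (M.ub_sub_e hLT _)) x ?_ y ?_),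
      h6⟩, fun h6 => h6.2⟩
    · rw [abs_of_nonneg (by positivity)]
      exact le_mul_of_one_le_left (by positivity) c4
    · rw [e4]
      exact Set.smul_set_mono (Set.subset_add_left _ hT.sc.zero_mem) hx
    · rw [e4]
      exact Set.smul_set_mono (Set.subset_add_right _ hL.sc.zero_mem) hy
  have h6 : M.mE.real ((4 : ℝ)⁻¹ • (L + T)) ≤ M.mE.real (L + T) := by
    refine (subMu_real_smul M.e _ (by positivity) _).trans_le ?_
    exact mul_le_of_le_one_left measureReal_nonneg (pow_le_one₀ (by positivity) (by norm_num))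
  have h7 : M.mE.real (L + T) * M.mE.real (L ∩ T) ≤ C3 * M.mE.real L * M.mE.real T :=
    h3 L T hL.sc hT.sc hL.compact hT.compact hL' hT'
  have h8 : M.mE.real (C1 • (L ∩ T)) ≤ C1 ^ n * M.mE.real (L ∩ T) := M.ub_smul M.e c1 _
  rw [h5]
  refine (mul_le_mul (h4.trans (mul_le_mul_of_nonneg_right h8 measureReal_nonneg)) h6
    measureReal_nonneg (by positivity)).trans ?_
  calc _ = C1 ^ n * (M.mE.real (L + T) * M.mE.real (L ∩ T)) * 1 * M.mE.real (_ ∩ D) := by ring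
    _ ≤ C1 ^ n * (C3 * M.mE.real L * M.mE.real T) * C2 * M.mE.real (_ ∩ D) := by gcongr
    _ = _ := by ring

end Vale.Agent.P188.Geo
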