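import Vale.Agent.P188.AffDefs

/-! Volume pinning.  Plan: `vol_transfer` with `D = K r ∩ {|p| ≤ exp b}`; `D * K small` lies in
`(C • K r') ∩ {|p| ≤ exp b + C exp small}` with `r' = max r small ≤ r + small + ...` (note
`-t ≤ r i`); `slab` with `x₀ = ± exp (r' i) • X i` (`GenF.exists_X`, `X_mem_K`), `vol_K`,
`Phi_le_add`.  If `φ (x₁ * y) = φ x₁ * x * ζ` then `p` of the displacement is `p x`
(`GenF.mul`, `GenF.u0`) and its height is `A ζ`. -/

namespace Vale.Agent.P188.Geo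
open scoped InnerProductSpace Pointwise
open MeasureTheory
variable (M : Geo)

theorem vp (K C : ℝ) {μ p} (hp : M.GenF μ p) : ∃ C' : ℝ, 1 ≤ C' ∧ ∀ φ, IsQI M.Q M.Q K C φ →
    ∀ (x₁ : M.G) (Y : Set M.G) (r : Fin M.d → ℝ) (ρ t b τ : ℝ), MeasurableSet Y → Y ⊆ M.e →
      M.mE Y ≠ ⊤ → 0 ≤ ρ → Real.log (2 + ρ) ≤ t → (∀ i, M.wt i ≠ 0 → -t ≤ r i) →
      (∀ i, M.wt i = μ → τ ≤ r i) → Real.exp (M.Phi r - t) ≤ M.mE.real Y →
      (∀ y ∈ Y, (φ x₁)⁻¹ * φ (x₁ * y) ∈ M.K r * M.Z ρ ∧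
        ‖M.A ((φ x₁)⁻¹ * φ (x₁ * y))‖ ≤ t ∧ |p ((φ x₁)⁻¹ * φ (x₁ * y))| ≤ Real.exp b) →
      τ ≤ max b 0 + C' * t := by
  obtain ⟨C1, hC1, H1⟩ := M.vol_transfer K C
  obtain ⟨C2, hC2, H2⟩ := M.mul_mem 1 zero_le_one
  obtain ⟨C3, hC3, H3⟩ := hp.abs_le_K
  obtain ⟨C4, hC4, H4⟩ := slab M.e
  obtain ⟨C5, hC5, H5⟩ := M.vol_K
  obtain ⟨i0, hi0, hX⟩ := hp.exists_X
  have hw0 : M.wt i0 ≠ 0 := hi0 ▸ hp.1
  have hκ : 0 < |p (M.X i0)| := abs_pos.2 hX
  obtain ⟨Cb, hCb⟩ : ∃ Cb : ℝ,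
      Cb = C4 * (1 + C3) * C2 ^ Module.finrank ℝ M.e * C5 / |p (M.X i0)| := ⟨_, rfl⟩
  have hCb0 : 0 < Cb := by rw [hCb]; positivity
  have hdc : (0 : ℝ) ≤ M.d * M.c := by positivity
  refine ⟨1 + 3 * C1 + M.d * M.c * (1 + 2 * C1) + 2 * Cb, by nlinarith, ?_⟩
  intro φ hφ x₁ Y r ρ t b τ mY hYe _ hρ ht hr hτ hvol hY
  have hlog : 1 / 2 ≤ Real.log (2 + ρ) := by
    have := Real.log_le_log (by norm_num) (show (2 : ℝ) ≤ 2 + ρ by linarith)
    linarith [Real.log_two_gt_d9]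
  have ht0 : 0 ≤ t := by linarith
  have h1 := H1 φ hφ x₁ (φ x₁) Y (M.K r ∩ {x | |p x| ≤ Real.exp b}) ρ t mY hYe
    (fun x hx => M.K_sub_e r hx.1) hρ ht0 (fun y hy => by
      obtain ⟨⟨x, hx, ζ, hζ, e⟩, hA, hb⟩ := hY y hy
      dsimp only at e
      rw [← e] at hA hb
      rw [M.A_mul, M.A_e (M.K_sub_e r hx), zero_add] at hA
      rw [hp.mul, hp.u0 M (M.Z_sub_u0 ρ hζ), mul_zero, add_zero] at hb
      exact ⟨x, ⟨hx, hb⟩, ζ, hζ, hA, by rw [mul_assoc, e, mul_inv_cancel_left]⟩)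
  obtain ⟨s, hs⟩ : ∃ s, s = C1 * (t + Real.log (2 + ρ)) := ⟨_, rfl⟩
  rw [← hs] at h1
  have hs0 : 0 ≤ s := by rw [hs]; positivity
  have hs1 : s ≤ 2 * C1 * t := by rw [hs]; nlinarith
  obtain ⟨r', hr'⟩ : ∃ r' : Fin M.d → ℝ, r' = fun i => r i + (t + s) := ⟨_, rfl⟩
  have hK := M.K_isLB r'
  have hsc : SC (C2 • M.K r') := hK.sc.smul C2
  have hcp : IsCompact (C2 • M.K r') := hK.compact.smul C2
  have hSe : C2 • M.K r' ⊆ M.e := by
    rintro _ ⟨x, hx, rfl⟩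
    exact M.e.smul_mem _ (M.K_sub_e r' hx)
  have hsub : (M.K r ∩ {x | |p x| ≤ Real.exp b}) * M.K (fun _ => s) ⊆
      (C2 • M.K r') ∩ {x | |p x - 0| ≤ Real.exp b + C3 * Real.exp s} := by
    rintro _ ⟨x, hx, y, hy, rfl⟩
    have hx' : x ∈ M.K r' := M.K_mono (fun i _ => by rw [hr']; dsimp only; linarith) hx.1
    have hy' : y ∈ M.K r' :=
      M.K_mono (fun i hi => by rw [hr']; dsimp only; linarith [hr i hi]) hy
    refine ⟨H2 _ hK (M.K_tame r') x (M.lb_one hx') y (M.lb_one hy'), ?_⟩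
    change |p (x * y) - 0| ≤ _
    rw [sub_zero, hp.mul, M.A_e (M.K_sub_e r hx.1), inner_zero_right, Real.exp_zero, one_mul]
    exact (abs_add_le _ _).trans (add_le_add hx.2 (H3 _ s (fun _ _ => le_rfl) y hy))
  obtain ⟨x₀, hx₀, hpx⟩ : ∃ x₀ ∈ C2 • M.K r', p x₀ = Real.exp (r' i0) * |p (M.X i0)| := by
    have hm : Real.exp (r' i0) • M.X i0 ∈ C2 • M.K r' :=
      hK.sc.subset_smul hC2 (M.X_mem_K hw0 (abs_of_pos (Real.exp_pos _)).le)
    rcases abs_choice (p (M.X i0)) with e | e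
    · exact ⟨_, hm, by rw [map_smul, e, smul_eq_mul]⟩
    · exact ⟨_, hsc.neg_mem _ hm, by rw [map_neg, map_smul, e, smul_eq_mul, mul_neg]⟩
  have h4 := H4 _ hsc hcp hSe p x₀ hx₀ (by rw [hpx]; positivity) 0
    (Real.exp b + C3 * Real.exp s) (by positivity)
  rw [subMu_real_smul _ _ (by linarith), hpx] at h4
  have h5 : (subMu M.e).real (M.K r') ≤ C5 * Real.exp (M.Phi r + M.d * M.c * (t + s)) :=
    (H5 r').2.trans (mul_le_mul_of_nonneg_left (Real.exp_le_exp.2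
      (M.Phi_le_add (by linarith) fun i _ => by rw [hr'])) (by linarith))
  have hfin : M.mE ((C2 • M.K r') ∩ {x | |p x - 0| ≤ Real.exp b + C3 * Real.exp s}) ≠ ⊤ :=
    ne_top_of_le_ne_top (hcp.measure_lt_top (μ := subMu M.e)).ne
      (measure_mono Set.inter_subset_left)
  have h6 : M.mE.real Y ≤ Real.exp (C1 * Real.log (2 + ρ)) *
      (subMu M.e).real ((C2 • M.K r') ∩ {x | |p x - 0| ≤ Real.exp b + C3 * Real.exp s}) := by
    have := ENNReal.toReal_mono (ENNReal.mul_ne_top ENNReal.ofReal_ne_top hfin)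
      (h1.trans (mul_le_mul_right (measure_mono hsub) _))
    rwa [ENNReal.toReal_mul, ENNReal.toReal_ofReal (Real.exp_pos _).le] at this
  have h7 : (Real.exp b + C3 * Real.exp s) / (Real.exp (r' i0) * |p (M.X i0)|) ≤
      (1 + C3) / |p (M.X i0)| * Real.exp (max b 0 - τ) := by
    have e1 : Real.exp b ≤ Real.exp (max b 0 - τ) * Real.exp (r' i0) := by
      rw [← Real.exp_add, Real.exp_le_exp, hr']
      linarith [le_max_left b 0, hτ i0 hi0]
    have e2 : Real.exp s ≤ Real.exp (max b 0 - τ) * Real.exp (r' i0) := by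
      rw [← Real.exp_add, Real.exp_le_exp, hr']
      linarith [le_max_right b 0, hτ i0 hi0]
    rw [div_le_iff₀ (by positivity)]
    have e3 : (1 + C3) / |p (M.X i0)| * Real.exp (max b 0 - τ) *
        (Real.exp (r' i0) * |p (M.X i0)|) =
        (1 + C3) * (Real.exp (max b 0 - τ) * Real.exp (r' i0)) := by
      field_simp
    rw [e3]
    nlinarith [mul_le_mul_of_nonneg_left e2 (show 0 ≤ C3 by linarith)]
  have h8 : Cb ≤ Real.exp (2 * Cb * t) := by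
    have := Real.add_one_le_exp (2 * Cb * t)
    nlinarith
  have h9 : Real.exp (M.Phi r - t) ≤ Real.exp (C1 * t + 2 * Cb * t + (max b 0 - τ) +
      (M.Phi r + M.d * M.c * (t + s))) := by
    have e1 : Real.exp (C1 * Real.log (2 + ρ)) ≤ Real.exp (C1 * t) :=
      Real.exp_le_exp.2 (mul_le_mul_of_nonneg_left ht (by linarith))
    calc Real.exp (M.Phi r - t) ≤ _ := hvol.trans h6
      _ ≤ Real.exp (C1 * t) * (C4 * ((1 + C3) / |p (M.X i0)| * Real.exp (max b 0 - τ)) *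
          (C2 ^ Module.finrank ℝ M.e * (C5 * Real.exp (M.Phi r + M.d * M.c * (t + s))))) := by
        refine mul_le_mul e1 (h4.trans ?_) measureReal_nonneg (Real.exp_pos _).le
        have : 0 ≤ C2 := by linarith
        have : 0 ≤ C3 := by linarith
        have : 0 ≤ C4 := by linarith
        gcongr
      _ = Real.exp (C1 * t) * Cb * Real.exp (max b 0 - τ) *
          Real.exp (M.Phi r + M.d * M.c * (t + s)) := by
        rw [hCb]
        ring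
      _ ≤ _ := by
        rw [Real.exp_add _ (M.Phi r + _), Real.exp_add _ (max b 0 - τ), Real.exp_add (C1 * t)]
        gcongr
  rw [Real.exp_le_exp] at h9
  nlinarith [mul_le_mul_of_nonneg_left hs1 hdc, mul_nonneg (show 0 ≤ C1 by linarith) ht0]

end Vale.Agent.P188.Geo
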