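import Vale.Agent.P188.AffDefs

/-! The ideals `I s`, the rates `nu s`, volumes of projections.
Plan: `I s` depends only on the set of on-ray letters, so constants are uniform in `s`.
Every `Mon` of the scaled letters is a scalar multiple of a `Mon` of the unit letters, which is a
`MonOff` or a `Mon` of on-ray letters; so the projection of `K r` to `e ⊓ (I s)ᗮ` is that of
the body generated by the on-ray letters, and for `r i = τ ‖wt i‖` this is the projection of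
`del (τ • s) '' K 0`.  The map `q ↦ proj (del v q)` is a one-parameter group of linear maps of
`e ⊓ (I s)ᗮ` (`subMu_image_linear`), so volumes scale by `exp (nu s * τ)`; on-ray letters have
`⟪wt i, s⟫ > 0`, so `nu s ≥ 0`, and `nu s > 0` as soon as `I s ≠ e` (the determinant of an
operator whose eigenvalues are `exp` of positive numbers; or: `K 0` projects into
`exp (-c) •` the projection of `del s '' K 0`).  `nu_perm`: `w` maps the finite set
`{s | ∃ i, s = ray i ∧ 0 < nu s}` injectively into itself; compare the sums. -/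

namespace Vale.Agent.P188.Geo
open scoped InnerProductSpace Pointwise
open MeasureTheory
variable (M : Geo)

theorem nu_mon_e {y : M.G} (h : M.Mon {z | ∃ i, M.wt i ≠ 0 ∧ z = M.X i} y) : y ∈ M.e :=
  Submodule.subset_span h

theorem nu_off {s} {x : M.G} (h : M.MonOff s x) : x ∈ M.I s := Submodule.subset_span h

theorem I_le_e (s) : M.I s ≤ M.e := by
  refine Submodule.span_le.2 fun x hx => ?_
  induction hx with
  | base hi _ => exact M.X_mem_e hi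
  | left _ hy _ => exact M.B_e _ (M.nu_mon_e hy)
  | right _ _ ih => exact M.B_e _ ih
theorem B_I (s) : ∀ x ∈ M.e, ∀ y ∈ M.I s, M.B x y ∈ M.I s := by
  intro x hx y hy
  have h1 : M.I s ≤ (M.I s).comap (M.B x) := Submodule.span_le.2 fun z hz => by
    have h2 : M.e ≤ (M.I s).comap (M.B.flip z) :=
      Submodule.span_le.2 fun w hw => M.nu_off (MonOff.right hw hz)
    exact h2 hx
  exact h1 hy
theorem nu_B_I {s} {x y : M.G} (hx : x ∈ M.I s) (hy : y ∈ M.e) : M.B x y ∈ M.I s := by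
  rw [B_anti]; exact (M.I s).neg_mem (M.B_I s y hy x hx)
theorem del_I (s v) {x : M.G} (hx : x ∈ M.I s) : M.del v x ∈ M.I s := by
  have h1 : M.I s ≤ (M.I s).comap (M.del v) := Submodule.span_le.2 fun z hz => by
    show M.del v z ∈ M.I s
    induction hz with
    | base hi ho => rw [del_X]; exact (M.I s).smul_mem _ (M.nu_off (MonOff.base hi ho))
    | left _ hy ih => rw [del_B]; exact M.nu_B_I ih (M.del_e v (M.nu_mon_e hy))
    | right hy _ ih => rw [del_B]; exact M.B_I s _ (M.del_e v (M.nu_mon_e hy)) _ ih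
  exact h1 hx
theorem norm_ray {i} (hi : M.wt i ≠ 0) : ‖M.ray i‖ = 1 := by
  rw [ray, norm_smul, norm_inv, norm_norm, inv_mul_cancel₀ (norm_ne_zero_iff.2 hi)]
theorem onRay_ray {i} (hi : M.wt i ≠ 0) : M.OnRay (M.ray i) i :=
  ⟨hi, by rw [ray, smul_smul, mul_inv_cancel₀ (norm_ne_zero_iff.2 hi), one_smul]⟩
theorem OnRay.eq_ray {s i} (h : M.OnRay s i) : s = M.ray i := by
  have h1 : ‖M.wt i‖⁻¹ • M.wt i = ‖M.wt i‖⁻¹ • ‖M.wt i‖ • s := congrArg _ h.2
  rw [ray, h1, smul_smul, inv_mul_cancel₀ (norm_ne_zero_iff.2 h.1), one_smul]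

theorem nu_wv {s i} (h : M.OnRay s i) (hs : ‖s‖ = 1) (τ : ℝ) :
    M.wv (τ • s) i = τ * ‖M.wt i‖ := by
  have h1 : ⟪M.wt i, s⟫_ℝ = ⟪‖M.wt i‖ • s, s⟫_ℝ := congrArg (fun u => ⟪u, s⟫_ℝ) h.2
  rw [wv, inner_smul_right, h1, real_inner_smul_left, real_inner_self_eq_norm_sq, hs]; ring

theorem nu_congr {s s'} (h : ∀ i, M.OnRay s i ↔ M.OnRay s' i) :
    {x | M.MonOff s x} = {x | M.MonOff s' x} := by
  have key : ∀ s s', (∀ i, M.OnRay s i ↔ M.OnRay s' i) → ∀ x, M.MonOff s x → M.MonOff s' x := by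
    intro s s' h x hx
    induction hx with
    | base hi ho => exact MonOff.base hi fun h' => ho ((h _).2 h')
    | left _ hy ih => exact MonOff.left ih hy
    | right hy _ ih => exact MonOff.right hy ih
  exact Set.Subset.antisymm (key s s' h) (key s' s fun i => (h i).symm)

theorem nu_unif (p : Set M.G → ℝ → Prop) (hp : ∀ W C C', p W C → C ≤ C' → p W C')
    (h : ∀ T, ∃ C, p T C) : ∃ C : ℝ, 1 ≤ C ∧ ∀ s, p {x | M.MonOff s x} C := by
  have hf : (Set.range fun s => {x | M.MonOff s x}).Finite := by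
    refine (Set.finite_range fun A : Set (Fin M.d) =>
      {x | M.MonOff (Classical.epsilon fun s => {i | M.OnRay s i} = A) x}).subset ?_
    rintro _ ⟨s, rfl⟩
    have h1 := Classical.epsilon_spec (p := fun s' => {i | M.OnRay s' i} = {i | M.OnRay s i}) ⟨s, rfl⟩
    exact ⟨_, M.nu_congr fun i => Set.ext_iff.1 h1 i⟩
  choose f hf' using h
  obtain ⟨C, hC⟩ := (hf.image f).bddAbove
  exact ⟨max 1 C, le_max_left _ _, fun s =>
    hp _ _ _ (hf' _) ((hC ⟨_, ⟨s, rfl⟩, rfl⟩).trans (le_max_right _ _))⟩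

theorem nu_proj {s} {x y : M.G} (hx : x ∈ M.e) (h : x - y ∈ M.I s) :
    (M.e ⊓ (M.I s)ᗮ).starProjection x = (M.e ⊓ (M.I s)ᗮ).starProjection y := by
  have _ := hx
  rw [← sub_eq_zero, ← map_sub, proj_inf_orth (M.I_le_e s) (M.I_le_e s h),
    Submodule.starProjection_eq_self_iff.2 h, sub_self]

theorem nu_sub_proj {s} {x : M.G} (hx : x ∈ M.e) :
    x - (M.e ⊓ (M.I s)ᗮ).starProjection x ∈ M.I s := by
  rw [proj_inf_orth (M.I_le_e s) hx, sub_sub_cancel]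
  exact (M.I s).starProjection_apply_mem x

theorem nu_dec {s} {r r' : Fin M.d → ℝ} (h : ∀ i, M.OnRay s i → r i ≤ r' i) :
    ∀ x ∈ M.K r, ∃ z ∈ M.K r', x - z ∈ M.I s := by
  have hK := M.K_isLB r'
  refine M.gen_min (S := {x | ∃ z ∈ M.K r', x - z ∈ M.I s}) ⟨?_, ?_, 0, hK.sc.zero_mem, by simp⟩ ?_ ?_
  · rintro x ⟨z, hz, hx⟩ x' ⟨z', hz', hx'⟩ a b ha hb hab
    refine ⟨_, hK.sc.convex hz hz' ha hb hab, ?_⟩
    have := (M.I s).add_mem ((M.I s).smul_mem a hx) ((M.I s).smul_mem b hx')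
    convert this using 1
    module
  · rintro x ⟨z, hz, hx⟩
    refine ⟨_, hK.sc.neg_mem z hz, ?_⟩
    convert (M.I s).neg_mem hx using 1
    abel
  · rintro x ⟨z, hz, hx⟩ x' ⟨z', hz', hx'⟩
    refine ⟨_, hK.lie z hz z' hz', ?_⟩
    have h1 : x' ∈ M.e := by
      simpa using M.e.add_mem (M.I_le_e s hx') (M.K_sub_e _ hz')
    convert (M.I s).add_mem (M.nu_B_I hx h1) (M.B_I s z (M.K_sub_e _ hz) _ hx') using 1
    simp
  · rintro _ ⟨i, hi, rfl⟩
    by_cases ho : M.OnRay s i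
    · exact ⟨Real.exp (r i) • M.X i, M.X_mem_K hi (by
        rw [abs_of_pos (Real.exp_pos _)]; exact Real.exp_le_exp.2 (h i ho)), by
        rw [sub_self]; exact (M.I s).zero_mem⟩
    · exact ⟨0, hK.sc.zero_mem, by
        simpa using (M.I s).smul_mem _ (M.nu_off (MonOff.base hi ho))⟩

theorem nu_word {s} : ∀ w : List (Fin M.d), (∀ i ∈ w, M.wt i ≠ 0) → (∃ i ∈ w, ¬ M.OnRay s i) →
    M.mono (w.map M.X) ∈ M.I s
  | [], _, _ => (M.I s).zero_mem
  | [i], h, h' => M.nu_off (MonOff.base (h i (by simp)) (by simpa using h'))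
  | i :: j :: w, h, h' => by
    have h1 : ∀ a ∈ j :: w, M.wt a ≠ 0 := fun a ha => h a (List.mem_cons_of_mem _ ha)
    by_cases ho : M.OnRay s i
    · obtain ⟨a, ha, ha'⟩ := h'
      rcases List.mem_cons.1 ha with rfl | ha
      · exact absurd ho ha'
      · exact M.B_I s _ (M.X_mem_e ho.1) _ (nu_word (j :: w) h1 ⟨a, ha, ha'⟩)
    · exact M.nu_B_I (M.nu_off (MonOff.base (h i (by simp)) ho)) (M.vol_word_mem (j :: w) h1)

theorem nu_det {ι : Type} [Fintype ι] {f : ι → M.G} (hf : LinearIndependent ℝ f)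
    {W : Submodule ℝ M.G} (hW : Submodule.span ℝ (Set.range f) = W) (T : M.G →ₗ[ℝ] M.G)
    (hT : ∀ x ∈ W, T x ∈ W) (t : ι → ℝ) (h : ∀ j, T (f j) = t j • f j) :
    LinearMap.det (T.restrict hT) = ∏ j, t j := by
  subst hW
  refine vol_det (Module.Basis.span hf) _ t fun j => Subtype.ext ?_
  simp [h]

theorem nu_basis (s : M.V) : ∃ (ι : Type) (_ : Fintype ι) (β : ι → List (Fin M.d)),
    (∀ j, β j ≠ [] ∧ ∀ i ∈ β j, M.OnRay s i) ∧ (IsEmpty ι → M.e ≤ M.I s) ∧ ∀ v,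
      (subMu (M.e ⊓ (M.I s)ᗮ)).real ((M.e ⊓ (M.I s)ᗮ).starProjection '' (M.del v '' M.K 0)) =
        Real.exp (∑ j, ((β j).map (M.wv v)).sum) *
          (subMu (M.e ⊓ (M.I s)ᗮ)).real ((M.e ⊓ (M.I s)ᗮ).starProjection '' M.K 0) := by
  set W := M.e ⊓ (M.I s)ᗮ with hW
  let P : M.G →ₗ[ℝ] M.G := W.starProjection
  obtain ⟨b, hbT, hspan, hli⟩ := exists_linearIndependent ℝ
    (P '' {x | ∃ w : List (Fin M.d), (∀ i ∈ w, M.wt i ≠ 0) ∧ x = M.mono (w.map M.X)})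
  have hsp : Submodule.span ℝ (Set.range (fun x : b => (x : M.G))) = W := by
    rw [Subtype.range_coe, hspan, ← Submodule.map_span, vol_span]
    refine le_antisymm ?_ fun x hx => ⟨x, hx.1, Submodule.starProjection_eq_self_iff.2 hx⟩
    rintro _ ⟨x, -, rfl⟩
    exact W.starProjection_apply_mem x
  have h1 : ∀ j : b, ∃ w : List (Fin M.d), (∀ i ∈ w, M.wt i ≠ 0) ∧
      (j : M.G) = P (M.mono (w.map M.X)) := fun j => by
    obtain ⟨_, ⟨w, hw, rfl⟩, h⟩ := hbT j.2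
    exact ⟨w, hw, h.symm⟩
  choose β hβ hβ' using h1
  have hP : ∀ v, ∀ x ∈ M.e, P (M.del v (P x)) = P (M.del v x) := fun v x hx =>
    (M.nu_proj (M.del_e v hx) (by rw [← map_sub]; exact M.del_I s v (M.nu_sub_proj hx))).symm
  let _ : Fintype b := hli.setFinite.fintype
  refine ⟨b, inferInstance, β, fun j => ⟨fun h => hli.ne_zero j ?_, fun i hi => ?_⟩,
    fun h x hx => ?_, fun v => ?_⟩
  · rw [hβ' j, h]; exact map_zero P
  · by_contra ho
    refine hli.ne_zero j ?_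
    rw [hβ' j]
    exact (M.nu_proj (y := 0) (M.vol_word_mem _ (hβ j))
      (by simpa using M.nu_word _ (hβ j) ⟨i, hi, ho⟩)).trans (map_zero _)
  · have hb : W = ⊥ := by rw [← hsp, Set.range_eq_empty, Submodule.span_empty]
    have h2 : W.starProjection x = 0 :=
      (Submodule.eq_bot_iff W).1 hb _ (W.starProjection_apply_mem x)
    have h3 : x - W.starProjection x ∈ M.I s := M.nu_sub_proj hx
    rwa [h2, sub_zero] at h3
  · have hT : ∀ x ∈ W, (P ∘ₗ M.del v) x ∈ W := fun x _ => W.starProjection_apply_mem _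
    have h2 : W.starProjection '' (M.del v '' M.K 0) =
        (P ∘ₗ M.del v) '' (W.starProjection '' M.K 0) := by
      rw [Set.image_image, Set.image_image]
      exact Set.image_congr fun x hx => (hP v x (M.K_sub_e _ hx)).symm
    have h3 := M.nu_det hli hsp _ hT (fun j => Real.exp ((β j).map (M.wv v)).sum) fun j => by
      rw [hβ' j, LinearMap.comp_apply, hP v _ (M.vol_word_mem _ (hβ j)), vol_del_word, map_smul]
    rw [h2, measureReal_def, subMu_image_linear W _ hT _ (by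
      rintro _ ⟨x, -, rfl⟩; exact W.starProjection_apply_mem x), h3, ← Real.exp_sum,
      ENNReal.toReal_mul, abs_of_pos (Real.exp_pos _), ENNReal.toReal_ofReal (Real.exp_pos _).le,
      measureReal_def]

theorem nu_cpt (W : Submodule ℝ M.G) (r) : IsCompact (W.starProjection '' M.K r) :=
  (M.K_isLB r).compact.image W.starProjection.continuous

theorem nu_vol_pos (J : Submodule ℝ M.G) :
    0 < (subMu (M.e ⊓ J)).real ((M.e ⊓ J).starProjection '' M.K 0) := by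
  obtain ⟨C, hC, h⟩ := M.ball_subset_K
  refine ENNReal.toReal_pos (subMu_pos _ (ε := 1 / C) (by positivity) fun x hx hn => ?_)
    (M.nu_cpt _ 0).measure_lt_top.ne
  rw [le_div_iff₀ (by positivity)] at hn
  refine ⟨x, ?_, Submodule.starProjection_eq_self_iff.2 hx⟩
  simpa using (M.K_isLB 0).sc.smul_mono (t := 1)
    (by rw [abs_of_nonneg (by positivity)]; linarith) (h x hx.1)

theorem nu_form (s : M.V) : ∃ (ι : Type) (_ : Fintype ι) (β : ι → List (Fin M.d)),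
    (∀ j, β j ≠ [] ∧ ∀ i ∈ β j, M.OnRay s i) ∧ (IsEmpty ι → M.e ≤ M.I s) ∧
      M.nu s = ∑ j, ((β j).map (M.wv s)).sum ∧ ∀ τ : ℝ,
      (subMu (M.e ⊓ (M.I s)ᗮ)).real ((M.e ⊓ (M.I s)ᗮ).starProjection '' M.K (M.wv (τ • s))) =
        Real.exp (M.nu s * τ) *
          (subMu (M.e ⊓ (M.I s)ᗮ)).real ((M.e ⊓ (M.I s)ᗮ).starProjection '' M.K 0) := by
  obtain ⟨ι, _, β, h1, h2, h3⟩ := M.nu_basis s
  have h4 : M.nu s = ∑ j, ((β j).map (M.wv s)).sum := by
    rw [nu, h3, Real.log_mul (Real.exp_pos _).ne' (M.nu_vol_pos _).ne', Real.log_exp]; ring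
  refine ⟨ι, _, β, h1, h2, h4, fun τ => ?_⟩
  have h5 := h3 (τ • s)
  rw [del_K, zero_add] at h5
  have h6 : M.wv (τ • s) = fun i => τ * M.wv s i := funext fun i => by
    simp [wv, inner_smul_right]
  rw [h5, h4, h6, Finset.sum_mul]
  simp only [List.sum_map_mul_left, mul_comm]

theorem nu_term {s} (hs : ‖s‖ = 1) {w : List (Fin M.d)} (h : w ≠ [] ∧ ∀ i ∈ w, M.OnRay s i) :
    0 < (w.map (M.wv s)).sum := by
  refine List.sum_pos _ (fun x hx => ?_) (by simpa using h.1)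
  obtain ⟨i, hi, rfl⟩ := List.mem_map.1 hx
  have h1 := M.nu_wv (h.2 i hi) hs 1
  rw [one_smul, one_mul] at h1
  rw [h1]
  exact norm_pos_iff.2 (h.2 i hi).1

theorem nu_nonneg {s} (hs : ‖s‖ = 1) : 0 ≤ M.nu s := by
  obtain ⟨ι, _, β, h1, -, h3, -⟩ := M.nu_form s
  rw [h3]
  exact Finset.sum_nonneg fun j _ => (M.nu_term hs (h1 j)).le
theorem nu_pos {μ p i} (hp : M.GenF μ p) (hi : M.wt i = μ) : 0 < M.nu (M.ray i) := by
  obtain ⟨ι, _, β, h1, h2, h3, -⟩ := M.nu_form (M.ray i)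
  have hi0 : M.wt i ≠ 0 := hi ▸ hp.1
  rw [h3]
  rcases isEmpty_or_nonempty ι with h | h
  · exfalso
    have h4 : M.I (M.ray i) ≤ LinearMap.ker p := Submodule.span_le.2 fun x hx => by
      show p x = 0
      cases hx with
      | @base j _ ho =>
        refine hp.2.2.1 j fun hj => ho ?_
        have h5 := M.onRay_ray hi0
        unfold OnRay at h5 ⊢
        rwa [hj, ← hi]
      | left => exact hp.2.1 _ _
      | right => exact hp.2.1 _ _
    obtain ⟨j, hj, hj'⟩ := hp.exists_X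
    exact hj' (h4 (h2 h (M.X_mem_e (hj ▸ hp.1))))
  · exact Finset.sum_pos (fun j _ => M.nu_term (M.norm_ray hi0) (h1 j)) Finset.univ_nonempty
theorem nu_eq_zero {s} (h : ∀ i, ¬ M.OnRay s i) : M.nu s = 0 := by
  obtain ⟨ι, _, β, h1, -, h3, -⟩ := M.nu_form s
  rw [h3]
  refine Finset.sum_eq_zero fun j _ => ?_
  obtain ⟨i, hi⟩ := List.exists_mem_of_ne_nil _ (h1 j).1
  exact absurd ((h1 j).2 i hi) (h i)
theorem nu_perm (w : M.V ≃ₗᵢ[ℝ] M.V)
    (h : ∀ i, M.wt i ≠ 0 → M.nu (M.ray i) ≤ M.nu (w (M.ray i))) :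
    ∀ i, M.wt i ≠ 0 → M.nu (w (M.ray i)) = M.nu (M.ray i) := by
  classical
  set F := (Finset.univ.filter fun i => M.wt i ≠ 0).image M.ray with hF
  have hm : ∀ s, s ∈ F ↔ ∃ i, M.wt i ≠ 0 ∧ M.ray i = s := fun s => by simp [hF]
  have h1 : ∑ s ∈ F, M.nu (w s) ≤ ∑ s ∈ F, M.nu s := by
    rw [← Finset.sum_image (f := M.nu) (g := w) fun _ _ _ _ h => w.injective h,
      ← Finset.sum_subset (Finset.inter_subset_left (s₂ := F)) fun t ht ht' =>
        M.nu_eq_zero fun i hi => ht' (Finset.mem_inter.2 ⟨ht, (hm t).2 ⟨i, hi.1, hi.eq_ray.symm⟩⟩)]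
    refine Finset.sum_le_sum_of_subset_of_nonneg Finset.inter_subset_right fun t ht _ => ?_
    obtain ⟨i, hi, rfl⟩ := (hm t).1 ht
    exact M.nu_nonneg (M.norm_ray hi)
  have h2 : ∀ s ∈ F, M.nu s ≤ M.nu (w s) := fun s hs => by
    obtain ⟨i, hi, rfl⟩ := (hm s).1 hs
    exact h i hi
  have h3 := (Finset.sum_eq_sum_iff_of_le h2).1 (le_antisymm (Finset.sum_le_sum h2) h1)
  exact fun i hi => (h3 _ ((hm _).2 ⟨i, hi, rfl⟩)).symm

theorem nu_cmp {s} {r r' : Fin M.d → ℝ} {t : ℝ} (ht : 0 ≤ t)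
    (h : ∀ i, M.OnRay s i → r i ≤ r' i + t) :
    (subMu (M.e ⊓ (M.I s)ᗮ)).real ((M.e ⊓ (M.I s)ᗮ).starProjection '' M.K r) ≤
      Real.exp (M.c * M.d * t) *
        (subMu (M.e ⊓ (M.I s)ᗮ)).real ((M.e ⊓ (M.I s)ᗮ).starProjection '' M.K r') := by
  have h1 : (M.e ⊓ (M.I s)ᗮ).starProjection '' M.K r ⊆
      Real.exp (M.c * t) • ((M.e ⊓ (M.I s)ᗮ).starProjection '' M.K r') := by
    rintro _ ⟨x, hx, rfl⟩
    obtain ⟨z, hz, hxz⟩ := M.nu_dec (r' := fun i => r' i + t) h x hx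
    obtain ⟨y, hy, rfl⟩ := M.K_subset_smul ht (fun _ _ => le_rfl) hz
    exact ⟨_, ⟨y, hy, rfl⟩, by rw [M.nu_proj (M.K_sub_e _ hx) hxz]; simp⟩
  refine (measureReal_mono h1 ((M.nu_cpt _ r').smul _).measure_lt_top.ne).trans ?_
  rw [subMu_real_smul _ _ (Real.exp_pos _), ← Real.exp_nat_mul]
  refine mul_le_mul_of_nonneg_right (Real.exp_le_exp.2 ?_) measureReal_nonneg
  have h2 : (Module.finrank ℝ (M.e ⊓ (M.I s)ᗮ : Submodule ℝ M.G) : ℝ) ≤ M.d := by
    exact_mod_cast (Submodule.finrank_mono inf_le_left).trans M.vol_finrank_le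
  have h3 : 0 ≤ M.c * t := by positivity
  nlinarith

theorem vol_proj_K : ∃ C : ℝ, 1 ≤ C ∧ ∀ (s : M.V) (r : Fin M.d → ℝ) (τ t : ℝ), ‖s‖ = 1 → 0 ≤ t →
    ((∀ i, M.OnRay s i → r i ≤ τ * ‖M.wt i‖ + t) →
      (subMu (M.e ⊓ (M.I s)ᗮ)).real ((M.e ⊓ (M.I s)ᗮ).starProjection '' M.K r) ≤
        C * Real.exp (M.nu s * τ + C * t)) ∧
    ((∀ i, M.OnRay s i → τ * ‖M.wt i‖ - t ≤ r i) → Real.exp (M.nu s * τ - C * t) ≤
      C * (subMu (M.e ⊓ (M.I s)ᗮ)).real ((M.e ⊓ (M.I s)ᗮ).starProjection '' M.K r)) := by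
  let g : Submodule ℝ M.G → ℝ := fun J =>
    (subMu (M.e ⊓ Jᗮ)).real ((M.e ⊓ Jᗮ).starProjection '' M.K 0)
  obtain ⟨C, hC, H⟩ := M.nu_unif (fun T C => g (Submodule.span ℝ T) ≤ C ∧
      (g (Submodule.span ℝ T))⁻¹ ≤ C ∧ (M.c * M.d : ℝ) ≤ C)
    (fun _ _ _ h h' => ⟨h.1.trans h', h.2.1.trans h', h.2.2.trans h'⟩)
    fun s => ⟨_, le_max_left _ _, (le_max_left _ _).trans (le_max_right _ _),
      (le_max_right _ _).trans (le_max_right _ _)⟩
  refine ⟨C, hC, fun s r τ t hs ht => ?_⟩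
  obtain ⟨a1, a2, a3⟩ : (subMu (M.e ⊓ (M.I s)ᗮ)).real
      ((M.e ⊓ (M.I s)ᗮ).starProjection '' M.K 0) ≤ C ∧ ((subMu (M.e ⊓ (M.I s)ᗮ)).real
      ((M.e ⊓ (M.I s)ᗮ).starProjection '' M.K 0))⁻¹ ≤ C ∧ (M.c * M.d : ℝ) ≤ C := H s
  obtain ⟨-, -, -, -, -, -, h⟩ := M.nu_form s
  have h0 := M.nu_vol_pos (M.I s)ᗮ
  have he : Real.exp (M.c * M.d * t) ≤ Real.exp (C * t) :=
    Real.exp_le_exp.2 (mul_le_mul_of_nonneg_right a3 ht)
  have hp := Real.exp_pos (M.nu s * τ)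
  refine ⟨fun hr => ?_, fun hr => ?_⟩
  · refine (M.nu_cmp (r' := M.wv (τ • s)) ht fun i hi => by
      rw [M.nu_wv hi hs]; exact hr i hi).trans ?_
    rw [h, Real.exp_add]
    calc _ ≤ Real.exp (C * t) * (Real.exp (M.nu s * τ) * C) := by gcongr
      _ = _ := by ring
  · have h1 := M.nu_cmp (r := M.wv (τ • s)) (r' := r) ht fun i hi => by
      rw [M.nu_wv hi hs]; linarith [hr i hi]
    rw [h] at h1
    have h2 := h1.trans (mul_le_mul_of_nonneg_right he measureReal_nonneg)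
    rw [Real.exp_sub, div_le_iff₀ (Real.exp_pos _)]
    rw [inv_le_iff_one_le_mul₀ h0] at a2
    nlinarith [mul_le_mul_of_nonneg_left h2 (by linarith : 0 ≤ C)]
/-- Splitting an element of a body into a part in `I s` and an on-ray part. -/
theorem split_K (C₀ : ℝ) (h : 0 ≤ C₀) : ∃ C : ℝ, 1 ≤ C ∧ ∀ (s : M.V) (r : Fin M.d → ℝ) (ρ : ℝ),
    (∀ i, M.OnRay s i → r i ≤ ρ) → ∀ x ∈ C₀ • M.K r,
      ∃ y ∈ C • M.K r, ∃ z ∈ C • M.K (fun _ => ρ), y ∈ M.I s ∧ x = y * z := by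
  obtain ⟨C1, h1, H1⟩ := M.mul_mem C₀ h
  obtain ⟨C2, -, H2⟩ := M.inv_mul_mem C₀ h
  refine ⟨C1 + C₀, by linarith, fun s r ρ hr => ?_⟩
  rintro _ ⟨x, hx, rfl⟩
  obtain ⟨z, hz, hxz⟩ := M.nu_dec (s := s) (r' := fun i => min (r i) ρ)
    (fun i hi => le_min le_rfl (hr i hi)) x hx
  have hz1 : C₀ • z ∈ C₀ • M.K r := ⟨z, M.K_mono (fun _ _ => min_le_left _ _) hz, rfl⟩
  have hz2 : C₀ • z ∈ C₀ • M.K (fun _ => ρ) := ⟨z, M.K_mono (fun _ _ => min_le_right _ _) hz, rfl⟩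
  have hx1 : C₀ • x ∈ C₀ • M.K r := ⟨x, hx, rfl⟩
  obtain ⟨y, hy, he⟩ := (H2 _ (M.I s) (M.K_isLB r) (M.K_tame r) (SC.submodule _)
    (fun a ha b hb => M.B_I s a (M.K_sub_e _ ha) b hb) _ hz1 _ hx1
    (by rw [← smul_sub]; exact (M.I s).smul_mem _ hxz)).2
  refine ⟨C₀ • x * (C₀ • z)⁻¹, (M.K_isLB r).sc.smul_mono (by rw [abs_of_nonneg (by linarith)]; linarith)
    (H1 _ (M.K_isLB r) (M.K_tame r) _ hx1 _ (M.inv_mem (M.K_isLB r).sc (M.K_tame r) hz1)),
    C₀ • z, (M.K_isLB _).sc.smul_mono (by rw [abs_of_nonneg h]; linarith) hz2, ?_, by simp⟩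
  rw [← he]
  exact (M.I s).smul_mem _ hy

theorem nu_absorb (T : Set M.G) : ∃ C : ℝ, 0 ≤ C ∧ ∀ S, SC S → T ⊆ S →
    ∀ x ∈ Submodule.span ℝ T, x ∈ (C * ‖x‖) • S := by
  obtain ⟨b, hbT, hspan, hli⟩ := exists_linearIndependent ℝ T
  let _ : Fintype b := hli.setFinite.fintype
  let W := Submodule.span ℝ (Set.range (fun x : b => (x : M.G)))
  let bs : Module.Basis b ℝ W := Module.Basis.span hli
  have hW : W = Submodule.span ℝ T := by
    rw [← hspan]; simp [W]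
  have hb : ∀ j : b, ∃ Cj : ℝ, 0 ≤ Cj ∧ ∀ w : W, |bs.repr w j| ≤ Cj * ‖(w : M.G)‖ := by
    intro j
    let f : W →L[ℝ] ℝ := LinearMap.toContinuousLinearMap (bs.coord j)
    exact ⟨‖f‖, f.opNorm_nonneg, fun w => by simpa [f] using f.le_opNorm w⟩
  choose Cj hCj0 hCj using hb
  refine ⟨∑ j, Cj j, Finset.sum_nonneg fun j _ => hCj0 j, fun S hS hT x hx => ?_⟩
  rw [← hW] at hx
  have hrepr : x = ∑ j, bs.repr ⟨x, hx⟩ j • (j : M.G) := by
    have := congrArg (fun w : W => (w : M.G)) (bs.sum_repr ⟨x, hx⟩)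
    simp only [Submodule.coe_sum, Submodule.coe_smul] at this
    refine this.symm.trans (Finset.sum_congr rfl fun j _ => ?_)
    rw [show ((bs j : W) : M.G) = j from Module.Basis.coe_span_apply hli j]
  have h1 : ∑ j, bs.repr ⟨x, hx⟩ j • (j : M.G) ∈ (∑ j, Cj j * ‖x‖) • S := by
    refine hS.sum_mem Finset.univ _ _ (fun j _ => mul_nonneg (hCj0 j) (norm_nonneg _))
      fun j _ => ?_
    refine hS.smul_mem_smul (s := 1) zero_le_one (by simpa using hT (hbT j.2)) ?_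
    simpa using hCj j ⟨x, hx⟩
  rwa [← hrepr, ← Finset.sum_mul] at h1

theorem nu_lb {r : Fin M.d → ℝ} {ρ : ℝ} (h : ∀ i, M.wt i ≠ 0 → -ρ ≤ r i) {n : ℕ} {x : M.G}
    (hx : M.LbMon {z | ∃ i, M.wt i ≠ 0 ∧ z = M.X i} n x) : Real.exp (-(n * ρ)) • x ∈ M.K r := by
  induction hx with
  | base hx =>
    obtain ⟨i, hi, rfl⟩ := hx
    exact M.X_mem_K hi (by
      rw [abs_of_pos (Real.exp_pos _)]; exact Real.exp_le_exp.2 (by simpa using h i hi))
  | neg _ ih => rw [smul_neg]; exact (M.K_isLB r).sc.neg_mem _ ih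
  | lie _ _ h1 h2 =>
    have := (M.K_isLB r).lie _ h1 _ h2
    simp only [map_smul, LinearMap.smul_apply, smul_smul, ← Real.exp_add] at this
    convert this using 3
    push_cast; ring

theorem nu_off_lb {s} {r : Fin M.d → ℝ} {ρ u : ℝ} (h : ∀ i, M.wt i ≠ 0 → -ρ ≤ r i)
    (h' : ∀ i, M.wt i ≠ 0 → ¬ M.OnRay s i → u ≤ r i) {x : M.G} (hx : M.MonOff s x) :
    ∃ n, M.LbMon {z | ∃ i, M.wt i ≠ 0 ∧ z = M.X i} n x ∧
      Real.exp (u + ρ - n * ρ) • x ∈ M.K r := by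
  induction hx with
  | @base i hi ho =>
    exact ⟨1, LbMon.base ⟨i, hi, rfl⟩, M.X_mem_K hi (by
      rw [abs_of_pos (Real.exp_pos _)]; exact Real.exp_le_exp.2 (by simpa using h' i hi ho))⟩
  | left _ hy ih =>
    obtain ⟨n, h1, h2⟩ := ih
    obtain ⟨m, h3⟩ := M.lb_deg hy
    have := (M.K_isLB r).lie _ h2 _ (M.nu_lb h h3)
    simp only [map_smul, LinearMap.smul_apply, smul_smul, ← Real.exp_add] at this
    refine ⟨_, h1.lie h3, ?_⟩
    convert this using 3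
    push_cast; ring
  | right hy _ ih =>
    obtain ⟨n, h1, h2⟩ := ih
    obtain ⟨m, h3⟩ := M.lb_deg hy
    have := (M.K_isLB r).lie _ (M.nu_lb h h3) _ h2
    simp only [map_smul, LinearMap.smul_apply, smul_smul, ← Real.exp_add] at this
    refine ⟨_, h3.lie h1, ?_⟩
    convert this using 3
    push_cast; ring

/-- Small elements of `I s` lie in bodies that are deep off the ray. -/
theorem small_I (C₀ : ℝ) (h : 0 ≤ C₀) : ∃ C : ℝ, 1 ≤ C ∧ ∀ (s : M.V) (r : Fin M.d → ℝ) (ρ : ℝ),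
    0 ≤ ρ → (∀ i, M.wt i ≠ 0 → -ρ ≤ r i) →
    (∀ i, M.wt i ≠ 0 → ¬ M.OnRay s i → 2 * M.c * ρ ≤ r i) →
      ∀ x ∈ C₀ • M.K (fun _ => ρ), x ∈ M.I s → x ∈ C • M.K r := by
  obtain ⟨C1, h1, H1⟩ := M.K_norm
  obtain ⟨C2, h2, H2⟩ := M.nu_unif (fun T C => ∀ S, SC S → T ⊆ S →
      ∀ x ∈ Submodule.span ℝ T, x ∈ (|C| * ‖x‖) • S ∧ 0 ≤ C)
    (fun _ _ _ hp hC S hS hT x hx => by
      obtain ⟨a1, a2⟩ := hp S hS hT x hx
      refine ⟨hS.smul_mono ?_ a1, a2.trans hC⟩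
      rw [abs_mul, abs_abs, abs_norm, abs_of_nonneg a2, abs_of_nonneg (a2.trans hC)]
      exact mul_le_mul_of_nonneg_right hC (norm_nonneg _))
    fun T => by
      obtain ⟨C, hC, H⟩ := M.nu_absorb T
      exact ⟨C, fun S hS hT x hx => ⟨by rw [abs_of_nonneg hC]; exact H S hS hT x hx, hC⟩⟩
  refine ⟨1 + C2 * (C₀ * C1), by nlinarith [mul_nonneg h (zero_le_one.trans h1)], ?_⟩
  rintro s r ρ hρ hr hr' _ ⟨x, hx, rfl⟩ hI
  have hK := (M.K_isLB r).sc
  have hE := Real.exp_pos (M.c * ρ)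
  have h3 := (H2 s _ (hK.smul (Real.exp (M.c * ρ))⁻¹) (fun y hy => ?_) _ hI).1
  · rw [smul_smul, abs_of_nonneg (zero_le_one.trans h2)] at h3
    refine hK.smul_mono ?_ h3
    have h4 := H1 _ ρ hρ (fun _ _ => le_rfl) x hx
    rw [abs_of_nonneg (by positivity), ← div_eq_mul_inv, div_le_iff₀ hE, norm_smul,
      Real.norm_of_nonneg h]
    nlinarith [mul_le_mul_of_nonneg_left h4 (mul_nonneg (zero_le_one.trans h2) h)]
  · obtain ⟨n, h4, h5⟩ := M.nu_off_lb hr hr' hy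
    rw [Set.mem_inv_smul_set_iff₀ hE.ne']
    by_cases hn : M.c < n
    · rw [M.lb_deg_zero h4 hn, smul_zero]; exact hK.zero_mem
    · have h6 : (n : ℝ) ≤ M.c := by exact_mod_cast not_lt.1 hn
      have h7 := hK.smul_mem h5 (t := Real.exp (M.c * ρ - (2 * M.c * ρ + ρ - n * ρ))) (by
        rw [abs_of_pos (Real.exp_pos _), Real.exp_le_one_iff]
        nlinarith [mul_le_mul_of_nonneg_right h6 hρ])
      rwa [smul_smul, ← Real.exp_add, sub_add_cancel] at h7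

end Vale.Agent.P188.Geo
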