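import Vale.Agent.P188.LB

/-! Bounded generation of Lie bodies by one-parameter segments.
Plan: let `gen_j` be the convex hull of `0` and the `±` right-nested monomials of length `≥ j`
(ideal of `gen L` up to a constant; `gen_(c+1) = {0}`).  Induct on `j`: every `x ∈ C • gen L` is
`p * x'` with `p` a bounded product and `x' ∈ C' • gen_j`.  Step: write
`x' = Σ_w t_w mono w + y` over the finitely many words `w` of length `j` (`|t_w| ≤ C'`,
`y ∈ C' • gen_(j+1)`); the iterated group commutator `[t y₁, [y₂, ... y_j]]` equals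
`t • mono w + gen_(j+1)`-term (use `conj_eq`: `x y x⁻¹ = Ad x y = y + B x y + ...`, then
`mul_sub_sub_mem` / `inv_mul_mem`); multiply these and compare with `inv_mul_mem`. -/

namespace Vale.Agent.P188.Geo
open scoped InnerProductSpace Pointwise
variable (M : Geo)

/-- Tree monomials with a given number of leaves. -/
inductive BBMon (L : Set M.G) : ℕ → M.G → Prop
  | base {x} : x ∈ L → BBMon L 1 x
  | neg {n x} : BBMon L n x → BBMon L n (-x)
  | lie {i k x y} : BBMon L i x → BBMon L k y → BBMon L (i + k) (M.B x y)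

/-- The generators of level `j`. -/
def bbU (L : Set M.G) (j : ℕ) : Set M.G := insert 0 {x | ∃ n, j ≤ n ∧ M.BBMon L n x}

/-- The filtration of `gen L`. -/
def bbS (L : Set M.G) (j : ℕ) : Set M.G := convexHull ℝ (M.bbU L j)

/-- Bounded products of segments. -/
def BBP (L : Set M.G) (N : ℕ) (T : ℝ) (g : M.G) : Prop :=
  ∃ l : List (ℝ × M.G), l.length ≤ N ∧ (∀ p ∈ l, |p.1| ≤ T ∧ p.2 ∈ L) ∧
    g = (l.map fun p => p.1 • p.2).prod

variable {M} {L : Set M.G}

theorem BBMon.pos {n x} (h : M.BBMon L n x) : 1 ≤ n := by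
  induction h <;> omega

theorem BBMon.mon {n x} (h : M.BBMon L n x) : M.Mon L x := by
  induction h with
  | base h => exact .base h
  | neg _ ih => exact ih.neg
  | lie _ _ ih ih' => exact ih.lie ih'

theorem bb_of_mon {x} (h : M.Mon L x) : ∃ n, M.BBMon L n x := by
  induction h with
  | base h => exact ⟨1, .base h⟩
  | neg _ ih => exact ih.imp fun _ h => h.neg
  | lie _ _ ih ih' =>
    obtain ⟨i, hi⟩ := ih
    obtain ⟨k, hk⟩ := ih'
    exact ⟨_, hi.lie hk⟩

theorem BBMon.mem {n x} (h : M.BBMon L n x) : x ∈ M.bbS L n :=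
  subset_convexHull ℝ _ (Or.inr ⟨n, le_rfl, h⟩)

theorem bb_depth {i u} (h : M.BBMon L i u) : ∀ k v,
    (∀ l : List M.G, M.c + 1 ≤ l.length + k → l.foldr (fun x z => M.B x z) v = 0) →
    ∀ l : List M.G, M.c + 1 ≤ l.length + (i + k) → l.foldr (fun x z => M.B x z) (M.B u v) = 0 := by
  have lin : ∀ l : List M.G, ∃ φ : M.G →ₗ[ℝ] M.G, ∀ v, l.foldr (fun x z => M.B x z) v = φ v := by
    intro l
    induction l with
    | nil => exact ⟨LinearMap.id, fun _ => rfl⟩
    | cons a l ih =>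
      obtain ⟨φ, hφ⟩ := ih
      exact ⟨M.B a ∘ₗ φ, fun v => by simp [hφ]⟩
  induction h with
  | @base x _ =>
    intro k v hv l hl
    have := hv (l ++ [x]) (by simp; omega)
    rwa [List.foldr_append] at this
  | neg _ ih =>
    intro k v hv l hl
    obtain ⟨φ, hφ⟩ := lin l
    have := ih k v hv l hl
    rw [hφ] at this ⊢
    simp [this]
  | @lie i i' x y _ _ ih ih' =>
    intro k v hv l hl
    obtain ⟨φ, hφ⟩ := lin l
    have h1 := ih _ _ (ih' k v hv) l (by omega)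
    have h2 := ih' _ _ (ih k v hv) l (by omega)
    rw [hφ] at h1 h2 ⊢
    rw [M.B_jacobi, map_add, h2, add_zero] at h1
    exact h1

theorem bb_depth' {i u} (h : M.BBMon L i u) :
    ∀ l : List M.G, M.c + 1 ≤ l.length + i → l.foldr (fun x z => M.B x z) u = 0 := by
  induction h with
  | base _ => exact fun l hl => M.nil l (Nat.le_of_succ_le_succ hl) _
  | @neg n x _ ih =>
    intro l hl
    have : ∀ l : List M.G, l.foldr (fun x z => M.B x z) (-x) =
        -l.foldr (fun x z => M.B x z) x := by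
      intro l
      induction l with
      | nil => rfl
      | cons a l ih => simp [ih]
    rw [this, ih l hl, neg_zero]
  | lie h _ _ ih' => exact bb_depth h _ _ ih'

theorem bbS_top {x} (h : x ∈ M.bbS L (M.c + 1)) : x = 0 := by
  refine convexHull_min (t := {0}) ?_ (convex_singleton _) h
  rintro y (rfl | ⟨n, hn, hy⟩)
  · rfl
  · exact bb_depth' hy [] (by simpa using hn)

theorem bbS_sc (L : Set M.G) (j : ℕ) : SC (M.bbS L j) := by
  refine ⟨convex_convexHull _ _, fun x hx => ?_, subset_convexHull ℝ _ (Or.inl rfl)⟩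
  refine convexHull_min (t := (-LinearMap.id : M.G →ₗ[ℝ] M.G) ⁻¹' M.bbS L j) ?_
    ((convex_convexHull _ _).linear_preimage _) hx
  rintro y (rfl | ⟨n, hn, hy⟩)
  · exact subset_convexHull ℝ _ (Or.inl (map_zero _))
  · exact subset_convexHull ℝ _ (Or.inr ⟨n, hn, hy.neg⟩)

theorem bbS_lie {i k : ℕ} : ∀ x ∈ M.bbS L i, ∀ y ∈ M.bbS L k, M.B x y ∈ M.bbS L (i + k) := by
  intro x hx y hy
  have h0 := (bbS_sc L (i + k)).zero_mem
  refine convexHull_min (t := M.B.flip y ⁻¹' M.bbS L (i + k)) ?_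
    ((convex_convexHull _ _).linear_preimage _) hx
  rintro x (rfl | ⟨n, hn, hx⟩)
  · simpa using h0
  refine convexHull_min (t := M.B x ⁻¹' M.bbS L (i + k)) ?_
    ((convex_convexHull _ _).linear_preimage _) hy
  rintro y (rfl | ⟨m, hm, hy⟩)
  · simpa using h0
  · exact subset_convexHull ℝ _ (Or.inr ⟨n + m, by omega, hx.lie hy⟩)

theorem bbS_anti {i k : ℕ} (h : i ≤ k) : M.bbS L k ⊆ M.bbS L i :=
  convexHull_mono (Set.insert_subset_insert fun _ ⟨n, hn, hx⟩ => ⟨n, h.trans hn, hx⟩)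

theorem bbS_one : M.bbS L 1 = M.gen L := by
  unfold bbS bbU gen
  congr 2
  ext x
  exact ⟨fun ⟨_, _, h⟩ => h.mon, fun h => (bb_of_mon h).imp fun _ h => ⟨h.pos, h⟩⟩

theorem bb_up {i k : ℕ} {s t : ℝ} {x : M.G} (hx : x ∈ s • M.bbS L k) (h : i ≤ k) (h0 : 0 ≤ s)
    (hst : s ≤ t) : x ∈ t • M.bbS L i :=
  (bbS_sc L i).smul_mono (by rwa [abs_of_nonneg h0]) (Set.smul_set_mono (bbS_anti h) hx)

theorem bb_br {i k : ℕ} {s t : ℝ} {x y : M.G} (hx : x ∈ s • M.bbS L i) (hy : y ∈ t • M.bbS L k) :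
    M.B x y ∈ (s * t) • M.bbS L (i + k) := SC.map_mem₂ M.B bbS_lie hx hy

theorem bb_ideal {k : ℕ} {t : ℝ} : ∀ x ∈ M.bbS L 1, ∀ y ∈ t • M.bbS L k,
    M.B x y ∈ t • M.bbS L (k + 1) := by
  intro x hx y hy
  have := bb_br (s := 1) (by rwa [one_smul]) hy
  rwa [one_mul, add_comm] at this

theorem bb_ideal' {k : ℕ} {t : ℝ} : ∀ x ∈ M.bbS L 1, ∀ y ∈ t • M.bbS L k,
    M.B x y ∈ t • M.bbS L k := fun x hx y hy =>
  Set.smul_set_mono (bbS_anti (Nat.le_succ k)) (bb_ideal x hx y hy)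

theorem bb_smul {k : ℕ} {t T : ℝ} {u : M.G} (hu : u ∈ M.bbS L k) (ht : |t| ≤ T) :
    t • u ∈ T • M.bbS L k := (bbS_sc L k).smul_mono ht (Set.smul_mem_smul_set hu)

theorem bb_zero (k : ℕ) (t : ℝ) : (0 : M.G) ∈ t • M.bbS L k := ((bbS_sc L k).smul t).zero_mem

theorem bb_W (h : M.Tame L) : ∃ W : Submodule ℝ M.G, M.bbS L 1 ⊆ W ∧
    (∀ x ∈ W, ∀ y ∈ W, M.B x y ∈ W) ∧ M.Tame W := by
  rw [bbS_one]
  rcases h with h | h
  · have hW : ∀ x ∈ LinearMap.ker M.A, ∀ y ∈ LinearMap.ker M.A, M.B x y ∈ LinearMap.ker M.A :=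
      fun x _ y _ => M.A_B x y
    exact ⟨_, M.gen_min (SC.submodule _) hW h, hW, Or.inl fun _ hx => hx⟩
  · have hW : ∀ x ∈ M.u0, ∀ y ∈ M.u0, M.B x y ∈ M.u0 := fun x hx y hy => M.B_u0 hx hy
    exact ⟨_, M.gen_min (SC.submodule _) hW h, hW, Or.inr fun _ hx => hx⟩

theorem bb_memW {W : Submodule ℝ M.G} (hW : M.bbS L 1 ⊆ W) {k : ℕ} (hk : 1 ≤ k) {t : ℝ} {x : M.G}
    (hx : x ∈ t • M.bbS L k) : x ∈ W := by
  obtain ⟨y, hy, rfl⟩ := hx
  exact W.smul_mem t (hW (bbS_anti hk hy))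

theorem BBP.mono {N N' T T' g} (h : M.BBP L N T g) (hN : N ≤ N') (hT : T ≤ T') :
    M.BBP L N' T' g := by
  obtain ⟨l, h1, h2, h3⟩ := h
  exact ⟨l, h1.trans hN, fun p hp => ⟨(h2 p hp).1.trans hT, (h2 p hp).2⟩, h3⟩

theorem BBP.one (N : ℕ) (T : ℝ) : M.BBP L N T 0 := ⟨[], Nat.zero_le _, by simp, rfl⟩

theorem BBP.mul {N N' T g h} (hg : M.BBP L N T g) (hh : M.BBP L N' T h) :
    M.BBP L (N + N') T (g * h) := by
  obtain ⟨l, h1, h2, rfl⟩ := hg
  obtain ⟨l', h1', h2', rfl⟩ := hh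
  exact ⟨l ++ l', by simp; omega, fun p hp => (List.mem_append.1 hp).elim (h2 p) (h2' p), by simp⟩

theorem BBP.inv (hL : M.Tame L) {N T g} (hg : M.BBP L N T g) : M.BBP L N T g⁻¹ := by
  obtain ⟨l, h1, h2, rfl⟩ := hg
  refine ⟨(l.map fun p => (-p.1, p.2)).reverse, by simpa using h1, fun p hp => ?_, ?_⟩
  · obtain ⟨q, hq, rfl⟩ := List.mem_map.1 (List.mem_reverse.1 hp)
    simpa using h2 q hq
  · rw [List.prod_inv_reverse, List.map_reverse, List.map_map, List.map_map]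
    congr 2
    refine List.map_congr_left fun p hp => ?_
    have hp2 := (h2 p hp).2
    change (p.1 • p.2)⁻¹ = (-p.1) • p.2
    rw [neg_smul]
    refine M.inv_eq_neg (hL.imp (fun h => ?_) fun h => M.u0.smul_mem _ (h _ hp2))
    rw [map_smul, h _ hp2, smul_zero]

variable (M)

theorem bb_conj (g h : M.G) : M.st (M.st g h) (-g) = h + (M.B g h +
    ∑ j ∈ Finset.range M.c, (((j + 2).factorial : ℝ)⁻¹) • ((M.B g) ^ (j + 2)) h) := by
  have h1 : M.st (M.st g h) (-g) =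
      ∑ j ∈ Finset.range M.c, ((j.factorial : ℝ)⁻¹) • ((M.B g) ^ j) h := M.conj g h
  have h2 : ∀ j, ((M.B g) ^ j) h = (List.replicate j g).foldr (fun x z => M.B x z) h := by
    intro j
    induction j with
    | zero => rfl
    | succ j ih => rw [pow_succ', Module.End.mul_apply, ih, List.replicate_succ, List.foldr_cons]
  rw [h1, Finset.sum_subset (Finset.range_subset_range.2 (Nat.le_add_right M.c 2)),
    Finset.sum_range_succ', Finset.sum_range_succ']
  · simp only [Nat.factorial_zero, zero_add, Nat.factorial_one, Nat.cast_one, inv_one, one_smul,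
      pow_one, pow_zero, Module.End.one_apply, add_assoc]
    abel
  · intro j _ hj
    have h4 : M.c ≤ (List.replicate j g).length := by simpa using hj
    have h3 : (List.replicate j g).foldr (fun x z => M.B x z) h = 0 := M.nil _ h4 h
    rw [h2, h3, smul_zero]

theorem bb_comm (C : ℝ) (hC : 0 ≤ C) : ∃ C' : ℝ, 0 ≤ C' ∧ ∀ L : Set M.G, M.Tame L →
    ∀ i k, 1 ≤ i → 1 ≤ k → ∀ g ∈ C • M.bbS L i, ∀ h ∈ C • M.bbS L k,
      g * h * g⁻¹ * h⁻¹ - M.B g h ∈ C' • M.bbS L (i + k + 1) := by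
  set D : ℝ := ∑ j ∈ Finset.range M.c, C ^ (j + 3) with hD
  have D0 : 0 ≤ D := by positivity
  obtain ⟨C1, hC1, H⟩ := M.bchG.lip (C + (C * C + D)) (by positivity)
  refine ⟨C1 * (C * C + D) + D, by positivity, fun L hL i k hi hk g hg h hh => ?_⟩
  obtain ⟨W, hW, hWB, hWT⟩ := bb_W hL
  have gW := bb_memW hW hi hg
  have hhW := bb_memW hW hk hh
  have mul : ∀ x ∈ W, ∀ y ∈ W, x * y = M.st x y := fun x hx y hy =>
    M.mul_eq_st (hWT.imp (fun h => h x hx) fun h => h y hy)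
  have inv : ∀ x ∈ W, x⁻¹ = -x := fun x hx =>
    M.inv_eq_neg (hWT.imp (fun h => h x hx) fun h => h x hx)
  have hp : ∀ j, ((M.B g) ^ (j + 2)) h ∈ (C ^ (j + 3)) • M.bbS L (i + k + 1) := by
    intro j
    induction j with
    | zero =>
      refine bb_up (bb_br hg (bb_br hg hh)) (by omega) (by positivity) (le_of_eq (by ring))
    | succ j ih =>
      rw [show j + 1 + 2 = j + 2 + 1 from rfl, pow_succ' (M.B g), Module.End.mul_apply]
      exact bb_up (bb_br hg ih) (by omega) (by positivity) (le_of_eq (by ring))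
  have hw : ∑ j ∈ Finset.range M.c, (((j + 2).factorial : ℝ)⁻¹) • ((M.B g) ^ (j + 2)) h ∈
      D • M.bbS L (i + k + 1) := by
    refine (bbS_sc L _).sum_mem _ _ _ (fun _ _ => by positivity) fun j _ => ?_
    refine (bbS_sc L _).smul_mem_smul (by positivity) (hp j) (mul_le_of_le_one_left
      (by positivity) ?_)
    rw [abs_of_nonneg (by positivity)]
    exact inv_le_one_of_one_le₀ (by exact_mod_cast Nat.factorial_pos _)
  rw [mul g gW h hhW, inv g gW, inv h hhW, mul _ (M.st_mem W hWB gW hhW) _ (W.neg_mem gW),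
    mul _ (M.st_mem W hWB (M.st_mem W hWB gW hhW) (W.neg_mem gW)) _ (W.neg_mem hhW), bb_conj]
  generalize ∑ j ∈ Finset.range M.c, (((j + 2).factorial : ℝ)⁻¹) • ((M.B g) ^ (j + 2)) h = w at hw
  have hz : M.B g h + w ∈ (C * C + D) • M.bbS L (i + k) :=
    (bbS_sc L _).add_mem (by positivity) D0 (bb_br hg hh) (bb_up hw (by omega) D0 le_rfl)
  have h1 : h ∈ (C + (C * C + D)) • M.bbS L 1 := bb_up hh hk hC (by linarith [mul_nonneg hC hC])
  have h2 := ((bbS_sc L 1).smul _).neg_mem _ h1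
  have key := H _ ((C * C + D) • M.bbS L (i + k)) ((C * C + D) • M.bbS L (i + k + 1))
    (bbS_sc L 1) ((bbS_sc L _).smul _) ((bbS_sc L _).smul _)
    (fun x hx y hy => bbS_anti one_le_two (bbS_lie x hx y hy))
    (fun x hx y hy => ⟨bb_ideal' x hx y hy, by
      rw [M.B_anti]; exact ((bbS_sc L _).smul _).neg_mem _ (bb_ideal' x hx y hy)⟩)
    (fun x hx y hy => ⟨bb_ideal x hx y hy, by
      rw [M.B_anti]; exact ((bbS_sc L _).smul _).neg_mem _ (bb_ideal x hx y hy)⟩)
    (h + (M.B g h + w)) ((bbS_sc L 1).add_mem hC (by positivity) (bb_up hh hk hC le_rfl)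
      (bb_up hz (by omega) (by positivity) le_rfl)) (-h) h2 h h1 (-h) h2
    (by rwa [add_sub_cancel_left]) (by rw [sub_self]; exact bb_zero _ _)
  rw [smul_smul, M.st_neg] at key
  convert (bbS_sc L _).add_mem (by positivity) D0 key hw using 1
  abel

theorem bb_real (T : ℝ) (hT : 1 ≤ T) (j : ℕ) : ∃ (N : ℕ) (C : ℝ), 0 ≤ C ∧ ∀ L : Set M.G,
    M.Tame L → ∀ i u, M.BBMon L i u → i ≤ j → ∀ t : ℝ, |t| ≤ T →
      ∃ g, M.BBP L N T g ∧ g - t • u ∈ C • M.bbS L (i + 1) := by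
  have T0 : 0 ≤ T := by linarith
  induction j with
  | zero => exact ⟨0, 0, le_rfl, fun L _ i u hu hi => absurd (hu.pos.trans hi) (by simp)⟩
  | succ j ih =>
    obtain ⟨N, C, hC, H⟩ := ih
    obtain ⟨C', hC', H'⟩ := M.bb_comm (C + T) (by positivity)
    refine ⟨N + N + N + N + 1, C' + C * (C + T) + T * C, by positivity, fun L hL i u hu => ?_⟩
    induction hu with
    | @base x hx =>
      intro _ t ht
      exact ⟨t • x, ⟨[(t, x)], by simp, by simpa using ⟨ht, hx⟩, by simp⟩,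
        by rw [sub_self]; exact bb_zero _ _⟩
    | neg _ ih =>
      intro hi t ht
      simpa using ih hi (-t) (by rwa [abs_neg])
    | @lie i k x y hx hy _ _ =>
      intro hi t ht
      have p1 := hx.pos
      have p2 := hy.pos
      obtain ⟨g, g1, g2⟩ := H L hL i x hx (by omega) t ht
      obtain ⟨h, h1, h2⟩ := H L hL k y hy (by omega) 1 (by simpa using hT)
      have tx := bb_smul hx.mem ht
      have ty := bb_smul hy.mem (t := 1) (by simpa using hT)
      have g3 := (bbS_sc L _).add_mem hC T0 (bb_up g2 (Nat.le_succ i) hC le_rfl) tx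
      have h3 := (bbS_sc L _).add_mem hC T0 (bb_up h2 (Nat.le_succ k) hC le_rfl) ty
      rw [sub_add_cancel] at g3 h3
      refine ⟨g * h * g⁻¹ * h⁻¹, (((g1.mul h1).mul (g1.inv hL)).mul (h1.inv hL)).mono
        (Nat.le_succ _) le_rfl, ?_⟩
      have k1 := H' L hL i k p1 p2 g g3 h h3
      have k2 := bb_br g2 h3
      have k3 := bb_br tx h2
      rw [add_right_comm] at k2
      convert (bbS_sc L _).add_mem (by positivity) (by positivity)
        ((bbS_sc L _).add_mem hC' (by positivity) k1 k2) k3 using 1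
      simp only [map_sub, map_smul, LinearMap.sub_apply, LinearMap.smul_apply, one_smul]
      abel

theorem bb_peel {j : ℕ} (hj : 1 ≤ j) (T : ℝ) (hT : 1 ≤ T)
    (H : ∀ D : ℝ, 0 ≤ D → ∃ (N : ℕ) (T' : ℝ), 1 ≤ T' ∧ ∀ L : Set M.G, L.Finite → M.Tame L →
      ∀ x ∈ D • M.bbS L (j + 1), M.BBP L N T' x) (r : ℕ) :
    ∀ D : ℝ, 0 ≤ D → ∃ (N : ℕ) (T' : ℝ), 1 ≤ T' ∧ ∀ L : Set M.G, L.Finite → M.Tame L →
      ∀ (ι : Type) (s : Finset ι) (t : ι → ℝ) (u : ι → M.G), s.card ≤ r → (∀ i, |t i| ≤ T) →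
        (∀ i, u i ∈ M.bbU L j) → ∀ w ∈ D • M.bbS L (j + 1),
          M.BBP L N T' (∑ i ∈ s, t i • u i + w) := by
  have T0 : 0 ≤ T := by linarith
  induction r with
  | zero =>
    intro D hD
    obtain ⟨N, T', h1, h2⟩ := H D hD
    refine ⟨N, T', h1, fun L hf hL ι s t u hs _ _ w hw => ?_⟩
    rw [Finset.card_eq_zero.1 (Nat.le_zero.1 hs), Finset.sum_empty, zero_add]
    exact h2 L hf hL w hw
  | succ r ih =>
    intro D hD
    obtain ⟨N0, C, hC, HR⟩ := M.bb_real T hT j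
    set E : ℝ := C + T + T + ((r + 1 : ℕ) * T + D) with hE
    have E0 : 0 ≤ E := by positivity
    obtain ⟨C1, hC1, HM⟩ := M.mul_sub_sub_mem E E0
    obtain ⟨N, T', h1, h2⟩ := ih (D + (C + T) + C1 * E) (by positivity)
    refine ⟨N0 + N, max T T', le_max_of_le_left hT, fun L hf hL ι s t u hs ht hu w hw => ?_⟩
    rcases s.eq_empty_or_nonempty with rfl | ⟨a, ha⟩
    · exact (h2 L hf hL ι ∅ t u (by simp) ht hu w (bb_up hw le_rfl hD
        (by linarith [mul_nonneg (zero_le_one.trans hC1) E0]))).mono (by omega) (le_max_right _ _)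
    classical
    have uS : ∀ i, t i • u i ∈ T • M.bbS L j := fun i =>
      bb_smul (subset_convexHull ℝ _ (hu i)) (ht i)
    obtain ⟨g, g1, g2⟩ : ∃ g, M.BBP L N0 T g ∧ g - t a • u a ∈ (C + T) • M.bbS L (j + 1) := by
      rcases hu a with h0 | ⟨n, hn, h⟩
      · exact ⟨0, BBP.one _ _, by rw [h0, smul_zero, sub_zero]; exact bb_zero _ _⟩
      rcases hn.eq_or_lt with rfl | hn
      · obtain ⟨g, g1, g2⟩ := HR L hL j _ h le_rfl _ (ht a)
        exact ⟨g, g1, bb_up g2 le_rfl hC (by linarith)⟩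
      · refine ⟨0, BBP.one _ _, ?_⟩
        rw [zero_sub]
        exact ((bbS_sc L _).smul _).neg_mem _ (bb_up (bb_smul h.mem (ht a)) hn T0 (by linarith))
    obtain ⟨W, hW, -, hWT⟩ := bb_W hL
    have rT : (0 : ℝ) ≤ (r + 1 : ℕ) * T := by positivity
    have g3 := (bbS_sc L _).add_mem (by positivity) T0
      (bb_up g2 (Nat.le_succ j) (by positivity) le_rfl) (uS a)
    rw [sub_add_cancel] at g3
    have gW := bb_memW hW hj g3
    have gi : g⁻¹ = -g := M.inv_eq_neg (hWT.imp (fun h => h g gW) fun h => h g gW)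
    have hx : ∑ i ∈ s, t i • u i + w ∈ E • M.bbS L j := by
      have k1 := (bbS_sc L j).sum_mem s _ (fun _ => T) (fun _ _ => T0) fun i _ => uS i
      rw [Finset.sum_const, nsmul_eq_mul] at k1
      have k2 : (s.card : ℝ) * T ≤ (r + 1 : ℕ) * T := by gcongr
      exact bb_up ((bbS_sc L j).add_mem (by positivity) hD k1 (bb_up hw (Nat.le_succ j) hD le_rfl))
        le_rfl (by positivity) (by linarith)
    have key := (HM (M.bbS L 1) (E • M.bbS L j) (E • M.bbS L (j + 1))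
      (by rw [bbS_one]; exact M.gen_isLB hf) (Tame.mono M hWT hW) ((bbS_sc L _).smul _)
      ((bbS_sc L _).smul _) bb_ideal' bb_ideal (-g)
      (((bbS_sc L _).smul _).neg_mem _ (bb_up g3 hj (by positivity) (by linarith))) _
      (bb_up hx hj E0 le_rfl) hx).1
    rw [smul_smul] at key
    have k3 := h2 L hf hL ι (s.erase a) t u (by rw [Finset.card_erase_of_mem ha]; omega) ht hu _
      ((bbS_sc L _).add_mem (by positivity) (by positivity)
        ((bbS_sc L _).add_mem hD (by positivity) hw (((bbS_sc L _).smul _).neg_mem _ g2)) key)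
    rw [← mul_inv_cancel_left g (∑ i ∈ s, t i • u i + w), gi]
    refine (g1.mono le_rfl (le_max_left _ _)).mul (BBP.mono ?_ le_rfl (le_max_right _ _))
    convert k3 using 1
    rw [← Finset.add_sum_erase s _ ha]
    abel

theorem bb_main (n : ℕ) : ∀ j, 1 ≤ j → j + n = M.c + 1 → ∀ D : ℝ, 0 ≤ D →
    ∃ (N : ℕ) (T' : ℝ), 1 ≤ T' ∧ ∀ L : Set M.G, L.Finite → M.Tame L →
      ∀ x ∈ D • M.bbS L j, M.BBP L N T' x := by
  induction n with
  | zero =>
    rintro j - (rfl : j = M.c + 1) D _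
    refine ⟨0, 1, le_rfl, ?_⟩
    rintro L - - _ ⟨y, hy, rfl⟩
    rw [bbS_top hy]
    simpa using BBP.one 0 1
  | succ n ih =>
    intro j hj hn D hD
    obtain ⟨N, T', h1, h2⟩ := M.bb_peel hj (D + 1) (by linarith)
      (ih (j + 1) (by omega) (by omega)) (Module.finrank ℝ M.G + 1) 0 le_rfl
    refine ⟨N, T', h1, ?_⟩
    rintro L hf hL _ ⟨y, hy, rfl⟩
    obtain ⟨ι, _, z, w, hz, ha, hw, hs, rfl⟩ := eq_pos_convex_span_of_mem_convexHull hy
    have := h2 L hf hL ι Finset.univ (fun i => D * w i) z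
      (ha.card_le_finrank_succ.trans (Nat.succ_le_succ (Submodule.finrank_le _)))
      (fun i => ?_) (fun i => hz ⟨i, rfl⟩) 0 (bb_zero _ _)
    · simpa only [add_zero, Finset.smul_sum, smul_smul] using this
    · have h3 : w i ≤ 1 := hs ▸ Finset.single_le_sum (fun i _ => (hw i).le) (Finset.mem_univ i)
      rw [abs_of_nonneg (mul_nonneg hD (hw i).le)]
      linarith [mul_le_of_le_one_right hD h3]

theorem bounded_gen (m : ℕ) (C : ℝ) (hC : 0 ≤ C) : ∃ (N : ℕ) (C' : ℝ), 1 ≤ C' ∧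
    ∀ L : Finset M.G, L.card ≤ m → M.Tame (L : Set M.G) → ∀ x ∈ C • M.gen (L : Set M.G),
      ∃ l : List (ℝ × M.G), l.length ≤ N ∧ (∀ p ∈ l, |p.1| ≤ C' ∧ p.2 ∈ L) ∧
        x = (l.map fun p => p.1 • p.2).prod := by
  obtain ⟨N, T, h1, h2⟩ := M.bb_main M.c 1 le_rfl (add_comm _ _) C hC
  refine ⟨N, T, h1, fun L _ hL x hx => h2 L L.finite_toSet hL x ?_⟩
  rwa [bbS_one]

end Vale.Agent.P188.Geo
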