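import Vale.Agent.P188.LB

/-! The bodies `K r` and `Z ρ`.  Plan: all inclusions by `gen_min` / `gen_mono` / `image_gen`
and the scaling lemmas of LB.lean.  `K_max_subset`: induct on `Mon`: every monomial lies in
`exp (-κ) • K rp` or in `K r₂`.  `Ad_Z_K`: `Ad ζ (X i)` is a combination of letters of the same
weight (`co_Ad_X`) with coefficients `≤ exp ⟪wt i, A ζ⟫ * C * (1 + ρ) ^ C` (`Z_norm`). -/

namespace Vale.Agent.P188.Geo
open scoped InnerProductSpace Pointwise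
variable (M : Geo)

private theorem body_norm_X (i : Fin M.d) : ‖M.X i‖ = 1 := by
  show ‖(EuclideanSpace.single i (1:ℝ) : Eu M.d)‖ = 1
  simp

private theorem body_abs_co (i : Fin M.d) (x : M.G) : |M.co i x| ≤ ‖x‖ := by
  exact PiLp.norm_apply_le (p := 2) (β := fun _ : Fin M.d => ℝ) (x : Eu M.d) i

/-- coordinatewise criterion for membership in a symmetric convex set -/
private theorem body_mem_of_co {S : Set M.G} (hS : SC S) {x : M.G}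
    (h : ∀ i, (((M.d : ℝ) + 1) * M.co i x) • M.X i ∈ S) : x ∈ S := by
  have hd : (0 : ℝ) < (M.d : ℝ) + 1 := by positivity
  have h1 : ∑ i, M.co i x • M.X i ∈ (∑ _i : Fin M.d, ((M.d : ℝ) + 1)⁻¹) • S := by
    refine hS.sum_mem Finset.univ _ _ (fun _ _ => by positivity) fun i _ => ?_
    refine ⟨_, h i, ?_⟩
    simp only [smul_smul]
    congr 1
    field_simp
  rw [M.sum_co] at h1
  have h2 : (∑ _i : Fin M.d, ((M.d : ℝ) + 1)⁻¹) • S ⊆ (1 : ℝ) • S := by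
    apply hS.smul_mono
    simp only [Finset.sum_const, Finset.card_univ, Fintype.card_fin, nsmul_eq_mul]
    rw [abs_of_nonneg (by positivity), ← div_eq_mul_inv, div_le_one hd]
    linarith
  simpa using h2 h1

/-- a symmetric convex set containing a spanning set absorbs the subspace, linearly in the norm -/
private theorem body_absorb {S T : Set M.G} (hS : SC S) (hT : T ⊆ S) :
    ∃ C : ℝ, 1 ≤ C ∧ ∀ x ∈ Submodule.span ℝ T, x ∈ (C * ‖x‖) • S := by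
  obtain ⟨b, hbT, hspan, hli⟩ := exists_linearIndependent ℝ T
  have hfin : b.Finite := hli.setFinite
  let _ : Fintype b := hfin.fintype
  let W := Submodule.span ℝ (Set.range (fun x : b => (x : M.G)))
  let bs : Module.Basis b ℝ W := Module.Basis.span hli
  have hW : W = Submodule.span ℝ T := by
    rw [← hspan]; simp [W]
  have hb : ∀ j : b, ∃ Cj : ℝ, 0 ≤ Cj ∧ ∀ w : W, |bs.repr w j| ≤ Cj * ‖(w : M.G)‖ := by
    intro j
    let f : W →L[ℝ] ℝ := LinearMap.toContinuousLinearMap (bs.coord j)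
    refine ⟨‖f‖, f.opNorm_nonneg, fun w => ?_⟩
    have := f.le_opNorm w
    simpa [f] using this
  choose Cj hCj0 hCj using hb
  refine ⟨1 + ∑ j, Cj j, by linarith [Finset.sum_nonneg (fun j (_ : j ∈ Finset.univ) => hCj0 j)],
    fun x hx => ?_⟩
  rw [← hW] at hx
  have hrepr : x = ∑ j, bs.repr ⟨x, hx⟩ j • (j : M.G) := by
    have := congrArg (fun w : W => (w : M.G)) (bs.sum_repr ⟨x, hx⟩)
    simp only [Submodule.coe_sum, Submodule.coe_smul] at this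
    refine this.symm.trans (Finset.sum_congr rfl fun j _ => ?_)
    rw [show ((bs j : W) : M.G) = j from Module.Basis.coe_span_apply hli j]
  have h1 : ∑ j, bs.repr ⟨x, hx⟩ j • (j : M.G) ∈ (∑ j, Cj j * ‖x‖) • S := by
    refine hS.sum_mem Finset.univ _ _ (fun j _ => mul_nonneg (hCj0 j) (norm_nonneg _))
      fun j _ => ?_
    refine hS.smul_mem_smul (s := 1) zero_le_one (by simpa using hT (hbT j.2)) ?_
    simpa using hCj j ⟨x, hx⟩
  rw [← hrepr] at h1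
  refine hS.smul_mono ?_ h1
  rw [← Finset.sum_mul, abs_of_nonneg (mul_nonneg (Finset.sum_nonneg fun j _ => hCj0 j)
    (norm_nonneg _))]
  nlinarith [norm_nonneg x]

private theorem body_log (D : ℝ) (n : ℕ) : ∃ C : ℝ, 1 ≤ C ∧ ∀ ρ : ℝ, 0 ≤ ρ →
    D * (1 + ρ) ^ n ≤ Real.exp (C * Real.log (2 + ρ)) := by
  obtain ⟨m, hm⟩ := pow_unbounded_of_one_lt D (one_lt_two (α := ℝ))
  refine ⟨((m + n + 1 : ℕ) : ℝ), by exact_mod_cast Nat.le_add_left 1 (m + n), fun ρ hρ => ?_⟩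
  have h2 : (0 : ℝ) < 2 + ρ := by linarith
  rw [Real.exp_nat_mul, Real.exp_log h2]
  have h3 : (2 : ℝ) ^ m ≤ (2 + ρ) ^ m := pow_le_pow_left₀ (by norm_num) (by linarith) m
  have h4 : (1 + ρ) ^ n ≤ (2 + ρ) ^ n := pow_le_pow_left₀ (by linarith) (by linarith) n
  have h5 : (2 + ρ) ^ (m + n) ≤ (2 + ρ) ^ (m + n + 1) :=
    pow_le_pow_right₀ (by linarith) (Nat.le_succ _)
  calc D * (1 + ρ) ^ n ≤ (2 + ρ) ^ m * (2 + ρ) ^ n :=
        mul_le_mul (by linarith) h4 (by positivity) (by positivity)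
    _ = (2 + ρ) ^ (m + n) := by rw [pow_add]
    _ ≤ _ := h5

private theorem body_B_bound : ∃ b : ℝ, 0 ≤ b ∧ ∀ x y : M.G, ‖M.B x y‖ ≤ b * ‖x‖ * ‖y‖ := by
  let B1 : M.G →ₗ[ℝ] (M.G →L[ℝ] M.G) :=
    (LinearMap.toContinuousLinearMap : (M.G →ₗ[ℝ] M.G) ≃ₗ[ℝ] (M.G →L[ℝ] M.G)).toLinearMap ∘ₗ M.B
  let B2 : M.G →L[ℝ] (M.G →L[ℝ] M.G) := LinearMap.toContinuousLinearMap B1
  exact ⟨‖B2‖, B2.opNorm_nonneg, fun x y => by simpa [B2, B1] using B2.le_opNorm₂ x y⟩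

private theorem body_bdd {S : Set M.G} (hS : M.IsLB S) : ∃ C : ℝ, 1 ≤ C ∧ ∀ x ∈ S, ‖x‖ ≤ C := by
  obtain ⟨C, hC⟩ := hS.compact.isBounded.exists_norm_le
  exact ⟨max 1 C, le_max_left _ _, fun x hx => (hC x hx).trans (le_max_right _ _)⟩

private theorem body_sc_norm {F : Type} [NormedAddCommGroup F] [NormedSpace ℝ F]
    (f : M.G →ₗ[ℝ] F) {a : ℝ} (ha : 0 ≤ a) : SC {x : M.G | ‖f x‖ ≤ a} := by
  refine ⟨?_, fun x hx => by simpa using hx, by simpa using ha⟩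
  have : {x : M.G | ‖f x‖ ≤ a} = f ⁻¹' Metric.closedBall 0 a := by
    ext x; simp
  rw [this]
  exact (convex_closedBall 0 a).linear_preimage f

theorem K_isLB (r) : M.IsLB (M.K r) := by
  apply M.gen_isLB
  refine (Set.finite_range (fun i => Real.exp (r i) • M.X i)).subset ?_
  rintro _ ⟨i, -, rfl⟩
  exact ⟨i, rfl⟩
theorem K_sub_e (r) : M.K r ⊆ M.e := by
  refine M.gen_min (SC.submodule M.e) (fun x _ y hy => M.B_e x hy) ?_
  rintro _ ⟨i, hi, rfl⟩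
  exact M.e.smul_mem _ (M.X_mem_e hi)
theorem K_tame (r) : M.Tame (M.K r) := M.tame_of_e (M.K_sub_e r)
theorem X_mem_K {r i} (hi : M.wt i ≠ 0) {t : ℝ} (ht : |t| ≤ Real.exp (r i)) :
    t • M.X i ∈ M.K r := by
  have h1 : Real.exp (r i) • M.X i ∈ M.K r := M.subset_gen _ ⟨i, hi, rfl⟩
  have hp := Real.exp_pos (r i)
  have h2 := (M.K_isLB r).sc.smul_mem h1 (t := t / Real.exp (r i))
    (by rw [abs_div, abs_of_pos hp, div_le_one hp]; exact ht)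
  rwa [smul_smul, div_mul_cancel₀ _ hp.ne'] at h2
theorem K_mono {r r'} (h : ∀ i, M.wt i ≠ 0 → r i ≤ r' i) : M.K r ⊆ M.K r' := by
  apply M.gen_mono
  rintro _ ⟨i, hi, rfl⟩
  exact M.X_mem_K hi (by rw [abs_of_pos (Real.exp_pos _)]; exact Real.exp_le_exp.2 (h i hi))

private theorem body_K_shift (r : Fin M.d → ℝ) (t : ℝ) : M.K (fun i => r i + t) =
    M.gen (Real.exp t • {y | ∃ i, M.wt i ≠ 0 ∧ y = Real.exp (r i) • M.X i}) := by
  unfold K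
  congr 1
  ext y
  constructor
  · rintro ⟨i, hi, rfl⟩
    exact ⟨_, ⟨i, hi, rfl⟩, by simp only [smul_smul, Real.exp_add, mul_comm]⟩
  · rintro ⟨_, ⟨i, hi, rfl⟩, rfl⟩
    exact ⟨i, hi, by simp only [smul_smul, Real.exp_add, mul_comm]⟩

theorem K_subset_smul {r r'} {t : ℝ} (ht : 0 ≤ t) (h : ∀ i, M.wt i ≠ 0 → r' i ≤ r i + t) :
    M.K r' ⊆ Real.exp (M.c * t) • M.K r := by
  refine (M.K_mono (r' := fun i => r i + t) h).trans ?_
  rw [body_K_shift, Real.exp_nat_mul]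
  exact M.gen_smul_subset (Real.one_le_exp ht) _
theorem smul_K_subset {r r'} {t : ℝ} (ht : 0 ≤ t) (h : ∀ i, M.wt i ≠ 0 → r i + t ≤ r' i) :
    Real.exp t • M.K r ⊆ M.K r' := by
  refine Set.Subset.trans ?_ (M.K_mono (r := fun i => r i + t) h)
  rw [body_K_shift]
  exact M.smul_gen_subset (Real.one_le_exp ht) _
theorem del_K (v : M.V) (r) : M.del v '' M.K r = M.K (r + M.wv v) := by
  unfold K
  rw [M.image_gen _ (M.del_B v)]
  congr 1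
  ext y
  constructor
  · rintro ⟨_, ⟨i, hi, rfl⟩, rfl⟩
    exact ⟨i, hi, by simp only [map_smul, del_X, smul_smul, Pi.add_apply, wv, Real.exp_add]⟩
  · rintro ⟨i, hi, rfl⟩
    exact ⟨_, ⟨i, hi, rfl⟩,
      by simp only [map_smul, del_X, smul_smul, Pi.add_apply, wv, Real.exp_add]⟩
theorem K_max_subset {r₁ r₂ rp r : Fin M.d → ℝ} {κ : ℝ} (hκ : 0 ≤ κ)
    (h1 : ∀ i, M.wt i ≠ 0 → r₁ i + κ ≤ rp i) (h2 : ∀ i, M.wt i ≠ 0 → r₂ i ≤ rp i)
    (h : ∀ i, M.wt i ≠ 0 → r i ≤ max (r₁ i) (r₂ i)) :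
    M.K r ⊆ Real.exp (-κ) • M.K rp + M.K r₂ := by
  have hp := M.K_isLB rp
  have hq := M.K_isLB r₂
  have hA : SC (Real.exp (-κ) • M.K rp) := hp.sc.smul _
  have he1 : Real.exp (-κ) ≤ 1 := Real.exp_le_one_iff.2 (by linarith)
  have he0 := Real.exp_pos (-κ)
  have hAp : Real.exp (-κ) • M.K rp ⊆ M.K rp := by
    have := hp.sc.smul_mono (s := Real.exp (-κ)) (t := 1) (by rwa [abs_of_pos he0])
    simpa using this
  have hBp : M.K r₂ ⊆ M.K rp := M.K_mono h2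
  have key : ∀ x, M.Mon {y | ∃ i, M.wt i ≠ 0 ∧ y = Real.exp (r i) • M.X i} x →
      x ∈ Real.exp (-κ) • M.K rp ∨ x ∈ M.K r₂ := by
    intro x hx
    induction hx with
    | base hx =>
      obtain ⟨i, hi, rfl⟩ := hx
      rcases le_max_iff.1 (h i hi) with h3 | h3
      · left
        refine ⟨Real.exp (r i + κ) • M.X i, M.X_mem_K hi ?_, ?_⟩
        · rw [abs_of_pos (Real.exp_pos _)]
          exact Real.exp_le_exp.2 (by linarith [h1 i hi])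
        · simp only [smul_smul, ← Real.exp_add]
          congr 2
          ring
      · right
        exact M.X_mem_K hi (by rw [abs_of_pos (Real.exp_pos _)]; exact Real.exp_le_exp.2 h3)
    | neg _ ih =>
      rcases ih with ih | ih
      · exact Or.inl (hA.neg_mem _ ih)
      · exact Or.inr (hq.sc.neg_mem _ ih)
    | @lie x y _ _ ihx ihy =>
      rcases ihx with ihx | ihx
      · left
        have hy : y ∈ M.K rp := ihy.elim (fun h => hAp h) (fun h => hBp h)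
        obtain ⟨x', hx', rfl⟩ := ihx
        exact ⟨M.B x' y, hp.lie _ hx' _ hy, by simp⟩
      · rcases ihy with ihy | ihy
        · left
          obtain ⟨y', hy', rfl⟩ := ihy
          exact ⟨M.B x y', hp.lie _ (hBp ihx) _ hy', by simp⟩
        · exact Or.inr (hq.lie _ ihx _ ihy)
  refine convexHull_min ?_ (hA.add hq.sc).convex
  rintro x (rfl | hx)
  · exact (hA.add hq.sc).zero_mem
  · rcases key x hx with h3 | h3
    · exact ⟨x, h3, 0, hq.sc.zero_mem, add_zero x⟩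
    · exact ⟨0, hA.zero_mem, x, h3, zero_add x⟩
theorem ball_subset_K : ∃ C : ℝ, 1 ≤ C ∧ ∀ x ∈ M.e, x ∈ (C * ‖x‖) • M.K 0 := by
  refine body_absorb M (M.K_isLB 0).sc ?_
  intro x hx
  refine subset_convexHull ℝ _ (Or.inr ?_)
  simpa using hx
theorem K_norm : ∃ C : ℝ, 1 ≤ C ∧ ∀ r (ρ : ℝ), 0 ≤ ρ → (∀ i, M.wt i ≠ 0 → r i ≤ ρ) →
    ∀ x ∈ M.K r, ‖x‖ ≤ C * Real.exp (M.c * ρ) := by
  obtain ⟨C, hC1, hC⟩ := body_bdd M (M.K_isLB 0)
  refine ⟨C, hC1, fun r ρ hρ hr x hx => ?_⟩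
  obtain ⟨y, hy, rfl⟩ := M.K_subset_smul (r := 0) hρ (by simpa using hr) hx
  simp only [norm_smul, Real.norm_eq_abs, abs_of_pos (Real.exp_pos _)]
  rw [mul_comm]
  exact mul_le_mul_of_nonneg_right (hC y hy) (Real.exp_pos _).le
theorem GenF.abs_le_K {μ p} (hp : M.GenF μ p) : ∃ C : ℝ, 1 ≤ C ∧ ∀ r (τ : ℝ),
    (∀ i, M.wt i = μ → r i ≤ τ) → ∀ x ∈ M.K r, |p x| ≤ C * Real.exp τ := by
  have hs : 0 ≤ ∑ i, |p (M.X i)| := Finset.sum_nonneg fun i _ => abs_nonneg _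
  refine ⟨1 + ∑ i, |p (M.X i)|, by linarith, fun r τ hr x hx => ?_⟩
  have h0 : 0 ≤ (1 + ∑ i, |p (M.X i)|) * Real.exp τ := by positivity
  have := M.gen_min (body_sc_norm M p h0) (fun x _ y _ => by simpa [hp.2.1] using h0) ?_ hx
  · simpa using this
  · rintro _ ⟨i, -, rfl⟩
    by_cases hi : M.wt i = μ
    · have h1 : |p (M.X i)| ≤ ∑ i, |p (M.X i)| :=
        Finset.single_le_sum (f := fun i => |p (M.X i)|) (fun i _ => abs_nonneg _)
          (Finset.mem_univ i)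
      have h2 := Real.exp_le_exp.2 (hr i hi)
      simp only [Set.mem_ofPred_eq, map_smul, smul_eq_mul, Real.norm_eq_abs, abs_mul,
        abs_of_pos (Real.exp_pos _)]
      rw [mul_comm]
      exact mul_le_mul (by linarith) h2 (Real.exp_pos _).le (by linarith)
    · simpa [hp.2.2.1 i hi] using h0

theorem Z_isLB (ρ) : M.IsLB (M.Z ρ) := by
  apply M.gen_isLB
  refine (Set.finite_range (fun i => ρ • M.X i)).subset ?_
  rintro _ ⟨i, -, rfl⟩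
  exact ⟨i, rfl⟩
theorem Z_sub_u0 (ρ) : M.Z ρ ⊆ M.u0 := by
  refine M.gen_min (SC.submodule M.u0) (fun x hx y hy => M.B_u0 hx hy) ?_
  rintro _ ⟨i, hi, rfl⟩
  exact M.u0.smul_mem _ (Submodule.subset_span ⟨i, hi, rfl⟩)
theorem Z_tame (ρ) : M.Tame (M.Z ρ) := M.tame_of_u0 (M.Z_sub_u0 ρ)

private theorem body_X_mem_Z {ρ : ℝ} {i} (hi : M.wt i = 0) {t : ℝ} (ht : |t| ≤ ρ) :
    t • M.X i ∈ M.Z ρ := by
  have h1 : ρ • M.X i ∈ M.Z ρ := M.subset_gen _ ⟨i, hi, rfl⟩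
  rcases eq_or_lt_of_le ((abs_nonneg t).trans ht) with hp | hp
  · have : t = 0 := abs_nonpos_iff.1 (hp ▸ ht)
    rw [this, zero_smul]
    exact (M.Z_isLB ρ).sc.zero_mem
  · have h2 := (M.Z_isLB ρ).sc.smul_mem h1 (t := t / ρ)
      (by rw [abs_div, abs_of_pos hp, div_le_one hp]; exact ht)
    rwa [smul_smul, div_mul_cancel₀ _ hp.ne'] at h2

private theorem body_Z_shift (t ρ : ℝ) : M.Z (t * ρ) =
    M.gen (t • {y | ∃ i, M.wt i = 0 ∧ y = ρ • M.X i}) := by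
  unfold Z
  congr 1
  ext y
  constructor
  · rintro ⟨i, hi, rfl⟩
    exact ⟨_, ⟨i, hi, rfl⟩, by simp only [smul_smul]⟩
  · rintro ⟨_, ⟨i, hi, rfl⟩, rfl⟩
    exact ⟨i, hi, by simp only [smul_smul]⟩

theorem Z_mono {ρ ρ' : ℝ} (h0 : 0 ≤ ρ) (h : ρ ≤ ρ') : M.Z ρ ⊆ M.Z ρ' := by
  apply M.gen_mono
  rintro _ ⟨i, hi, rfl⟩
  exact body_X_mem_Z M hi (by rwa [abs_of_nonneg h0])
theorem smul_Z_subset {t ρ : ℝ} (ht : 1 ≤ t) : t • M.Z ρ ⊆ M.Z (t * ρ) := by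
  rw [body_Z_shift]
  exact M.smul_gen_subset ht _
theorem Z_subset_smul {t ρ : ℝ} (ht : 1 ≤ t) : M.Z (t * ρ) ⊆ (t ^ M.c) • M.Z ρ := by
  rw [body_Z_shift]
  exact M.gen_smul_subset ht _
theorem Z_subset_smul_of_le {t ρ : ℝ} (h0 : 0 ≤ t) (h1 : t ≤ 1) :
    M.Z (t * ρ) ⊆ t • M.Z ρ := by
  rw [body_Z_shift]
  exact M.gen_smul_subset_of_le h0 h1 _
theorem pow_smul_Z_subset {t ρ : ℝ} (h0 : 0 ≤ t) (h1 : t ≤ 1) :
    (t ^ M.c) • M.Z ρ ⊆ M.Z (t * ρ) := by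
  rintro _ ⟨x, hx, rfl⟩
  rcases eq_or_lt_of_le h0 with hp | hp
  · subst hp
    rcases Nat.eq_zero_or_pos M.c with hc | hc
    · have hx0 : x = 0 := M.nil [] (by simp [hc]) x
      simp only [hx0, smul_zero]
      exact (M.Z_isLB _).sc.zero_mem
    · simp only [zero_pow hc.ne', zero_smul]
      exact (M.Z_isLB _).sc.zero_mem
  · have h2 : M.Z (t⁻¹ * (t * ρ)) ⊆ (t⁻¹ ^ M.c) • M.Z (t * ρ) :=
      M.Z_subset_smul ((one_le_inv₀ hp).2 h1)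
    rw [inv_mul_cancel_left₀ hp.ne'] at h2
    obtain ⟨y, hy, rfl⟩ := h2 hx
    simp only [smul_smul, ← mul_pow, mul_inv_cancel₀ hp.ne', one_pow, one_smul]
    exact hy
theorem mem_Z : ∃ C : ℝ, 1 ≤ C ∧ ∀ x ∈ M.u0, x ∈ M.Z (C * ‖x‖) := by
  have hd : (0 : ℝ) ≤ (M.d : ℝ) := by positivity
  refine ⟨(M.d : ℝ) + 1, by linarith, fun x hx => ?_⟩
  refine body_mem_of_co M (M.Z_isLB _).sc fun i => ?_
  by_cases hi : M.wt i = 0
  · refine body_X_mem_Z M hi ?_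
    rw [abs_mul, abs_of_nonneg (by linarith)]
    exact mul_le_mul_of_nonneg_left (body_abs_co M i x) (by linarith)
  · rw [M.mem_u0.1 hx i hi, mul_zero, zero_smul]
    exact (M.Z_isLB _).sc.zero_mem
theorem Z_norm : ∃ C : ℝ, 1 ≤ C ∧ ∀ ρ : ℝ, 0 ≤ ρ → ∀ x ∈ M.Z ρ, ‖x‖ ≤ C * (1 + ρ) ^ M.c := by
  obtain ⟨C, hC1, hC⟩ := body_bdd M (M.Z_isLB 1)
  refine ⟨C, hC1, fun ρ hρ x hx => ?_⟩
  have h1 : x ∈ M.Z ((1 + ρ) * 1) := M.Z_mono hρ (by linarith) hx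
  obtain ⟨y, hy, rfl⟩ := M.Z_subset_smul (by linarith) h1
  have hp : 0 ≤ (1 + ρ) ^ M.c := by positivity
  simp only [norm_smul, Real.norm_eq_abs, abs_of_nonneg hp]
  rw [mul_comm]
  exact mul_le_mul_of_nonneg_right (hC y hy) hp

private theorem body_Z_lin {F : Type} [NormedAddCommGroup F] [NormedSpace ℝ F]
    (f : M.G →ₗ[ℝ] F) (hf : ∀ x y, f (M.B x y) = 0) :
    ∃ C : ℝ, 1 ≤ C ∧ ∀ ρ : ℝ, 0 ≤ ρ → ∀ x ∈ M.Z ρ, ‖f x‖ ≤ C * ρ := by
  have hs : 0 ≤ ∑ i, ‖f (M.X i)‖ := Finset.sum_nonneg fun i _ => norm_nonneg _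
  refine ⟨1 + ∑ i, ‖f (M.X i)‖, by linarith, fun ρ hρ x hx => ?_⟩
  have h0 : 0 ≤ (1 + ∑ i, ‖f (M.X i)‖) * ρ := by positivity
  refine M.gen_min (body_sc_norm M f h0) (fun x _ y _ => by simpa [hf] using h0) ?_ hx
  rintro _ ⟨i, -, rfl⟩
  have h1 : ‖f (M.X i)‖ ≤ ∑ i, ‖f (M.X i)‖ :=
    Finset.single_le_sum (f := fun i => ‖f (M.X i)‖) (fun i _ => norm_nonneg _)
      (Finset.mem_univ i)
  simp only [Set.mem_ofPred_eq, map_smul, norm_smul, Real.norm_eq_abs, abs_of_nonneg hρ]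
  rw [mul_comm]
  exact mul_le_mul_of_nonneg_right (by linarith) hρ

theorem Z_A : ∃ C : ℝ, 1 ≤ C ∧ ∀ ρ : ℝ, 0 ≤ ρ → ∀ x ∈ M.Z ρ, ‖M.ah x‖ ≤ C * ρ ∧ ‖M.A x‖ ≤ C * ρ := by
  obtain ⟨C1, h1, hC1⟩ := body_Z_lin M M.ah.toLinearMap (fun x y => M.ah_B x y)
  obtain ⟨C2, h2, hC2⟩ := body_Z_lin M M.A M.A_B
  refine ⟨max C1 C2, le_max_of_le_left h1, fun ρ hρ x hx => ⟨?_, ?_⟩⟩
  · exact (hC1 ρ hρ x hx).trans (mul_le_mul_of_nonneg_right (le_max_left _ _) hρ)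
  · exact (hC2 ρ hρ x hx).trans (mul_le_mul_of_nonneg_right (le_max_right _ _) hρ)
theorem Z_mul : ∃ C : ℝ, 1 ≤ C ∧ ∀ ρ : ℝ, 0 ≤ ρ → ∀ x ∈ M.Z ρ, ∀ y ∈ M.Z ρ,
    x * y ∈ M.Z (C * ρ) := by
  obtain ⟨C, hC1, hC⟩ := M.mul_mem 1 zero_le_one
  refine ⟨C, hC1, fun ρ _ x hx y hy => ?_⟩
  exact M.smul_Z_subset hC1
    (hC _ (M.Z_isLB ρ) (M.Z_tame ρ) x (by simpa using hx) y (by simpa using hy))
theorem Z_inv {ρ} {x : M.G} (hx : x ∈ M.Z ρ) : x⁻¹ ∈ M.Z ρ := by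
  rw [M.inv_eq_neg (Or.inr (M.Z_sub_u0 ρ hx))]
  exact (M.Z_isLB ρ).sc.neg_mem _ hx
theorem Z_prod : ∃ C : ℝ, 1 ≤ C ∧ ∀ (ρ : ℝ) (l : List M.G), 0 ≤ ρ → (∀ x ∈ l, x ∈ M.Z ρ) →
    l.prod ∈ M.Z (C * ρ * l.length) := by
  obtain ⟨C, hC1, hC⟩ := M.prod_mem
  refine ⟨C, hC1, fun ρ l hρ hl => ?_⟩
  rcases Nat.eq_zero_or_pos l.length with h0 | h0
  · rw [List.length_eq_zero_iff.1 h0]
    exact (M.Z_isLB _).sc.zero_mem
  · have hn : (1 : ℝ) ≤ l.length := by exact_mod_cast h0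
    have hCn : 1 ≤ C * l.length := one_le_mul_of_one_le_of_one_le hC1 hn
    have hCn0 : 0 < C * l.length := by linarith
    have he : C * (C * l.length)⁻¹ * l.length = 1 := by field_simp
    have h1 := hC (M.Z (C * ρ * l.length)) (M.Z_isLB _) (M.Z_tame _) (C * l.length)⁻¹ l
      (by positivity) (fun x hx => ?_) he.le
    · rwa [he, one_smul] at h1
    · refine M.Z_subset_smul_of_le (by positivity) (inv_le_one_of_one_le₀ hCn) ?_
      have : (C * l.length)⁻¹ * (C * ρ * l.length) = ρ := by field_simp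
      rw [this]
      exact hl x hx
theorem K_prod : ∃ C : ℝ, 1 ≤ C ∧ ∀ r (l : List M.G), (∀ x ∈ l, x ∈ M.K r) →
    l.prod ∈ M.K (fun i => r i + Real.log (C * (1 + l.length))) := by
  obtain ⟨C, hC1, hC⟩ := M.prod_mem
  refine ⟨C, hC1, fun r l hl => ?_⟩
  have hn : (0 : ℝ) ≤ l.length := by positivity
  have hCn : 1 ≤ C * (1 + l.length) := one_le_mul_of_one_le_of_one_le hC1 (by linarith)
  have hCn0 : 0 < C * (1 + l.length) := by linarith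
  have he : C * (C * (1 + l.length))⁻¹ * l.length ≤ 1 := by
    have : C * (C * (1 + l.length))⁻¹ * l.length = l.length / (1 + l.length) := by field_simp
    rw [this, div_le_one (by linarith)]
    linarith
  have hS := M.K_isLB (fun i => r i + Real.log (C * (1 + l.length)))
  have h1 := hC _ hS (M.K_tame _) (C * (1 + l.length))⁻¹ l (by positivity) (fun x hx => ?_) he
  · have := hS.sc.smul_mono (t := 1) (by rwa [abs_of_nonneg (by positivity)]) h1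
    simpa using this
  · have h2 := M.smul_K_subset (r := r) (r' := fun i => r i + Real.log (C * (1 + l.length)))
      (Real.log_nonneg hCn) (fun _ _ => le_rfl) ⟨x, hl x hx, rfl⟩
    refine ⟨_, h2, ?_⟩
    simp only [Real.exp_log hCn0, smul_smul, inv_mul_cancel₀ hCn0.ne', one_smul]
/-- A change of basis of `u0` only changes the constants. -/
theorem Z_basis (L : Finset M.G) (hL : Submodule.span ℝ (L : Set M.G) = M.u0) :
    ∃ C : ℝ, 1 ≤ C ∧ ∀ ρ : ℝ, 0 ≤ ρ → M.Z ρ ⊆ M.gen ((C * ρ) • (L : Set M.G)) ∧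
      M.gen (ρ • (L : Set M.G)) ⊆ M.Z (C * ρ) := by
  have hS : SC {x : M.G | ∀ s : ℝ, s • x ∈ M.gen (s • (L : Set M.G))} := by
    refine ⟨?_, fun x hx s => ?_, fun s => ?_⟩
    · intro x hx y hy a b ha hb hab s
      have := (M.gen_sc _).convex (hx s) (hy s) ha hb hab
      rwa [smul_comm a, smul_comm b, ← smul_add] at this
    · rw [smul_neg]; exact (M.gen_sc _).neg_mem _ (hx s)
    · rw [smul_zero]; exact (M.gen_sc _).zero_mem
  obtain ⟨C1, h1, hC1⟩ := body_absorb M hS (T := (L : Set M.G))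
    (fun x hx s => M.subset_gen _ ⟨x, hx, rfl⟩)
  obtain ⟨C2, h2, hC2⟩ := M.mem_Z
  have hs : 0 ≤ ∑ y ∈ L, ‖y‖ := Finset.sum_nonneg fun i _ => norm_nonneg _
  refine ⟨C1 + C2 * ∑ y ∈ L, ‖y‖, by nlinarith, fun ρ hρ => ⟨?_, ?_⟩⟩
  · apply M.gen_mono
    rintro _ ⟨i, hi, rfl⟩
    have hX : M.X i ∈ Submodule.span ℝ (L : Set M.G) := by
      rw [hL]; exact Submodule.subset_span ⟨i, hi, rfl⟩
    have h3 := hC1 _ hX
    rw [body_norm_X, mul_one] at h3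
    have h4 := hS.smul_mono (s := C1) (t := C1 + C2 * ∑ y ∈ L, ‖y‖)
      (by rw [abs_of_nonneg (by linarith)]; nlinarith) h3
    obtain ⟨y, hy, hyX⟩ := h4
    have h5 := hy ((C1 + C2 * ∑ y ∈ L, ‖y‖) * ρ)
    simp only at hyX
    rw [← hyX, smul_smul, mul_comm ρ]
    exact h5
  · apply M.gen_mono
    rintro _ ⟨y, hy, rfl⟩
    have hy0 : y ∈ M.u0 := by rw [← hL]; exact Submodule.subset_span hy
    have h3 := hC2 _ (M.u0.smul_mem ρ hy0)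
    have h4 : ‖y‖ ≤ ∑ y ∈ L, ‖y‖ :=
      Finset.single_le_sum (f := fun y : M.G => ‖y‖) (fun i _ => norm_nonneg _) hy
    refine M.Z_mono (by positivity) ?_ h3
    rw [norm_smul, Real.norm_eq_abs, abs_of_nonneg hρ]
    have h5 : C2 * (ρ * ‖y‖) ≤ C2 * (ρ * ∑ y ∈ L, ‖y‖) :=
      mul_le_mul_of_nonneg_left (mul_le_mul_of_nonneg_left h4 hρ) (by linarith)
    nlinarith
/-- Conjugating a small element of `u0` by a large one. -/
theorem Ad_Z_Z : ∃ C : ℝ, 1 ≤ C ∧ ∀ ρ β : ℝ, 0 ≤ ρ → 0 ≤ β → β ≤ 1 → ∀ g ∈ M.Z ρ,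
    ∀ y ∈ (β ^ M.c) • M.Z ρ, M.Ad g y ∈ M.Z (C * β * ρ) := by
  obtain ⟨C, hC1, hC⟩ := M.Ad_mem 1 zero_le_one
  refine ⟨C, hC1, fun ρ β _ hβ0 hβ1 g hg y hy => ?_⟩
  have h1 := hC (M.Z ρ) ((β ^ M.c) • M.Z ρ) ((M.Z_isLB ρ).sc.smul _) ?_ g (by simpa using hg)
    (Or.inr ?_) y hy
  · rw [mul_assoc]
    exact M.smul_Z_subset hC1 (Set.smul_set_mono (M.pow_smul_Z_subset hβ0 hβ1) h1)
  · rintro x hx _ ⟨z, hz, rfl⟩
    exact ⟨M.B x z, (M.Z_isLB ρ).lie _ hx _ hz, by simp⟩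
  · exact (M.pow_smul_Z_subset hβ0 hβ1).trans (M.Z_sub_u0 _)

private theorem body_Ad_norm : ∃ D : ℝ, 0 ≤ D ∧ ∀ ρ : ℝ, 0 ≤ ρ → ∀ ζ ∈ M.Z ρ, ∀ i,
    ‖M.Ad ζ (M.X i)‖ ≤ Real.exp (M.wv (M.A ζ) i) * (D * (1 + ρ) ^ (M.c * M.c)) := by
  obtain ⟨b, hb0, hb⟩ := body_B_bound M
  obtain ⟨C, hC1, hC⟩ := M.Z_norm
  refine ⟨M.c * (1 + b * C) ^ M.c, by positivity, fun ρ hρ ζ hζ i => ?_⟩
  have hpow : ∀ (j : ℕ) (y : M.G), ‖((M.B ζ) ^ j) y‖ ≤ (b * ‖ζ‖) ^ j * ‖y‖ := by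
    intro j
    induction j with
    | zero => intro y; simp
    | succ j ih =>
      intro y
      rw [pow_succ', Module.End.mul_apply, pow_succ']
      calc _ ≤ b * ‖ζ‖ * ‖((M.B ζ) ^ j) y‖ := hb _ _
        _ ≤ b * ‖ζ‖ * ((b * ‖ζ‖) ^ j * ‖y‖) :=
          mul_le_mul_of_nonneg_left (ih y) (by positivity)
        _ = _ := by ring
  have h1 : (1 : ℝ) ≤ (1 + ρ) ^ M.c := one_le_pow₀ (by linarith)
  have hT : b * ‖ζ‖ ≤ (1 + b * C) * (1 + ρ) ^ M.c := by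
    have := mul_le_mul_of_nonneg_left (hC ρ hρ ζ hζ) hb0
    nlinarith
  have hT1 : 1 ≤ (1 + b * C) * (1 + ρ) ^ M.c :=
    one_le_mul_of_one_le_of_one_le (by nlinarith) h1
  have hterm : ∀ j ∈ Finset.range M.c,
      ‖((j.factorial : ℝ)⁻¹) • ((M.B ζ) ^ j) (M.X i)‖ ≤ ((1 + b * C) * (1 + ρ) ^ M.c) ^ M.c := by
    intro j hj
    have hf : (1 : ℝ) ≤ j.factorial := by exact_mod_cast j.factorial_pos
    rw [norm_smul, Real.norm_eq_abs, abs_of_nonneg (by positivity)]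
    calc _ ≤ 1 * ((b * ‖ζ‖) ^ j * ‖M.X i‖) :=
          mul_le_mul (inv_le_one_of_one_le₀ hf) (hpow j _) (norm_nonneg _) zero_le_one
      _ = (b * ‖ζ‖) ^ j := by rw [body_norm_X]; ring
      _ ≤ ((1 + b * C) * (1 + ρ) ^ M.c) ^ j := pow_le_pow_left₀ (by positivity) hT j
      _ ≤ _ := pow_le_pow_right₀ hT1 (Finset.mem_range.1 hj).le
  have hsum : ‖∑ j ∈ Finset.range M.c, ((j.factorial : ℝ)⁻¹) • ((M.B ζ) ^ j) (M.X i)‖ ≤
      M.c * ((1 + b * C) * (1 + ρ) ^ M.c) ^ M.c := by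
    refine (norm_sum_le _ _).trans ((Finset.sum_le_sum hterm).trans (le_of_eq ?_))
    simp
  have hAd : M.Ad ζ (M.X i) = Real.exp (M.wv (M.A ζ) i) •
      ∑ j ∈ Finset.range M.c, ((j.factorial : ℝ)⁻¹) • ((M.B ζ) ^ j) (M.X i) := by
    simp only [Ad, LinearMap.comp_apply, del_X, map_smul, wv, LinearMap.sum_apply,
      LinearMap.smul_apply]
  rw [hAd, norm_smul, Real.norm_eq_abs, abs_of_pos (Real.exp_pos _)]
  refine mul_le_mul_of_nonneg_left (hsum.trans (le_of_eq ?_)) (Real.exp_pos _).le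
  rw [mul_pow, ← pow_mul]
  ring

theorem Ad_Z_K : ∃ C : ℝ, 1 ≤ C ∧ ∀ (ρ : ℝ) r, 0 ≤ ρ → M.WtFun r → ∀ ζ ∈ M.Z ρ,
    M.Ad ζ '' M.K r ⊆ M.K (fun i => r i + M.wv (M.A ζ) i + C * Real.log (2 + ρ)) := by
  obtain ⟨D, hD0, hD⟩ := body_Ad_norm M
  obtain ⟨C, hC1, hC⟩ := body_log (((M.d : ℝ) + 1) * D) (M.c * M.c)
  refine ⟨C, hC1, fun ρ r hρ hr ζ hζ => ?_⟩
  have : M.Ad ζ '' M.K r = _ := M.image_gen _ (M.Ad_B ζ) _
  rw [this]
  apply M.gen_mono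
  rintro _ ⟨_, ⟨i, hi, rfl⟩, rfl⟩
  refine body_mem_of_co M (M.K_isLB _).sc fun j => ?_
  by_cases hj : M.wt j = M.wt i
  · refine M.X_mem_K (hj ▸ hi) ?_
    have hd : (0 : ℝ) ≤ (M.d : ℝ) + 1 := by positivity
    have h1 := (body_abs_co M j (M.Ad ζ (M.X i))).trans (hD ρ hρ ζ hζ i)
    have h2 : M.wv (M.A ζ) j = M.wv (M.A ζ) i := by simp only [wv, hj]
    simp only [map_smul, smul_eq_mul, abs_mul, abs_of_nonneg hd, abs_of_pos (Real.exp_pos _),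
      Real.exp_add, hr j i hj, h2]
    have h3 := hC ρ hρ
    have h4 := Real.exp_pos (r i)
    have h5 := Real.exp_pos (M.wv (M.A ζ) i)
    calc _ ≤ ((M.d : ℝ) + 1) * (Real.exp (r i) *
          (Real.exp (M.wv (M.A ζ) i) * (D * (1 + ρ) ^ (M.c * M.c)))) :=
          mul_le_mul_of_nonneg_left (mul_le_mul_of_nonneg_left h1 h4.le) hd
      _ = Real.exp (r i) * Real.exp (M.wv (M.A ζ) i) *
          (((M.d : ℝ) + 1) * D * (1 + ρ) ^ (M.c * M.c)) := by ring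
      _ ≤ _ := mul_le_mul_of_nonneg_left h3 (by positivity)
  · rw [map_smul, map_smul, M.co_Ad_X (M.Z_sub_u0 ρ hζ) hj, smul_zero, mul_zero, zero_smul]
    exact (M.K_isLB _).sc.zero_mem
theorem e_inter_Z : ∃ C : ℝ, 1 ≤ C ∧ ∀ ρ : ℝ, 0 ≤ ρ → ∀ x ∈ M.Z ρ, x ∈ M.e →
    x ∈ M.K (fun _ => C * Real.log (2 + ρ)) := by
  obtain ⟨C1, h1, hC1⟩ := M.ball_subset_K
  obtain ⟨C2, h2, hC2⟩ := M.Z_norm
  obtain ⟨C, hC0, hC⟩ := body_log (C1 * C2) M.c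
  refine ⟨C, hC0, fun ρ hρ x hx hxe => ?_⟩
  have hlog : 0 ≤ C * Real.log (2 + ρ) :=
    mul_nonneg (by linarith) (Real.log_nonneg (by linarith))
  refine M.smul_K_subset (r := 0) hlog (fun _ _ => by simp) ?_
  refine (M.K_isLB 0).sc.smul_mono ?_ (hC1 x hxe)
  rw [abs_of_nonneg (by positivity)]
  refine le_trans ?_ (hC ρ hρ)
  rw [mul_assoc]
  exact mul_le_mul_of_nonneg_left (hC2 ρ hρ x hx) (by linarith)
theorem proj_Z : ∃ C : ℝ, 1 ≤ C ∧ ∀ ρ : ℝ, 0 ≤ ρ → ∀ x ∈ M.Z ρ,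
    x * (M.eᗮ.starProjection x)⁻¹ ∈ M.K (fun _ => C * Real.log (2 + ρ)) := by
  obtain ⟨C1, h1, hC1⟩ := M.mem_Z
  obtain ⟨C2, h2, hC2⟩ := M.Z_norm
  obtain ⟨C3, h3, hC3⟩ := M.Z_mul
  obtain ⟨C4, h4, hC4⟩ := M.e_inter_Z
  obtain ⟨C5, h5, hC5⟩ := body_log (2 + C3 * (C1 * C2)) (M.c + 1)
  refine ⟨C4 * C5, one_le_mul_of_one_le_of_one_le h4 h5, fun ρ hρ x hx => ?_⟩
  have h12 : 1 ≤ C1 * C2 := one_le_mul_of_one_le_of_one_le h1 h2
  have hp1 : (1 : ℝ) ≤ (1 + ρ) ^ M.c := one_le_pow₀ (by linarith)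
  have hp2 : (1 + ρ) ^ M.c ≤ (1 + ρ) ^ (M.c + 1) := pow_le_pow_right₀ (by linarith) (Nat.le_succ _)
  have hp3 : 1 + ρ ≤ (1 + ρ) ^ (M.c + 1) :=
    le_self_pow₀ (by linarith) (Nat.succ_ne_zero _)
  set P := (1 + ρ) ^ (M.c + 1) with hP
  have hρ' : ρ ≤ C1 * C2 * P := by nlinarith
  have hq : M.eᗮ.starProjection x ∈ M.Z (C1 * C2 * P) := by
    have hq0 : M.eᗮ.starProjection x ∈ M.u0 :=
      M.e_orth_le (Submodule.starProjection_apply_mem _ _)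
    refine M.Z_mono (by positivity) ?_ (hC1 _ hq0)
    have h6 : ‖M.eᗮ.starProjection x‖ ≤ ‖x‖ := Submodule.norm_starProjection_apply_le _ _
    have h7 := hC2 ρ hρ x hx
    have h8 : C2 * (1 + ρ) ^ M.c ≤ C2 * P := mul_le_mul_of_nonneg_left hp2 (by linarith)
    rw [mul_assoc]
    exact mul_le_mul_of_nonneg_left (by linarith) (by linarith)
  have hm := hC3 _ (by positivity) x (M.Z_mono hρ hρ' hx) _ (M.Z_inv hq)
  have hk := hC4 _ (by positivity) _ hm (M.mul_proj_inv_mem_e x)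
  refine M.K_mono (fun i _ => ?_) hk
  rw [mul_assoc C4]
  refine mul_le_mul_of_nonneg_left ?_ (by linarith)
  rw [Real.log_le_iff_le_exp (by positivity)]
  refine le_trans ?_ (hC5 ρ hρ)
  nlinarith

theorem wv_wtFun (v) : M.WtFun (M.wv v) := by
  intro i j h; simp only [wv, h]
theorem h_wtFun (Ω) : M.WtFun (M.h Ω) := by
  intro i j h; simp only [Geo.h, h]
theorem hb_wtFun (o R) : M.WtFun (M.hb o R) := by
  intro i j h; simp only [hb, h]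
theorem le_h {Ω : Set M.V} (hΩ : IsCompact Ω) {v} (hv : v ∈ Ω) (i) : M.wv v i ≤ M.h Ω i := by
  have hc : Continuous (fun v : M.V => ⟪M.wt i, v⟫_ℝ) := by fun_prop
  exact le_csSup (hΩ.image hc).bddAbove ⟨v, hv, rfl⟩
theorem exists_h {Ω : Set M.V} (hΩ : IsCompact Ω) (hne : Ω.Nonempty) (i) :
    ∃ v ∈ Ω, M.h Ω i = M.wv v i := by
  have hc : Continuous (fun v : M.V => ⟪M.wt i, v⟫_ℝ) := by fun_prop
  obtain ⟨v, hv, h⟩ := (hΩ.image hc).sSup_mem (hne.image _)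
  exact ⟨v, hv, h.symm⟩
theorem h_closedBall (o : M.V) {R : ℝ} (hR : 0 ≤ R) : M.h (Metric.closedBall o R) = M.hb o R := by
  funext i
  apply IsGreatest.csSup_eq
  constructor
  · refine ⟨o + (R * ‖M.wt i‖⁻¹) • M.wt i, ?_, ?_⟩
    · rw [mem_closedBall_iff_norm, add_sub_cancel_left, norm_smul, Real.norm_eq_abs,
        abs_of_nonneg (by positivity), mul_assoc]
      refine mul_le_of_le_one_right hR ?_
      exact inv_mul_le_one_of_le₀ le_rfl (norm_nonneg _)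
    · simp only [hb, inner_add_right, inner_smul_right, real_inner_self_eq_norm_sq]
      congr 1
      by_cases h0 : ‖M.wt i‖ = 0
      · simp [h0]
      · field_simp
  · rintro _ ⟨v, hv, rfl⟩
    rw [mem_closedBall_iff_norm] at hv
    have h1 : ⟪M.wt i, v⟫_ℝ = ⟪M.wt i, o⟫_ℝ + ⟪M.wt i, v - o⟫_ℝ := by
      rw [inner_sub_right]; ring
    have h2 := real_inner_le_norm (M.wt i) (v - o)
    have h3 := mul_le_mul_of_nonneg_left hv (norm_nonneg (M.wt i))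
    simp only [hb]
    linarith
theorem h_convexHull_union {Ω Ω' : Set M.V} (h1 : IsCompact Ω) (h2 : IsCompact Ω')
    (n1 : Ω.Nonempty) (n2 : Ω'.Nonempty) (i) :
    M.h (convexHull ℝ (Ω ∪ Ω')) i = max (M.h Ω i) (M.h Ω' i) := by
  apply IsGreatest.csSup_eq
  constructor
  · obtain ⟨v, hv, e1⟩ := M.exists_h h1 n1 i
    obtain ⟨w, hw, e2⟩ := M.exists_h h2 n2 i
    rcases max_choice (M.h Ω i) (M.h Ω' i) with h | h
    · exact ⟨v, subset_convexHull ℝ _ (Or.inl hv), by rw [h, e1]; rfl⟩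
    · exact ⟨w, subset_convexHull ℝ _ (Or.inr hw), by rw [h, e2]; rfl⟩
  · rintro _ ⟨v, hv, rfl⟩
    have hc : Convex ℝ {v : M.V | ⟪M.wt i, v⟫_ℝ ≤ max (M.h Ω i) (M.h Ω' i)} :=
      convex_halfSpace_le (f := fun v : M.V => ⟪M.wt i, v⟫_ℝ)
        ⟨fun x y => inner_add_right _ _ _, fun c x => by simp [inner_smul_right]⟩ _
    refine convexHull_min ?_ hc hv
    rintro w (hw | hw)
    · exact (M.le_h h1 hw i).trans (le_max_left _ _)
    · exact (M.le_h h2 hw i).trans (le_max_right _ _)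

end Vale.Agent.P188.Geo
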