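import Vale.Agent.P188.Conc1

/-! Concentration at every scale.
Plan.  `L = Lb η R` is a Lie body, an ideal for `K⁺⁺ = K (hb 0 ((1+3η) R))`, and
`L ⊆ K (hb 0 R) =: K₀` (`K_subset_smul`).
Step 1: for `p ∈ C • K⁺` (`K⁺ = K (hb 0 ((1+η) R))`) and a letter `t`:
the measure of `k ∈ C • K₀` with `A φ (k p t ζ)` far from `A φ (k p ζ)` is `≤ C' δ' mE K₀`:
average over `l ∈ L`, `k p = k₀ p l` with `k₀ = k (p l p⁻¹)⁻¹ ∈ C' • K₀` (`Ad_mem`), Fubini, and
`SibStmt` for `x ↦ φ (k₀ p x)`.  Step 2: `bounded_gen` chains this: for every `p ∈ C • K⁺`,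
`A φ (k p ζ) ≈ A φ (k ζ)` for most `k ∈ C • K₀`.  Step 3: `p` uniform in `C' • K₀` gives a value
`f ζ` taken by most `k ∈ K₀`; `p` uniform in `C' • B` gives the same value on `C₁ • B`
(for `k ∈ K₀ ⊆ C₁ • B`, `p ↦ k p` covers `C₁ • B`).  Step 4: `AffStmt` for the ball of radius
`(1 - D η) R` and the body `K₀` (`Adm.big` holds by the first part of `SibStmt` when `ε ≤ η`).
Pick `l` good for `a1` and for concentration at finitely many positions `ι v`, `v` in an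
`ε R`-net... simpler: for two `l, l'` good at the positions `0`, `ι (ρ b_j)` (`b_j` an orthonormal
basis, `ρ = R / 2`) one gets `w l = w l'` (`W_sep`) and `m l ≈ m l'`; fix such an `l₀`, put
`w = w l₀`, `m = m l₀`; for any `ζ` pick `l` good at these positions and at `ζ`. -/

namespace Vale.Agent.P188.Geo
open scoped InnerProductSpace Pointwise
open MeasureTheory
variable (M : Geo)

def ConcStmt : Prop := ∀ K C : ℝ, ∃ D η₀ : ℝ, 1 ≤ D ∧ 0 < η₀ ∧ D * η₀ ≤ 4⁻¹ ∧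
  ∀ η C₁ ε δ : ℝ, 0 < η → η ≤ η₀ → 1 ≤ C₁ → 0 < ε → 0 < δ → ∃ S₀ : ℝ, ∀ R : ℝ, S₀ ≤ R →
    ∀ φ, M.MQI K C φ → ∃ w ∈ M.W, ∃ m, M.Conc φ R η D C₁ ε δ w m

theorem cc_Lb {η R : ℝ} (hη : 0 ≤ η) (hR : 0 ≤ R) : M.IsLB (M.Lb η R) ∧
    M.Lb η R ⊆ M.K (M.hb 0 R) ∧ 0 < M.mE.real (M.Lb η R) ∧
      ∀ x ∈ M.K (M.hb 0 ((1 + η) * R)), ∀ y ∈ M.Lb η R, M.B x y ∈ M.Lb η R := by
  have hw : 0 ≤ M.wmax := Finset.sum_nonneg fun _ _ => norm_nonneg _
  have ht : 0 ≤ 3 * η * R * M.wmax := by positivity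
  refine ⟨IsLB.smul M (M.K_isLB _) (Real.exp_pos _).le ?_, ?_, ?_, ?_⟩
  · rw [Real.exp_le_one_iff, neg_nonpos]
    positivity
  · have h1 : M.K (M.hb 0 ((1 + 3 * η) * R)) ⊆
        Real.exp (M.c * (3 * η * R * M.wmax)) • M.K (M.hb 0 R) := by
      refine M.K_subset_smul ht fun i _ => ?_
      have h2 : ‖M.wt i‖ ≤ M.wmax :=
        Finset.single_le_sum (f := fun i => ‖M.wt i‖) (fun _ _ => norm_nonneg _) (Finset.mem_univ i)
      have h3 := mul_le_mul_of_nonneg_left h2 (by positivity : 0 ≤ 3 * η * R)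
      simp only [hb]
      linarith
    refine (Set.smul_set_mono h1).trans ?_
    rw [smul_smul, ← Real.exp_add, neg_add_cancel, Real.exp_zero, one_smul]
  · rw [Lb, M.cc_smul (Real.exp_pos _)]
    exact mul_pos (pow_pos (Real.exp_pos _) _) (M.mE_K_pos _)
  · rintro x hx _ ⟨y, hy, rfl⟩
    have hx' : x ∈ M.K (M.hb 0 ((1 + 3 * η) * R)) := by
      refine M.K_mono (fun i _ => ?_) hx
      have := mul_nonneg (mul_nonneg hη hR) (norm_nonneg (M.wt i))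
      simp only [hb]
      nlinarith
    exact ⟨M.B x y, (M.K_isLB _).lie x hx' y hy, by simp⟩

theorem cc_eq {c a : ℝ} (hc : ∀ w ∈ M.W, ∀ w' ∈ M.W, (∀ v, ‖w v - w' v‖ ≤ c * ‖v‖) → w = w')
    {w w' : M.V ≃ₗᵢ[ℝ] M.V} (hw : w ∈ M.W) (hw' : w' ∈ M.W) (hac : M.k * a ≤ c)
    (h : ∀ j, ‖w (EuclideanSpace.single j 1) - w' (EuclideanSpace.single j 1)‖ ≤ a) : w = w' := by
  refine hc w hw w' hw' fun v => ?_
  have e : v = ∑ j, v j • (EuclideanSpace.single j 1 : M.V) := by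
    simpa using ((EuclideanSpace.basisFun (Fin M.k) ℝ).sum_repr v).symm
  have e2 : w v - w' v =
      ∑ j, v j • (w (EuclideanSpace.single j 1) - w' (EuclideanSpace.single j 1)) := by
    conv_lhs => rw [e]
    simp only [map_sum, map_smul, smul_sub, Finset.sum_sub_distrib]
  rw [e2]
  refine (norm_sum_le _ _).trans ((Finset.sum_le_sum (g := fun _ => ‖v‖ * a)
    fun j _ => ?_).trans ?_)
  · rw [norm_smul]
    exact mul_le_mul (PiLp.norm_apply_le v j) (h j) (norm_nonneg _) (norm_nonneg _)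
  · rw [Finset.sum_const, Finset.card_univ, Fintype.card_fin, nsmul_eq_mul]
    nlinarith [norm_nonneg v]

theorem cc_tri {V : Type} [NormedAddCommGroup V] {x y u v m m' : V} {a b : ℝ}
    (h1 : ‖x - u - m‖ ≤ a) (h2 : ‖y - v - m'‖ ≤ a) (h3 : ‖x - y‖ ≤ b) :
    ‖(u + m) - (v + m')‖ ≤ 2 * a + b := by
  have e : (u + m) - (v + m') = (x - y) - (x - u - m) + (y - v - m') := by abel
  rw [e]
  have := norm_add_le ((x - y) - (x - u - m)) (y - v - m')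
  have := norm_sub_le (x - y) (x - u - m)
  linarith

theorem conc (hA : M.AffStmt) (hS : M.SibStmt) : M.ConcStmt := by
  intro K C
  obtain ⟨D, η₀, hD, hη₀, hDη, HS⟩ := hS K C
  refine ⟨D, η₀, hD, hη₀, hDη, fun η C₁ ε δ hη hηη hC₁ hε hδ => ?_⟩
  obtain ⟨c, hc, Hc⟩ := M.W_sep
  obtain ⟨ι, hι0, hιA⟩ := M.exists_sec
  obtain ⟨CZ, hCZ, HZ⟩ := M.mem_Z
  obtain ⟨C3, C3', h3, h3', H3⟩ := M.cc_step3 C₁ hC₁
  obtain ⟨N, C2, C2', h2, h2', H2⟩ := M.cc_step2 C3 (by linarith)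
  have hN : (0 : ℝ) ≤ N := Nat.cast_nonneg N
  have hk : (0 : ℝ) ≤ M.k := Nat.cast_nonneg _
  set Cι : ℝ := ‖LinearMap.toContinuousLinearMap ι‖ with hCι
  have hCι0 : 0 ≤ Cι := norm_nonneg _
  have hι : ∀ v, ‖ι v‖ ≤ Cι * ‖v‖ := fun v => (LinearMap.toContinuousLinearMap ι).le_opNorm v
  obtain ⟨C₄, a1, a2, a3⟩ : ∃ C₄ : ℝ, C₁ ≤ C₄ ∧ C2' ≤ C₄ ∧ CZ * Cι ≤ C₄ :=
    ⟨max C₁ (max C2' (CZ * Cι)), le_max_left _ _, (le_max_left _ _).trans (le_max_right _ _),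
      (le_max_right _ _).trans (le_max_right _ _)⟩
  obtain ⟨ε', e0, e1, e2, e3⟩ : ∃ ε' : ℝ, 0 < ε' ∧ ε' ≤ η ∧ (2 * N + 3) * ε' ≤ ε ∧
      M.k * (4 * (N + 2) * ε') ≤ c := by
    refine ⟨min η (min (ε / (2 * N + 3)) (c / (4 * (M.k + 1) * (N + 2)))), by positivity,
      min_le_left _ _, ?_, ?_⟩
    · rw [mul_comm, ← le_div_iff₀ (by positivity)]
      exact (min_le_right _ _).trans (min_le_left _ _)
    · have h4 : min η (min (ε / (2 * N + 3)) (c / (4 * (M.k + 1) * (N + 2)))) ≤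
          c / (4 * (M.k + 1) * (N + 2)) := (min_le_right _ _).trans (min_le_right _ _)
      have h5 : 0 < min η (min (ε / (2 * N + 3)) (c / (4 * (M.k + 1) * (N + 2)))) := by positivity
      rw [le_div_iff₀ (by positivity)] at h4
      nlinarith [mul_nonneg hN h5.le]
  obtain ⟨θ₀, t0, t1, t2⟩ : ∃ θ₀ : ℝ, 0 < θ₀ ∧ θ₀ ≤ 1 ∧ (2 * M.k + 4) * θ₀ < 1 := by
    refine ⟨1 / (2 * M.k + 5), by positivity, ?_, ?_⟩
    · rw [div_le_one (by positivity)]; linarith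
    · rw [mul_one_div, div_lt_one (by positivity)]; linarith
  obtain ⟨θ, s0, s1, s2⟩ : ∃ θ : ℝ, 0 < θ ∧ θ ≤ δ ∧ θ ≤ θ₀ :=
    ⟨min δ θ₀, by positivity, min_le_left _ _, min_le_right _ _⟩
  obtain ⟨δ', d0, d1, d2⟩ : ∃ δ' : ℝ, 0 < δ' ∧ δ' ≤ θ₀ ∧ C3' * (C2 * δ') / θ ≤ θ₀ := by
    have h4 : 1 ≤ C3' * C2 := by nlinarith
    refine ⟨θ * θ₀ / (C3' * C2), by positivity, ?_, le_of_eq ?_⟩
    · rw [div_le_iff₀ (by positivity)]
      nlinarith
    · field_simp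
  have hC₄ : 1 ≤ C₄ := hC₁.trans a1
  obtain ⟨S1, HS1⟩ := HS η C₄ ε' δ' hη hηη hC₄ e0 d0
  obtain ⟨S2, HA⟩ := hA K C C₄ ε' δ' hC₄ e0 d0
  refine ⟨max (max S1 S2) 1, fun R hR φ hφ => ?_⟩
  have hR1 : 1 ≤ R := (le_max_right _ _).trans hR
  have hR0 : 0 < R := by linarith
  obtain ⟨hbig, HSib⟩ := HS1 R (((le_max_left _ _).trans (le_max_left _ _)).trans hR)
  have hDη' : D * η ≤ 4⁻¹ := (mul_le_mul_of_nonneg_left hηη (by linarith)).trans hDη
  have hDη0 : 0 ≤ D * η := by positivity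
  have hρ : 0 ≤ (1 - D * η) * R := mul_nonneg (by linarith) hR0.le
  obtain ⟨L1, L2, L3, L4⟩ := M.cc_Lb hη.le hR0.le
  have hK := M.K_isLB (M.hb 0 R)
  have hKp := M.mE_K_pos (M.hb 0 R)
  have hfin : ∀ (t : ℝ) S, M.mE ((t • M.K (M.hb 0 R)) ∩ S) ≠ ⊤ := fun t S =>
    ne_top_of_le_ne_top (hK.compact.smul t).measure_ne_top (measure_mono Set.inter_subset_left)
  obtain ⟨w, m, hAff⟩ := HA R (((le_max_right _ _).trans (le_max_left _ _)).trans hR) φ hφ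
    (Metric.closedBall 0 ((1 - D * η) * R)) (M.K (M.hb 0 R))
    ⟨convex_closedBall _ _, isCompact_closedBall _ _, Metric.nonempty_closedBall.2 hρ,
      Metric.closedBall_subset_closedBall (mul_le_mul_of_nonneg_right (by linarith) hR0.le),
      hK, M.K_sub_e _, by
        rw [M.h_closedBall 0 hρ]
        refine (M.K_mono fun i _ => ?_).trans (hbig.trans (L2.trans (hK.sc.subset_smul hC₄)))
        exact add_le_add le_rfl (mul_le_mul_of_nonneg_right e1 hR0.le)⟩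
  have A1 : ∀ ζ ∈ M.Z (C₄ * R), ‖M.A ζ‖ ≤ (1 - D * η) * R → M.mE.real (M.K (M.hb 0 R) ∩
      {l | ε' * R < ‖M.A (φ (l * ζ)) - w l (M.A ζ) - m l‖}) ≤
        θ₀ * M.mE.real (M.K (M.hb 0 R)) := by
    intro ζ hζ hζ'
    refine (measureReal_mono (Set.inter_subset_inter_left _ (hK.sc.subset_smul hC₄))
      (hfin _ _)).trans ((hAff.a1 ζ hζ (by simpa using hζ')).trans ?_)
    exact mul_le_mul_of_nonneg_right d1 hKp.le
  have A2 : ∀ ζ ∈ M.Z (C₄ * R), ‖M.A ζ‖ ≤ (1 - D * η) * R → ∀ B, M.IsLB B → B ⊆ M.e →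
      M.K (M.hb 0 R) ⊆ C₁ • B → B ⊆ C₁ • M.K (M.hb 0 ((1 + η) * R)) →
      M.mE.real (M.K (M.hb 0 R) ∩ {k | θ * M.mE.real B < M.mE.real ((C₁ • B) ∩
        {x | N * (ε' * R) < ‖M.A (φ (x * ζ)) - M.A (φ (k * ζ))‖})}) ≤
        θ₀ * M.mE.real (M.K (M.hb 0 R)) := by
    intro ζ hζ hζ' B hB hBe hB1 hB2
    have hF : Measurable fun x => M.A (φ (x * ζ)) :=
      M.lie_cA.measurable.comp (hφ.1.comp (continuous_mul_const _).measurable)
    have h4 := H2 (M.hb 0 ((1 + η) * R)) _ _ (fun x => M.A (φ (x * ζ))) (ε' * R) δ' hK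
      (M.K_sub_e _) L1 L2 L3 L4 hF (by positivity) d0.le (fun i hi τ hτ g => by
        have h5 := HSib _ (MQI.comp_mul_left M hφ g) i hi τ (by
          refine hτ.trans ?_
          simp only [hb, inner_zero_right, zero_add]
          exact mul_le_mul_of_nonneg_right a2 (Real.exp_pos _).le) ζ hζ hζ'
        simpa only [mul_assoc] using h5)
    refine (H3 _ _ B (fun x => M.A (φ (x * ζ))) (N * (ε' * R)) (C2 * δ') θ hK.compact hKp hB hBe
      hB1 hB2 hF (by positivity) s0 h4).trans ?_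
    exact mul_le_mul_of_nonneg_right d2 hKp.le
  let v : Option (Fin M.k) → M.V := fun o =>
    o.elim 0 fun j => (R / 2) • EuclideanSpace.single j 1
  have hv : ∀ o, ‖v o‖ ≤ R / 2 := by
    rintro (_ | j)
    · simp only [v, Option.elim, norm_zero]; positivity
    · simp only [v, Option.elim, norm_smul, PiLp.norm_single, norm_one, mul_one,
        Real.norm_eq_abs]
      rw [abs_of_pos (by positivity)]
  have hz1 : ∀ o, ι (v o) ∈ M.Z (C₄ * R) := fun o => by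
    refine M.Z_mono (by positivity) ?_ (HZ _ (hι0 _))
    have h4 := (hι (v o)).trans (mul_le_mul_of_nonneg_left (hv o) hCι0)
    have h5 := mul_le_mul_of_nonneg_left h4 (by linarith : 0 ≤ CZ)
    have h6 := mul_le_mul_of_nonneg_right a3 hR0.le
    have h7 : 0 ≤ CZ * Cι * R := by positivity
    linarith
  have hz2 : ∀ o, ‖M.A (ι (v o))‖ ≤ (1 - D * η) * R := fun o => by
    rw [hιA]
    refine (hv o).trans ?_
    nlinarith
  have hKK : M.K (M.hb 0 R) ⊆ C₁ • M.K (M.hb 0 ((1 + η) * R)) := by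
    refine (M.K_mono fun i _ => ?_).trans ((M.K_isLB _).sc.subset_smul hC₁)
    have := mul_nonneg (mul_nonneg hη.le hR0.le) (norm_nonneg (M.wt i))
    simp only [hb]
    nlinarith
  obtain ⟨l₀, -, hl₀⟩ := cc_pick (ι := Option (Fin M.k) ⊕ Option (Fin M.k)) M.mE hKp
    (Sum.elim (fun o => {l | ε' * R < ‖M.A (φ (l * ι (v o))) - w l (M.A (ι (v o))) - m l‖})
      (fun o => {k | θ * M.mE.real (M.K (M.hb 0 R)) < M.mE.real ((C₁ • M.K (M.hb 0 R)) ∩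
        {x | N * (ε' * R) < ‖M.A (φ (x * ι (v o))) - M.A (φ (k * ι (v o)))‖})}))
    (θ := θ₀) (by simp; linarith) (by
      rintro (o | o)
      · exact A1 _ (hz1 o) (hz2 o)
      · exact A2 _ (hz1 o) (hz2 o) _ hK (M.K_sub_e _) (hK.sc.subset_smul hC₁) hKK)
  refine ⟨w l₀, hAff.memW l₀, m l₀, fun ζ hζ hζ' B hB hBe hB1 hB2 => ?_⟩
  have hζ4 : ζ ∈ M.Z (C₄ * R) :=
    M.Z_mono (by positivity) (mul_le_mul_of_nonneg_right a1 hR0.le) hζ
  obtain ⟨k, -, hk'⟩ := cc_pick (ι := (Option (Fin M.k) ⊕ Option (Fin M.k)) ⊕ (Unit ⊕ Unit))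
    M.mE hKp (Sum.elim
      (Sum.elim (fun o => {l | ε' * R < ‖M.A (φ (l * ι (v o))) - w l (M.A (ι (v o))) - m l‖})
        (fun o => {x | N * (ε' * R) < ‖M.A (φ (x * ι (v o))) - M.A (φ (l₀ * ι (v o)))‖}))
      (Sum.elim (fun _ => {l | ε' * R < ‖M.A (φ (l * ζ)) - w l (M.A ζ) - m l‖})
        (fun _ => {k | θ * M.mE.real B < M.mE.real ((C₁ • B) ∩
          {x | N * (ε' * R) < ‖M.A (φ (x * ζ)) - M.A (φ (k * ζ))‖})})))
    (θ := θ₀) (by simp; linarith) (by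
      rintro ((o | o) | (o | o))
      · exact A1 _ (hz1 o) (hz2 o)
      · refine (measureReal_mono (Set.inter_subset_inter_left _ (hK.sc.subset_smul hC₁))
          (hfin _ _)).trans ((not_lt.1 (hl₀ (Sum.inr o))).trans ?_)
        exact mul_le_mul_of_nonneg_right s2 hKp.le
      · exact A1 _ hζ4 hζ'
      · exact A2 _ hζ4 hζ' B hB hBe hB1 hB2)
  have q : ∀ o, ‖(w k (v o) + m k) - (w l₀ (v o) + m l₀)‖ ≤ 2 * (ε' * R) + N * (ε' * R) := by
    intro o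
    have q1 : ‖M.A (φ (k * ι (v o))) - w k (M.A (ι (v o))) - m k‖ ≤ ε' * R :=
      not_lt.1 (hk' (Sum.inl (Sum.inl o)))
    have q2 : ‖M.A (φ (l₀ * ι (v o))) - w l₀ (M.A (ι (v o))) - m l₀‖ ≤ ε' * R :=
      not_lt.1 (hl₀ (Sum.inl o))
    have q3 : ‖M.A (φ (k * ι (v o))) - M.A (φ (l₀ * ι (v o)))‖ ≤ N * (ε' * R) :=
      not_lt.1 (hk' (Sum.inl (Sum.inr o)))
    rw [hιA] at q1 q2
    exact cc_tri q1 q2 q3
  have qm : ‖m k - m l₀‖ ≤ 2 * (ε' * R) + N * (ε' * R) := by simpa [v] using q none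
  have qw : w k = w l₀ := by
    refine M.cc_eq Hc (hAff.memW k) (hAff.memW l₀) e3 fun j => ?_
    have q1 := q (some j)
    simp only [v, Option.elim, map_smul] at q1
    have e : (R / 2) • (w k (EuclideanSpace.single j 1) - w l₀ (EuclideanSpace.single j 1)) =
        ((R / 2) • w k (EuclideanSpace.single j 1) + m k -
          ((R / 2) • w l₀ (EuclideanSpace.single j 1) + m l₀)) - (m k - m l₀) := by
      rw [smul_sub]; abel
    have q2 := norm_sub_le ((R / 2) • w k (EuclideanSpace.single j 1) + m k -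
          ((R / 2) • w l₀ (EuclideanSpace.single j 1) + m l₀)) (m k - m l₀)
    rw [← e, norm_smul, Real.norm_eq_abs, abs_of_pos (by positivity)] at q2
    refine le_of_mul_le_mul_left ?_ (by positivity : 0 < R / 2)
    linarith
  have q4 : ‖M.A (φ (k * ζ)) - w k (M.A ζ) - m k‖ ≤ ε' * R :=
    not_lt.1 (hk' (Sum.inr (Sum.inl ())))
  have q5 : M.mE.real ((C₁ • B) ∩ {x | N * (ε' * R) < ‖M.A (φ (x * ζ)) - M.A (φ (k * ζ))‖}) ≤
      θ * M.mE.real B := not_lt.1 (hk' (Sum.inr (Sum.inr ())))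
  rw [qw] at q4
  refine (measureReal_mono (Set.inter_subset_inter_right _ fun x hx => ?_)
    (ne_top_of_le_ne_top (hB.compact.smul C₁).measure_ne_top
      (measure_mono Set.inter_subset_left))).trans
    (q5.trans (mul_le_mul_of_nonneg_right s1 measureReal_nonneg))
  by_contra hx'
  have q6 : ‖M.A (φ (x * ζ)) - M.A (φ (k * ζ))‖ ≤ N * (ε' * R) := not_lt.1 hx'
  have q7 : ε * R < ‖M.A (φ (x * ζ)) - w l₀ (M.A ζ) - m l₀‖ := hx
  have e : M.A (φ (x * ζ)) - w l₀ (M.A ζ) - m l₀ = (M.A (φ (x * ζ)) - M.A (φ (k * ζ))) +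
      (M.A (φ (k * ζ)) - w l₀ (M.A ζ) - m k) + (m k - m l₀) := by abel
  rw [e] at q7
  have q8 := q7.trans_le (norm_add₃_le)
  have q9 := mul_le_mul_of_nonneg_right e2 hR0.le
  linarith

end Vale.Agent.P188.Geo
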