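import Vale.Agent.P188.B.Main

/-! Concentration at every scale: averaging lemmas (steps 1 to 3). -/

namespace Vale.Agent.P188.Geo
open scoped InnerProductSpace Pointwise
open MeasureTheory
variable (M : Geo)

theorem cc_avg {X : Type} [MeasurableSpace X] (μ : Measure X) [SFinite μ] {S T : Set X}
    {W : Set (X × X)} (hS : MeasurableSet S) (hT : MeasurableSet T) (hW : MeasurableSet W)
    (fS : μ S ≠ ⊤) (fT : μ T ≠ ⊤) {a b : ℝ} (hb : 0 ≤ b)
    (h1 : ∀ l ∈ S, a ≤ μ.real (T ∩ {k | (k, l) ∈ W}))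
    (h2 : ∀ k ∈ T, μ.real (S ∩ {l | (k, l) ∈ W}) ≤ b) : a * μ.real S ≤ b * μ.real T := by
  rcases le_total a 0 with ha | ha
  · exact (mul_nonpos_of_nonpos_of_nonneg ha measureReal_nonneg).trans
      (mul_nonneg hb measureReal_nonneg)
  have e1 : ENNReal.ofReal a * μ S ≤ ((μ.restrict T).prod (μ.restrict S)) W := by
    rw [Measure.prod_apply_symm hW, ← setLIntegral_const]
    refine setLIntegral_mono' hS fun l hl => ?_
    rw [Measure.restrict_apply' hT, Set.inter_comm]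
    exact (ENNReal.ofReal_le_iff_le_toReal
      (ne_top_of_le_ne_top fT (measure_mono Set.inter_subset_left))).2 (h1 l hl)
  have e2 : ((μ.restrict T).prod (μ.restrict S)) W ≤ ENNReal.ofReal b * μ T := by
    rw [Measure.prod_apply hW, ← setLIntegral_const]
    refine setLIntegral_mono' hT fun k hk => ?_
    rw [Measure.restrict_apply' hS, Set.inter_comm]
    exact (ENNReal.le_ofReal_iff_toReal_le
      (ne_top_of_le_ne_top fS (measure_mono Set.inter_subset_left)) hb).2 (h2 k hk)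
  have := ENNReal.toReal_mono (ENNReal.mul_ne_top ENNReal.ofReal_ne_top fT) (e1.trans e2)
  rwa [ENNReal.toReal_mul, ENNReal.toReal_mul, ENNReal.toReal_ofReal ha,
    ENNReal.toReal_ofReal hb] at this

theorem cc_pick {X ι : Type} [MeasurableSpace X] [Fintype ι] (μ : Measure X) {S : Set X}
    (hp : 0 < μ.real S) (Bad : ι → Set X) {θ : ℝ} (hθ : Fintype.card ι * θ < 1)
    (h : ∀ i, μ.real (S ∩ Bad i) ≤ θ * μ.real S) : ∃ k ∈ S, ∀ i, k ∉ Bad i := by
  by_contra hc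
  push Not at hc
  have e : S = ⋃ i, S ∩ Bad i := by
    ext x
    simp only [Set.mem_iUnion, Set.mem_inter_iff]
    exact ⟨fun hx => (hc x hx).imp fun i hi => ⟨hx, hi⟩, fun ⟨_, hi⟩ => hi.1⟩
  have h1 : μ.real S ≤ ∑ i, μ.real (S ∩ Bad i) := by
    conv_lhs => rw [e]
    exact measureReal_iUnion_fintype_le _
  have h2 := h1.trans (Finset.sum_le_sum fun i _ => h i)
  rw [Finset.sum_const, Finset.card_univ, nsmul_eq_mul] at h2
  nlinarith

instance cc_sf : SFinite M.mE := by unfold mE; infer_instance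
instance cc_fc : IsFiniteMeasureOnCompacts M.mE := by unfold mE; infer_instance

theorem cc_smul {t : ℝ} (ht : 0 < t) (S : Set M.G) :
    M.mE.real (t • S) = t ^ Module.finrank ℝ M.e * M.mE.real S := subMu_real_smul _ t ht S

theorem cc_sub_e {S : Set M.G} (h : S ⊆ M.e) (t : ℝ) : t • S ⊆ M.e := by
  rintro _ ⟨x, hx, rfl⟩
  exact M.e.smul_mem t (h hx)

theorem cc_step1 (C : ℝ) (hC : 0 ≤ C) : ∃ C' : ℝ, 1 ≤ C' ∧ ∀ (K₀ Kp L E : Set M.G) (δ : ℝ),
    M.IsLB K₀ → K₀ ⊆ M.e → M.IsLB L → L ⊆ K₀ → 0 < M.mE.real L → Kp ⊆ M.e →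
    (∀ x ∈ Kp, ∀ y ∈ L, M.B x y ∈ L) → MeasurableSet E → 0 ≤ δ →
    (∀ g, M.mE.real (L ∩ {l | g * l ∈ E}) ≤ δ * M.mE.real L) →
    ∀ p ∈ C • Kp, M.mE.real (K₀ ∩ {k | k * p ∈ E}) ≤ C' * δ * M.mE.real K₀ := by
  obtain ⟨C₂, h2, H2⟩ := M.Ad_mem C hC
  obtain ⟨C₃, h3, H3⟩ := M.mul_mem C₂ (by linarith)
  refine ⟨C₃ ^ Module.finrank ℝ M.e, one_le_pow₀ h3, ?_⟩
  intro K₀ Kp L E δ hK hKe hL hLK hLp hpe hid hE hδ H p hp
  have hpe' : p ∈ M.e := M.cc_sub_e hpe C hp
  have hT : IsCompact (C₃ • K₀) := hK.compact.smul C₃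
  have hW : MeasurableSet {q : M.G × M.G | q.1 * p * q.2 ∈ E} :=
    (by fun_prop : Continuous fun q : M.G × M.G => q.1 * p * q.2).measurable hE
  have key := cc_avg M.mE hL.compact.measurableSet hT.measurableSet hW
    hL.compact.measure_ne_top hT.measure_ne_top (a := M.mE.real (K₀ ∩ {k | k * p ∈ E}))
    (b := δ * M.mE.real L) (mul_nonneg hδ measureReal_nonneg) (fun l hl => ?_)
    (fun k _ => H (k * p))
  · rw [M.cc_smul (by linarith)] at key
    refine le_of_mul_le_mul_right (key.trans (le_of_eq ?_)) hLp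
    ring
  · have hle : l ∈ M.e := hKe (hLK hl)
    have hq : p * l * p⁻¹ ∈ C₂ • K₀ := by
      rw [M.conj_eq (Or.inl (M.A_e hle))]
      exact Set.smul_set_mono hLK (H2 Kp L hL.sc hid p hp (Or.inl (M.A_e hpe')) l hl)
    have hq' : (p * l * p⁻¹)⁻¹ ∈ C₂ • K₀ := M.inv_mem hK.sc (M.tame_of_e hKe) hq
    have hsub : K₀ ∩ {k | k * p ∈ E} ⊆ (fun x => x * (p * l * p⁻¹)⁻¹) ⁻¹'
        ((C₃ • K₀) ∩ {k | (k, l) ∈ {q : M.G × M.G | q.1 * p * q.2 ∈ E}}) := by
      rintro k ⟨hk, hkE⟩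
      refine ⟨H3 K₀ hK (M.tame_of_e hKe) k (hK.sc.subset_smul h2 hk) _ hq', ?_⟩
      show k * (p * l * p⁻¹)⁻¹ * p * l ∈ E
      have : k * (p * l * p⁻¹)⁻¹ * p * l = k * p := by group
      rw [this]
      exact hkE
    have h4 := measure_mono (μ := M.mE) hsub
    rw [M.mE_preimage_mul_right (M.cc_sub_e hKe _ hq')] at h4
    exact ENNReal.toReal_mono
      (ne_top_of_le_ne_top hT.measure_ne_top (measure_mono Set.inter_subset_left)) h4

theorem cc_step2 (C : ℝ) (hC : 0 ≤ C) : ∃ (N : ℕ) (C' C'' : ℝ), 1 ≤ C' ∧ 1 ≤ C'' ∧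
    ∀ (r : Fin M.d → ℝ) (K₀ L : Set M.G) (F : M.G → M.V) (a δ : ℝ),
    M.IsLB K₀ → K₀ ⊆ M.e → M.IsLB L → L ⊆ K₀ → 0 < M.mE.real L →
    (∀ x ∈ M.K r, ∀ y ∈ L, M.B x y ∈ L) → Measurable F → 0 ≤ a → 0 ≤ δ →
    (∀ i, M.wt i ≠ 0 → ∀ τ : ℝ, |τ| ≤ C'' * Real.exp (r i) → ∀ g,
      M.mE.real (L ∩ {l | a < ‖F (g * l * (τ • M.X i)) - F (g * l)‖}) ≤ δ * M.mE.real L) →
    ∀ p ∈ C • M.K r,
      M.mE.real (K₀ ∩ {k | N * a < ‖F (k * p) - F k‖}) ≤ C' * δ * M.mE.real K₀ := by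
  classical
  obtain ⟨N, Cg, hg, Hg⟩ := M.bounded_gen M.d C hC
  obtain ⟨Cp, hp, Hp⟩ := M.prod_mem' Cg (by linarith) N
  obtain ⟨C1, h1, H1⟩ := M.cc_step1 Cp (by linarith)
  refine ⟨N, (N + 1) * C1, Cg, ?_, hg, ?_⟩
  · have : (0 : ℝ) ≤ N := Nat.cast_nonneg N
    nlinarith
  intro r K₀ L F a δ hK hKe hL hLK hLp hid hF ha hδ H p hp
  have hfin : ∀ S, M.mE (K₀ ∩ S) ≠ ⊤ := fun S =>
    ne_top_of_le_ne_top hK.compact.measure_ne_top (measure_mono Set.inter_subset_left)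
  have main : ∀ l : List M.G, l.length ≤ N →
      (∀ t ∈ l, ∃ i, M.wt i ≠ 0 ∧ ∃ τ : ℝ, |τ| ≤ Cg * Real.exp (r i) ∧ t = τ • M.X i) →
      M.mE.real (K₀ ∩ {k | l.length * a < ‖F (k * l.prod) - F k‖}) ≤
        l.length * (C1 * δ * M.mE.real K₀) := by
    intro l
    induction l using List.reverseRecOn with
    | nil => intro _ _; simp
    | append_singleton l t ih =>
      intro hl ht
      rw [List.length_append, List.length_singleton] at hl ⊢
      have ht' : ∀ t ∈ l, ∃ i, M.wt i ≠ 0 ∧ ∃ τ : ℝ, |τ| ≤ Cg * Real.exp (r i) ∧ t = τ • M.X i :=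
        fun s hs => ht s (List.mem_append_left _ hs)
      have ih' := ih (by omega) ht'
      obtain ⟨i, hi, τ, hτ, rfl⟩ := ht t (by simp)
      have hpr : l.prod ∈ Cp • M.K r := by
        refine Hp _ (M.K_isLB r) (M.K_tame r) l (by omega) fun s hs => ?_
        obtain ⟨j, hj, σ, hσ, rfl⟩ := ht' s hs
        refine ⟨(σ / Cg) • M.X j, M.X_mem_K hj ?_, ?_⟩
        · rw [abs_div, abs_of_pos (by linarith : (0 : ℝ) < Cg), div_le_iff₀ (by linarith)]
          linarith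
        · show Cg • (σ / Cg) • M.X j = _
          rw [smul_smul, mul_div_cancel₀ _ (by linarith : Cg ≠ 0)]
      have hE : MeasurableSet {x : M.G | a < ‖F (x * (τ • M.X i)) - F x‖} :=
        measurableSet_lt measurable_const
          ((hF.comp (continuous_mul_const _).measurable).sub hF).norm
      have s1 := H1 K₀ (M.K r) L _ δ hK hKe hL hLK hLp (M.K_sub_e r) hid hE hδ
        (fun g => H i hi τ hτ g) _ hpr
      have hsub : K₀ ∩ {k | ((l.length + 1 : ℕ) : ℝ) * a < ‖F (k * (l ++ [τ • M.X i]).prod) - F k‖} ⊆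
          (K₀ ∩ {k | l.length * a < ‖F (k * l.prod) - F k‖}) ∪
            (K₀ ∩ {k | k * l.prod ∈ {x : M.G | a < ‖F (x * (τ • M.X i)) - F x‖}}) := by
        rintro k ⟨hk, hk2⟩
        by_contra hc
        simp only [Set.mem_union, Set.mem_inter_iff, Set.mem_ofPred_eq, hk, true_and, not_or,
          not_lt] at hc
        simp only [Set.mem_ofPred_eq, List.prod_append, List.prod_singleton, ← mul_assoc] at hk2
        have := norm_sub_le_norm_sub_add_norm_sub (F (k * l.prod * (τ • M.X i))) (F (k * l.prod))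
          (F k)
        push_cast at hk2
        linarith [hc.1, hc.2]
      refine (measureReal_mono hsub (measure_union_ne_top (hfin _) (hfin _))).trans ?_
      refine (measureReal_union_le _ _).trans ?_
      push_cast
      linarith
  have e : (((Finset.univ.filter fun i => M.wt i ≠ 0).image
      fun i => Real.exp (r i) • M.X i : Finset M.G) : Set M.G) =
      {y | ∃ i, M.wt i ≠ 0 ∧ y = Real.exp (r i) • M.X i} := by
    ext y
    simp [eq_comm]
  obtain ⟨l, hl, hl2, rfl⟩ := Hg ((Finset.univ.filter fun i => M.wt i ≠ 0).image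
      fun i => Real.exp (r i) • M.X i)
    (Finset.card_image_le.trans ((Finset.card_filter_le _ _).trans (by simp)))
    (by rw [e]; exact Tame.mono M (M.K_tame r) (M.subset_gen _)) p (by rw [e]; exact hp)
  have hm := main (l.map fun p => p.1 • p.2) (by simpa using hl) (by
    intro t ht
    obtain ⟨q, hq, rfl⟩ := List.mem_map.1 ht
    obtain ⟨h3, h4⟩ := hl2 q hq
    rw [← Finset.mem_coe, e] at h4
    obtain ⟨i, hi, h5⟩ := h4
    refine ⟨i, hi, q.1 * Real.exp (r i), ?_, by rw [h5, smul_smul]⟩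
    rw [abs_mul, abs_of_pos (Real.exp_pos _)]
    exact mul_le_mul_of_nonneg_right h3 (Real.exp_pos _).le)
  rw [List.length_map] at hm
  have hl' : (l.length : ℝ) ≤ N := by exact_mod_cast hl
  have h0 : 0 ≤ C1 * δ * M.mE.real K₀ :=
    mul_nonneg (mul_nonneg (by linarith) hδ) measureReal_nonneg
  refine (measureReal_mono (Set.inter_subset_inter_right _ fun k hk => ?_) (hfin _)).trans
    (hm.trans ?_)
  · exact lt_of_le_of_lt (mul_le_mul_of_nonneg_right hl' ha) hk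
  · nlinarith

theorem cc_step3 (C₁ : ℝ) (hC : 1 ≤ C₁) : ∃ C' C'' : ℝ, 1 ≤ C' ∧ 1 ≤ C'' ∧
    ∀ (K₀ Kp B : Set M.G) (F : M.G → M.V) (a δ θ : ℝ), IsCompact K₀ → 0 < M.mE.real K₀ →
    M.IsLB B → B ⊆ M.e → K₀ ⊆ C₁ • B → B ⊆ C₁ • Kp → Measurable F → 0 ≤ δ → 0 < θ →
    (∀ p ∈ C' • Kp, M.mE.real (K₀ ∩ {k | a < ‖F (k * p) - F k‖}) ≤ δ * M.mE.real K₀) →
    M.mE.real (K₀ ∩ {k | θ * M.mE.real B < M.mE.real ((C₁ • B) ∩ {x | a < ‖F x - F k‖})}) ≤
      C'' * δ / θ * M.mE.real K₀ := by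
  obtain ⟨C₃, h3, H3⟩ := M.mul_mem C₁ (by linarith)
  refine ⟨C₃ * C₁, C₃ ^ Module.finrank ℝ M.e, by nlinarith, one_le_pow₀ h3, ?_⟩
  intro K₀ Kp B F a δ θ hK hKp hB hBe hKB hBK hF hδ hθ H
  have hT : IsCompact (C₃ • B) := hB.compact.smul C₃
  have hT1 : IsCompact (C₁ • B) := hB.compact.smul C₁
  have hBp : 0 < M.mE.real B := by
    have h1 := measureReal_mono (μ := M.mE) hKB hT1.measure_ne_top
    rw [M.cc_smul (by linarith)] at h1
    exact pos_of_mul_pos_left (by rw [mul_comm]; exact hKp.trans_le h1) (by positivity)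
  have hW : MeasurableSet {q : M.G × M.G | a < ‖F (q.2 * q.1) - F q.2‖} :=
    measurableSet_lt measurable_const
      ((hF.comp (by fun_prop : Continuous fun q : M.G × M.G => q.2 * q.1).measurable).sub
        (hF.comp measurable_snd)).norm
  have hW' : MeasurableSet {q : M.G × M.G | q.2 ∈ C₁ • B ∧ a < ‖F q.2 - F q.1‖} :=
    (measurable_snd hT1.measurableSet).inter (measurableSet_lt measurable_const
      ((hF.comp measurable_snd).sub (hF.comp measurable_fst)).norm)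
  have hS : MeasurableSet
      (K₀ ∩ {k | θ * M.mE.real B < M.mE.real ((C₁ • B) ∩ {x | a < ‖F x - F k‖})}) :=
    hK.measurableSet.inter (measurableSet_lt measurable_const
      (measurable_measure_prodMk_left (ν := M.mE) hW').ennreal_toReal)
  have key := cc_avg M.mE hS hT.measurableSet hW
    (ne_top_of_le_ne_top hK.measure_ne_top (measure_mono Set.inter_subset_left))
    hT.measure_ne_top (a := θ * M.mE.real B)
    (b := δ * M.mE.real K₀) (mul_nonneg hδ measureReal_nonneg) (fun k hk => ?_) (fun p hp => ?_)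
  · rw [M.cc_smul (by linarith)] at key
    rw [div_mul_eq_mul_div, le_div_iff₀ hθ]
    refine le_of_mul_le_mul_right (le_trans (le_of_eq ?_) (key.trans (le_of_eq ?_))) hBp <;> ring
  · refine hk.2.le.trans ?_
    have hk1 : k⁻¹ ∈ C₁ • B := M.inv_mem hB.sc (M.tame_of_e hBe) (hKB hk.1)
    have hsub : (C₁ • B) ∩ {x | a < ‖F x - F k‖} ⊆ (fun x => k⁻¹ * x) ⁻¹'
        ((C₃ • B) ∩ {p | (p, k) ∈ {q : M.G × M.G | a < ‖F (q.2 * q.1) - F q.2‖}}) := by
      rintro x ⟨hx, hx2⟩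
      refine ⟨H3 B hB (M.tame_of_e hBe) _ hk1 _ hx, ?_⟩
      show a < ‖F (k * (k⁻¹ * x)) - F k‖
      rw [mul_inv_cancel_left]
      exact hx2
    have h4 := measure_mono (μ := M.mE) hsub
    rw [M.mE_preimage_mul_left (M.cc_sub_e hBe _ hk1)] at h4
    exact ENNReal.toReal_mono
      (ne_top_of_le_ne_top hT.measure_ne_top (measure_mono Set.inter_subset_left)) h4
  · have hp' : p ∈ (C₃ * C₁) • Kp := by
      rw [mul_smul]
      exact Set.smul_set_mono hBK hp
    refine (measureReal_mono ?_ (ne_top_of_le_ne_top hK.measure_ne_top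
      (measure_mono Set.inter_subset_left))).trans (H p hp')
    exact fun k hk => ⟨hk.1.1, hk.2⟩

end Vale.Agent.P188.Geo
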