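import Vale.Agent.P188.AffDefs

/-! From height affinity to containment of displacements.
Plan for `cont`: write `y` as a product of at most `N` letters `t_j = τ_j • exp (h Ω' i_j) • X i_j`
(`bounded_gen`), `y_j` the partial products (in `C' • K (h Ω')`, `prod_mem'`).  The letter `t_j`
is a jump of length `O (log S)` at the position `ζ_j = ι v_j`, `v_j ∈ Ω'` maximising the weight
(`exists_h`, `exists_sec`, `ln_conj_K`).  Join two positions `ζ, ζ'` by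
`ζ * ((k / M') • x)`, `x = ζ⁻¹ * ζ' ∈ Z (C S)`, heights in `Ω'` by convexity, steps
`(1 / M') • x` of length `≤ ε' S` (`pow_smul_Z_subset`, `ln_Z`).  All the finitely many path
points `l * y_j * ζ_k` are good outside a union of `a1`-bad sets (translated by `y_j`,
`mE_preimage_mul_right`, `mul_mem`) and `a2`-bad sets.  Apply `path_nf` to the image path. -/

namespace Vale.Agent.P188.Geo
open scoped InnerProductSpace Pointwise
open MeasureTheory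
variable (M : Geo)

/-- chains with exactly `n` steps -/
def ContCh {α : Type} (R : α → α → Prop) : ℕ → α → α → Prop
  | 0, a, b => a = b
  | n + 1, a, b => ∃ c, ContCh R n a c ∧ R c b

theorem ContCh.trans {α : Type} {R : α → α → Prop} {m n : ℕ} {a b c : α} (h : ContCh R m a b)
    (h' : ContCh R n b c) : ContCh R (m + n) a c := by
  induction n generalizing c with
  | zero => exact h' ▸ h
  | succ n ih =>
    obtain ⟨d, h1, h2⟩ := h'
    exact ⟨d, ih h1, h2⟩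

theorem ContCh.of_fun {α : Type} {R : α → α → Prop} (q : ℕ → α) (n : ℕ)
    (h : ∀ k < n, R (q k) (q (k + 1))) : ContCh R n (q 0) (q n) := by
  induction n with
  | zero => rfl
  | succ n ih => exact ⟨q n, ih fun k hk => h k (by omega), h n (by omega)⟩

theorem ContCh.to_fun {α : Type} {R : α → α → Prop} {n : ℕ} {a b : α} (h : ContCh R n a b) :
    ∃ q : ℕ → α, q 0 = a ∧ q n = b ∧ ∀ k < n, R (q k) (q (k + 1)) := by
  induction n generalizing b with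
  | zero => exact ⟨fun _ => a, rfl, h, fun k hk => absurd hk (by omega)⟩
  | succ n ih =>
    obtain ⟨c, h1, h2⟩ := h
    obtain ⟨q, q0, q1, q2⟩ := ih h1
    refine ⟨fun k => if k ≤ n then q k else b, by simpa using q0, by simp, fun k hk => ?_⟩
    simp only [if_pos (Nat.le_of_lt_succ hk)]
    split_ifs with h3
    · exact q2 k h3
    · rwa [show k = n by omega, q1]

theorem cont_log (A B a ε : ℝ) (hB : 0 ≤ B) (ha : 0 ≤ a) (hε : 0 < ε) :
    ∃ S₀ : ℝ, ∀ S, S₀ ≤ S → A + B * Real.log (2 + a * S) ≤ ε * S := by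
  obtain ⟨θ, hθ, h1⟩ : ∃ θ : ℝ, 0 < θ ∧ B * a * θ ≤ ε / 2 :=
    ⟨ε / 2 / (B * a + 1), by positivity, by
      rw [← mul_div_assoc, div_le_iff₀ (by positivity)]; nlinarith⟩
  refine ⟨max 0 ((A + B * (2 * θ - Real.log θ)) / (ε / 2)), fun S hS => ?_⟩
  have h0 : 0 ≤ S := (le_max_left _ _).trans hS
  have h2 := (div_le_iff₀ (by positivity)).1 ((le_max_right _ _).trans hS)
  have h3 := Real.log_le_sub_one_of_pos (show 0 < θ * (2 + a * S) by positivity)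
  rw [Real.log_mul hθ.ne' (by positivity)] at h3
  have h4 : Real.log (2 + a * S) ≤ 2 * θ - Real.log θ + a * θ * S := by linarith
  nlinarith [mul_le_mul_of_nonneg_left h4 hB, mul_le_mul_of_nonneg_right h1 h0]

theorem cont_seg (η : ℝ) (hη : 0 < η) : ∃ (C : ℝ) (n : ℕ), 1 ≤ C ∧ ∀ (ρ : ℝ) (Ω : Set M.V),
    0 ≤ ρ → Convex ℝ Ω → ∀ ζ ∈ M.Z ρ, ∀ ζ' ∈ M.Z ρ, M.A ζ ∈ Ω → M.A ζ' ∈ Ω →
      ContCh (fun a b => b ∈ M.Z (C * ρ) ∧ M.A b ∈ Ω ∧ M.ln (a⁻¹ * b) ≤ η * ρ + C) n ζ ζ' := by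
  obtain ⟨Cm, hm, Hm⟩ := M.Z_mul
  obtain ⟨Cz, hz, Hz⟩ := M.ln_Z
  obtain ⟨t, t0, t1, t2⟩ : ∃ t : ℝ, 0 < t ∧ t ≤ 1 ∧ Cz * Cm * t ≤ η :=
    ⟨min 1 (η / (Cz * Cm)), by positivity, min_le_left _ _, by
      rw [← le_div_iff₀' (by positivity)]; exact min_le_right _ _⟩
  obtain ⟨n, hn⟩ := exists_nat_one_div_lt (show 0 < t ^ M.c by positivity)
  refine ⟨Cm * Cm + Cz, n + 1, by nlinarith, fun ρ Ω hρ hΩ ζ hζ ζ' hζ' h1 h2 => ?_⟩
  have hx := Hm ρ hρ _ (M.Z_inv hζ) _ hζ'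
  have hu := M.Z_sub_u0 _ hx
  have hN : (0 : ℝ) < n + 1 := by positivity
  have key := ContCh.of_fun (R := fun a b => b ∈ M.Z ((Cm * Cm + Cz) * ρ) ∧ M.A b ∈ Ω ∧
    M.ln (a⁻¹ * b) ≤ η * ρ + (Cm * Cm + Cz))
    (fun k : ℕ => ζ * (((k : ℝ) / (n + 1)) • (ζ⁻¹ * ζ'))) (n + 1) fun k hk => ?_
  · simp only [Nat.cast_zero, zero_div, zero_smul, Nat.cast_succ, div_self hN.ne', one_smul,
      mul_inv_cancel_left] at key
    rwa [← M.one_def, mul_one] at key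
  have hk0 : (0 : ℝ) ≤ ((k + 1 : ℕ) : ℝ) / (n + 1) := by positivity
  have hk1 : ((k + 1 : ℕ) : ℝ) / (n + 1) ≤ 1 := by
    rw [div_le_one hN]; exact_mod_cast hk
  refine ⟨M.Z_mono (by positivity) (by nlinarith) (Hm (Cm * ρ) (by positivity) _
    (M.Z_mono hρ (by nlinarith) hζ) _ ((M.Z_isLB _).sc.smul_mem hx (by rwa [abs_of_nonneg hk0]))),
    ?_, ?_⟩
  · rw [M.A_mul, map_smul, M.A_mul, M.A_inv, neg_add_eq_sub]
    exact hΩ.add_smul_sub_mem h1 h2 ⟨hk0, hk1⟩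
  · rw [mul_inv_rev, mul_assoc, inv_mul_cancel_left, M.inv_eq_neg (Or.inr (M.u0.smul_mem _ hu)),
      ← neg_smul, M.smul_mul_smul (Or.inr hu)]
    have e : -((k : ℝ) / (n + 1)) + ((k + 1 : ℕ) : ℝ) / (n + 1) = 1 / (n + 1) := by
      push_cast; ring
    rw [e]
    have h3 := Hz _ (by positivity) _ (M.pow_smul_Z_subset t0.le t1 ((M.Z_isLB _).sc.smul_mono
      (s := 1 / (n + 1)) (by rw [abs_of_nonneg (by positivity)]; exact hn.le)
      (Set.smul_mem_smul_set hx)))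
    nlinarith [mul_le_mul_of_nonneg_right t2 hρ]

theorem cont_geo (C₁ η : ℝ) (hC₁ : 1 ≤ C₁) (hη : 0 < η) : ∃ (D : ℝ) (L₀ : ℕ), C₁ ≤ D ∧
    ∀ (S : ℝ) (Ω : Set M.V), 0 ≤ S → Convex ℝ Ω → IsCompact Ω →
      Ω ⊆ Metric.closedBall 0 (C₁ * S) → ∀ ζ ∈ M.Z (C₁ * S), M.A ζ ∈ Ω →
      ∀ y ∈ C₁ • M.K (M.h Ω), ∃ L ≤ L₀, ∃ q : ℕ → M.G × M.G, q 0 = (1, ζ) ∧ q L = (y, ζ) ∧
        (∀ k ≤ L, (q k).1 ∈ D • M.K (M.h Ω) ∧ (q k).2 ∈ M.Z (D * S) ∧ M.A (q k).2 ∈ Ω) ∧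
        ∀ k < L, M.ln (((q k).1 * (q k).2)⁻¹ * ((q (k + 1)).1 * (q (k + 1)).2)) ≤
          η * S + D + D * Real.log (2 + D * S) := by
  classical
  obtain ⟨ι, hι1, hι2⟩ := M.exists_sec
  obtain ⟨C0, h0, H0⟩ := M.mem_Z
  obtain ⟨b, hb0, hb⟩ : ∃ b : ℝ, 0 ≤ b ∧ ∀ v, ‖ι v‖ ≤ b * ‖v‖ :=
    ⟨_, (LinearMap.toContinuousLinearMap ι).opNorm_nonneg,
      (LinearMap.toContinuousLinearMap ι).le_opNorm⟩
  obtain ⟨a, ha1, ha2⟩ : ∃ a : ℝ, C₁ ≤ a ∧ C0 * b * C₁ ≤ a := ⟨_, le_max_left _ _, le_max_right _ _⟩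
  obtain ⟨N, Cb, hCb, Hb⟩ := M.bounded_gen M.d C₁ (by linarith)
  obtain ⟨Cq, hq, Hq⟩ := M.prod_mem' Cb (by linarith) N
  obtain ⟨Cc, hc, Hc⟩ := M.ln_conj_K Cb (by linarith)
  obtain ⟨Cs, n, hs, Hs⟩ := M.cont_seg (η / a) (div_pos hη (by linarith))
  obtain ⟨D, d1, d2, d3⟩ : ∃ D : ℝ, Cs * a ≤ D ∧ Cq ≤ D ∧ Cc ≤ D :=
    ⟨max (Cs * a) (max Cq Cc), le_max_left _ _, le_max_of_le_right (le_max_left _ _),
      le_max_of_le_right (le_max_right _ _)⟩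
  have d4 : a ≤ D := by nlinarith
  have d5 : Cs ≤ D := by nlinarith
  refine ⟨D, (n + 1 + n) * N, by linarith, fun S Ω hS hΩ hΩ' hbd ζ hζ hA y hy => ?_⟩
  have he : (((Finset.univ.filter fun i => M.wt i ≠ 0).image
      fun i => Real.exp (M.h Ω i) • M.X i : Finset M.G) : Set M.G) =
      {y | ∃ i, M.wt i ≠ 0 ∧ y = Real.exp (M.h Ω i) • M.X i} := by
    ext y
    simp [eq_comm]
  obtain ⟨l, h1, h2, h3⟩ := Hb _
    (Finset.card_image_le.trans ((Finset.card_filter_le _ _).trans (by simp)))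
    (he ▸ Tame.mono M (M.K_tame (M.h Ω)) (M.subset_gen _)) y (he ▸ hy)
  have hl : ∀ x ∈ l.map fun p => p.1 • p.2, ∃ (t : ℝ) (i : Fin M.d), |t| ≤ Cb ∧ M.wt i ≠ 0 ∧
      x = t • Real.exp (M.h Ω i) • M.X i := fun x hx => by
    obtain ⟨p, hp, rfl⟩ := List.mem_map.1 hx
    have h5 : p.2 ∈ {y | ∃ i, M.wt i ≠ 0 ∧ y = Real.exp (M.h Ω i) • M.X i} := he ▸ (h2 p hp).2
    obtain ⟨i, hi, h6⟩ := h5
    exact ⟨p.1, i, (h2 p hp).1, hi, by rw [h6]⟩
  have h1' : (l.map fun p => p.1 • p.2).length ≤ N := by rwa [List.length_map]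
  generalize (l.map fun p => p.1 • p.2) = u at h3 hl h1'
  have hK : ∀ (r : Fin M.d → ℝ) (t : ℝ) (i : Fin M.d), |t| ≤ Cb → M.wt i ≠ 0 →
      t • Real.exp (r i) • M.X i ∈ Cb • M.K r := fun r t i ht hi =>
    (M.K_isLB r).sc.smul_mono ht (Set.smul_mem_smul_set
      (M.X_mem_K hi (abs_of_pos (Real.exp_pos _)).le))
  have hy' : ∀ j, (u.take j).prod ∈ D • M.K (M.h Ω) := fun j =>
    (M.K_isLB _).sc.smul_mono (by rwa [abs_of_nonneg (by linarith)])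
      (Hq _ (M.K_isLB _) (M.K_tame _) _ ((List.length_take_le' _ _).trans h1') fun x hx => by
        obtain ⟨t, i, ht, hi, rfl⟩ := hl x (List.mem_of_mem_take hx)
        exact hK _ t i ht hi)
  have haS : 0 ≤ a * S := by nlinarith
  have haD : a * S ≤ D * S := mul_le_mul_of_nonneg_right d4 hS
  have hL := len_log (haS.trans haD)
  have hζa : ζ ∈ M.Z (a * S) := M.Z_mono (by positivity) (mul_le_mul_of_nonneg_right ha1 hS) hζ
  let R : M.G × M.G → M.G × M.G → Prop := fun p p' => (p'.1 ∈ D • M.K (M.h Ω) ∧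
    p'.2 ∈ M.Z (D * S) ∧ M.A p'.2 ∈ Ω) ∧ M.ln ((p.1 * p.2)⁻¹ * (p'.1 * p'.2)) ≤
      η * S + D + D * Real.log (2 + D * S)
  have seg : ∀ x ∈ D • M.K (M.h Ω), ∀ z ∈ M.Z (a * S), ∀ z' ∈ M.Z (a * S), M.A z ∈ Ω →
      M.A z' ∈ Ω → ContCh R n (x, z) (x, z') := fun x hx z hz z' hz' e e' => by
    obtain ⟨q, rfl, rfl, q2⟩ := (Hs _ Ω haS hΩ z hz z' hz' e e').to_fun
    refine ContCh.of_fun (fun k => (x, q k)) n fun k hk => ?_
    obtain ⟨q3, q4, q5⟩ := q2 k hk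
    refine ⟨⟨hx, M.Z_mono (by positivity) (by nlinarith) q3, q4⟩, ?_⟩
    simp only [mul_inv_rev, mul_assoc, inv_mul_cancel_left]
    rw [← mul_assoc, div_mul_cancel₀ _ (by linarith)] at q5
    nlinarith
  have ch : ∀ j ≤ u.length, ContCh R ((n + 1 + n) * j) (1, ζ) ((u.take j).prod, ζ) := by
    intro j
    induction j with
    | zero => exact fun _ => rfl
    | succ j ih =>
      intro hj
      obtain ⟨t, i, ht, hi, e⟩ := hl _ (List.getElem_mem hj)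
      obtain ⟨v, hv, ev⟩ := M.exists_h hΩ' ⟨_, hA⟩ i
      have hv' : ι v ∈ M.Z (a * S) := by
        refine M.Z_mono (by positivity) ?_ (H0 _ (hι1 v))
        have h4 := mem_closedBall_zero_iff.1 (hbd hv)
        have h5 := (hb v).trans (mul_le_mul_of_nonneg_left h4 hb0)
        nlinarith [mul_le_mul_of_nonneg_left h5 (by linarith : 0 ≤ C0),
          mul_le_mul_of_nonneg_right ha2 hS]
      have hvA : M.A (ι v) ∈ Ω := (hι2 v).symm ▸ hv
      refine (ih (by omega)).trans (ContCh.trans ⟨_, seg _ (hy' j) _ hζa _ hv' hA hvA,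
        ⟨hy' (j + 1), M.Z_mono haS haD hv', hvA⟩, ?_⟩ (seg _ (hy' (j + 1)) _ hv' _ hζa hvA hA))
      have h4 := Hc (M.wv v) _ 0 haS le_rfl (M.wv_wtFun v) _ hv'
        (fun k _ => by rw [hι2, add_zero]) _ (hK _ t i ht hi)
      rw [← ev, ← e, zero_add] at h4
      have h5 : Real.log (2 + a * S) ≤ Real.log (2 + D * S) :=
        Real.log_le_log (by positivity) (by linarith)
      simp only [List.prod_take_succ _ _ hj, mul_inv_rev, mul_assoc, inv_mul_cancel_left]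
      rw [mul_assoc] at h4
      nlinarith [mul_nonneg hη.le hS]
  obtain ⟨q, q0, q1, q2⟩ := (ch _ le_rfl).to_fun
  refine ⟨_, Nat.mul_le_mul_left _ h1', q, q0, by rw [q1, List.take_length, h3], fun k hk => ?_,
    fun k hk => (q2 k hk).2⟩
  rcases k with _ | k
  · rw [q0]
    exact ⟨hy' 0, M.Z_mono haS haD hζa, hA⟩
  · exact (q2 k hk).1

theorem cont_path : ∃ C : ℝ, 1 ≤ C ∧ ∀ (q : ℕ → M.G) (L : ℕ) (ℓ : ℝ) (r : Fin M.d → ℝ), 1 ≤ ℓ →
    M.WtFun r → (∀ k < L, M.ln ((q k)⁻¹ * q (k + 1)) ≤ ℓ) →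
    (∀ k ≤ L, ∀ i, M.wt i ≠ 0 → M.wv (M.A (q k) - M.A (q 0)) i ≤ r i) →
    (q 0)⁻¹ * q L ∈ M.K (fun i => r i + C * (ℓ + Real.log (1 + L))) * M.Z (C * ℓ * (1 + L)) := by
  obtain ⟨C, hC, H⟩ := M.path_nf
  refine ⟨C, hC, fun q L ℓ r hℓ hr h1 h2 => ?_⟩
  have tel : ∀ j, ((List.range j).map fun k => (q k)⁻¹ * q (k + 1)).prod = (q 0)⁻¹ * q j := by
    intro j
    induction j with
    | zero => simp
    | succ j ih => rw [List.range_succ, List.map_append, List.prod_append, ih]; simp [mul_assoc]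
  obtain ⟨x, hx, z, hz, e⟩ := H ((List.range L).map fun k => (q k)⁻¹ * q (k + 1)) ℓ r hℓ hr
    (fun b hb => by
      obtain ⟨k, hk, rfl⟩ := List.mem_map.1 hb
      exact h1 k (List.mem_range.1 hk))
    (fun j hj i hi => by
      rw [List.length_map, List.length_range] at hj
      rw [← List.map_take, List.take_range, min_eq_left hj, tel, M.A_mul, M.A_inv, neg_add_eq_sub]
      exact h2 j hj i hi)
  rw [List.length_map, List.length_range] at hx hz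
  rw [← tel, e]
  exact Set.mul_mem_mul hx hz

theorem cont_fin {B : Set M.G} (hB : M.IsLB B) (t : ℝ) (T : Set M.G) : M.mE ((t • B) ∩ T) ≠ ⊤ :=
  ((measure_mono Set.inter_subset_left).trans_lt
    ((hB.compact.smul t).measure_lt_top (μ := subMu M.e))).ne

theorem cont_mono {B : Set M.G} (hB : M.IsLB B) {t t' δ δ' : ℝ} (h0 : 0 ≤ t') (h : t' ≤ t)
    (hδ : δ ≤ δ') {T T' : Set M.G} (hT : T' ⊆ T)
    (H : M.mE.real ((t • B) ∩ T) ≤ δ * M.mE.real B) :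
    M.mE.real ((t' • B) ∩ T') ≤ δ' * M.mE.real B :=
  (measureReal_mono (Set.inter_subset_inter (hB.sc.smul_mono (by rwa [abs_of_nonneg h0])) hT)
    (M.cont_fin hB t T)).trans (H.trans (mul_le_mul_of_nonneg_right hδ measureReal_nonneg))

theorem Adm.mono {Ω S C₁ ε B C₁' ε'} (h : M.Adm Ω S C₁ ε B) (hS : 0 ≤ S) (h0 : 0 ≤ C₁)
    (hC : C₁ ≤ C₁') (hε : ε' ≤ ε) : M.Adm Ω S C₁' ε' B :=
  ⟨h.convex, h.compact, h.nonempty,
    h.bdd.trans (Metric.closedBall_subset_closedBall (mul_le_mul_of_nonneg_right hC hS)),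
    h.lb, h.sub, ((M.K_mono fun i _ => by
      linarith [mul_le_mul_of_nonneg_right hε hS]).trans h.big).trans
      (h.lb.sc.smul_mono (by rwa [abs_of_nonneg h0]))⟩

theorem Aff0.mono {φ Ω S C₁ ε δ B w m C₁' ε' δ'} (h : M.Aff0 φ Ω S C₁ ε δ B w m) (hB : M.IsLB B)
    (hS : 0 ≤ S) (h0 : 0 ≤ C₁') (hC : C₁' ≤ C₁) (hε : ε ≤ ε') (hδ : δ ≤ δ') :
    M.Aff0 φ Ω S C₁' ε' δ' B w m := by
  have h1 := mul_le_mul_of_nonneg_right hε hS
  refine ⟨h.memW, h.meas_w, h.meas_m, fun ζ hζ hA => M.cont_mono hB h0 hC hδ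
    (fun l hl => h1.trans_lt hl) (h.a1 ζ (M.Z_mono (mul_nonneg h0 hS)
      (mul_le_mul_of_nonneg_right hC hS) hζ) hA), fun y hy => M.cont_mono hB h0 hC hδ
    (fun l hl => Or.imp_right h1.trans_lt hl)
    (h.a2 y ((M.K_isLB _).sc.smul_mono (by rwa [abs_of_nonneg h0]) hy))⟩

theorem Aff.mono {φ Ω S C₁ ε δ B w m C₁' ε' δ'} (h : M.Aff φ Ω S C₁ ε δ B w m) (hB : M.IsLB B)
    (hS : 0 ≤ S) (h0 : 0 ≤ C₁') (hC : C₁' ≤ C₁) (hε : ε ≤ ε') (hδ : δ ≤ δ') :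
    M.Aff φ Ω S C₁' ε' δ' B w m := by
  have h1 := mul_le_mul_of_nonneg_right hε hS
  refine ⟨Aff0.mono M h.toAff0 hB hS h0 hC hε hδ, fun Ω' a1 a2 a3 ζ hζ hA y hy =>
    M.cont_mono hB h0 hC hδ ?_ (h.a3 Ω' a1 a2 a3 ζ (M.Z_mono
      (mul_nonneg h0 hS) (mul_le_mul_of_nonneg_right hC hS) hζ) hA y
      ((M.K_isLB _).sc.smul_mono (by rwa [abs_of_nonneg h0]) hy))⟩
  exact fun l hl hl' => hl (Set.mul_subset_mul_right (M.K_mono fun i _ => by linarith) hl')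

theorem cont (K C C₁ ε δ : ℝ) (hC₁ : 1 ≤ C₁) (hε : 0 < ε) (hδ : 0 < δ) :
    ∃ C₁' ε' δ' S₀ : ℝ, C₁ ≤ C₁' ∧ 0 < ε' ∧ ε' ≤ ε ∧ 0 < δ' ∧ ∀ S : ℝ, S₀ ≤ S →
      ∀ φ, M.MQI K C φ → ∀ Ω B, M.Adm Ω S C₁ ε B → ∀ w m, M.Aff0 φ Ω S C₁' ε' δ' B w m →
        M.Aff φ Ω S C₁ ε δ B w m := by
  by_cases hK : 1 ≤ K ∧ 0 ≤ C
  swap
  · exact ⟨C₁, ε, δ, 0, le_rfl, hε, le_rfl, hδ, fun S _ φ hφ => absurd ⟨hφ.2.1, hφ.2.2.1⟩ hK⟩
  obtain ⟨hK, hC⟩ := hK
  obtain ⟨Cp, hp, Hp⟩ := M.cont_path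
  obtain ⟨D, L₀, hD, HD⟩ := M.cont_geo C₁ (ε / 4 / (Cp * K)) hC₁ (by positivity)
  obtain ⟨Cu, hu, Hu⟩ := M.mul_mem (D * C₁) (by nlinarith)
  obtain ⟨S₁, H1⟩ := cont_log (Cp * (K * D + C + 1 + Real.log (1 + L₀))) (Cp * K * D) D (ε / 2)
    (by have : 0 ≤ D := by linarith
        positivity) (by linarith) (by positivity)
  have hw0 : 0 ≤ M.wmax := Finset.sum_nonneg fun _ _ => norm_nonneg _
  obtain ⟨ε', e0, e1, e2⟩ : ∃ ε' : ℝ, 0 < ε' ∧ ε' ≤ ε ∧ 4 * ε' * M.wmax ≤ ε / 4 :=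
    ⟨ε / (16 * (M.wmax + 1)), by positivity, div_le_self hε.le (by linarith), by
      rw [mul_right_comm, ← mul_div_assoc, div_le_iff₀ (by positivity)]; nlinarith⟩
  have hL0 : (0 : ℝ) < 2 * (L₀ + 1) := by positivity
  refine ⟨max D Cu, ε', δ / (2 * (L₀ + 1)), max (max 0 S₁) (ε * (1 + L₀)),
    hD.trans (le_max_left _ _), e0, e1, by positivity, fun S hS φ hφ Ω B hA w m H => ?_⟩
  have hS0 : 0 ≤ S := ((le_max_left _ _).trans (le_max_left _ _)).trans hS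
  have hS1 := H1 S (((le_max_right _ _).trans (le_max_left _ _)).trans hS)
  have hS2 : ε * (1 + L₀) ≤ S := (le_max_right _ _).trans hS
  refine ⟨Aff0.mono M H hA.lb hS0 (by linarith) (hD.trans (le_max_left _ _)) e1
    (div_le_self hδ.le (by linarith [Nat.cast_nonneg (α := ℝ) L₀])),
    fun Ω' a1 a2 a3 ζ hζ hAζ y hy => ?_⟩
  obtain ⟨L, hL, q, q0, q1, q2, q3⟩ := HD S Ω' hS0 a2 a3 (a1.trans hA.bdd) ζ hζ hAζ y hy
  have hh : M.K (M.h Ω') ⊆ M.K (M.h Ω) := M.K_mono fun i _ => by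
    obtain ⟨v, hv, e⟩ := M.exists_h a3 ⟨_, hAζ⟩ i
    exact e ▸ M.le_h hA.compact (a1 hv) i
  have hy1 : ∀ k ≤ L, (q k).1 ∈ D • M.K (M.h Ω) := fun k hk => Set.smul_set_mono hh (q2 k hk).1
  have hy2 : ∀ k ≤ L, (q k).1 ∈ (D * C₁) • B := fun k hk => by
    rw [mul_smul]
    exact Set.smul_set_mono ((M.K_mono fun i _ => by nlinarith).trans hA.big) (hy1 k hk)
  have hye : ∀ k ≤ L, (q k).1 ∈ M.e := fun k hk => by
    obtain ⟨x, hx, e⟩ := hy1 k hk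
    exact e ▸ M.e.smul_mem _ (M.K_sub_e _ hx)
  let E : ℕ → Set M.G := fun k => (fun x => x * (q k).1) ⁻¹' ((max D Cu • B) ∩
    {l | ε' * S < ‖M.A (φ (l * (q k).2)) - w l (M.A (q k).2) - m l‖}) ∪ ((max D Cu • B) ∩
    {l | w (l * (q k).1) ≠ w l ∨ ε' * S < ‖m (l * (q k).1) - m l‖})
  have hE : ∀ k ∈ Finset.range (L + 1), M.mE.real (E k) ≤
      2 * (δ / (2 * (L₀ + 1)) * M.mE.real B) := fun k hk => by
    have hk' := Nat.le_of_lt_succ (Finset.mem_range.1 hk)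
    refine (measureReal_union_le _ _).trans ?_
    rw [measureReal_def, M.mE_preimage_mul_right (hye k hk'), ← measureReal_def, two_mul]
    exact add_le_add (H.a1 _ (M.Z_mono (by nlinarith) (mul_le_mul_of_nonneg_right
      (le_max_left _ _) hS0) (q2 k hk').2.1) (a1 (q2 k hk').2.2)) (H.a2 _
        ((M.K_isLB _).sc.smul_mono (by
          rw [abs_of_nonneg (by linarith)]; exact le_max_left _ _) (hy1 k hk')))
  refine (measureReal_mono (s₂ := ⋃ k ∈ Finset.range (L + 1), E k) (fun l hl => ?_)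
    (measure_biUnion_ne_top (Finset.finite_toSet _) fun k hk => measure_union_ne_top ?_
      (M.cont_fin hA.lb _ _))).trans ((measureReal_biUnion_finset_le _ _).trans
        ((Finset.sum_le_card_nsmul _ _ _ hE).trans ?_))
  · by_contra hc
    refine hl.2 ?_
    have hl1 : l ∈ max D Cu • B := hA.lb.sc.smul_mono
      (by rw [abs_of_nonneg (by linarith)]; exact hD.trans (le_max_left _ _)) hl.1
    have good : ∀ k ≤ L, ‖M.A (φ (l * (q k).1 * (q k).2)) - w l (M.A (q k).2) - m l‖ ≤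
        2 * (ε' * S) := fun k hk => by
      have h1 : l ∉ E k := fun h => hc (Set.mem_biUnion (Finset.mem_coe.2
        (Finset.mem_range.2 (Nat.lt_succ_of_le hk))) h)
      have h2 : l * (q k).1 ∈ max D Cu • B := hA.lb.sc.smul_mono
        (by rw [abs_of_nonneg (by linarith)]; exact le_max_right _ _)
        (Hu B hA.lb (M.tame_of_e hA.sub) l (hA.lb.sc.smul_mono
          (by rw [abs_of_nonneg (by linarith)]; nlinarith) hl.1) _ (hy2 k hk))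
      have h3 : ‖M.A (φ (l * (q k).1 * (q k).2)) - w (l * (q k).1) (M.A (q k).2) -
          m (l * (q k).1)‖ ≤ ε' * S := not_lt.1 fun h => h1 (Or.inl ⟨h2, h⟩)
      have h4 : ¬w (l * (q k).1) ≠ w l ∧ ¬ε' * S < ‖m (l * (q k).1) - m l‖ :=
        not_or.1 fun h => h1 (Or.inr ⟨hl1, h⟩)
      rw [not_not.1 h4.1] at h3
      have h5 := norm_add_le (M.A (φ (l * (q k).1 * (q k).2)) - w l (M.A (q k).2) -
        m (l * (q k).1)) (m (l * (q k).1) - m l)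
      rw [sub_add_sub_cancel] at h5
      linarith [not_lt.1 h4.2]
    have hlog := len_log (show 0 ≤ D * S by nlinarith)
    have hL' : (L : ℝ) ≤ L₀ := by exact_mod_cast hL
    have hD0 : 0 ≤ D := by linarith
    have hℓ : Cp * (K * (ε / 4 / (Cp * K) * S + D + D * Real.log (2 + D * S)) + C + 1 +
        Real.log (1 + L₀)) ≤ 3 / 4 * (ε * S) := by
      have : Cp * K * (ε / 4 / (Cp * K)) = ε / 4 := mul_div_cancel₀ _ (by positivity)
      calc _ = Cp * K * (ε / 4 / (Cp * K)) * S + (Cp * (K * D + C + 1 + Real.log (1 + L₀)) +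
            Cp * K * D * Real.log (2 + D * S)) := by ring
        _ ≤ _ := by rw [this]; linarith
    have hℓ1 : 1 ≤ K * (ε / 4 / (Cp * K) * S + D + D * Real.log (2 + D * S)) + C + 1 := by
      have : 0 ≤ K * (ε / 4 / (Cp * K) * S + D + D * Real.log (2 + D * S)) := by positivity
      linarith
    have key := Hp (fun k => φ (l * (q k).1 * (q k).2)) L _
      (fun i => M.h (w l '' Ω') i - M.wv (w l (M.A ζ)) i + 4 * (ε' * S) * ‖M.wt i‖) hℓ1
      (fun i j e => by simp only [Geo.h, wv, e]) (fun k hk => ?_) fun k hk i hi => ?_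
    · simp only [q0, q1, mul_one] at key
      generalize K * (ε / 4 / (Cp * K) * S + D + D * Real.log (2 + D * S)) + C + 1 = ℓ at *
      have g1 : Real.log (1 + L) ≤ Real.log (1 + L₀) :=
        Real.log_le_log (by positivity) (by linarith)
      have g2 : 0 ≤ Real.log (1 + L₀) :=
        Real.log_nonneg (by linarith [Nat.cast_nonneg (α := ℝ) L₀])
      refine Set.mul_subset_mul (M.K_mono fun i _ => ?_) (M.Z_mono (by positivity) ?_) key
      · have g3 : ‖M.wt i‖ ≤ M.wmax :=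
          Finset.single_le_sum (f := fun i => ‖M.wt i‖) (fun _ _ => norm_nonneg _)
            (Finset.mem_univ i)
        nlinarith [mul_le_mul_of_nonneg_left g3 (mul_nonneg e0.le hS0),
          mul_le_mul_of_nonneg_right e2 hS0, mul_le_mul_of_nonneg_left g1 (by linarith : 0 ≤ Cp)]
      · have g3 : Cp * ℓ ≤ ε * S := by nlinarith [mul_nonneg hε.le hS0]
        calc Cp * ℓ * (1 + L) ≤ ε * S * (1 + L₀) := by gcongr
          _ = ε * (1 + L₀) * S := by ring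
          _ ≤ S * S := mul_le_mul_of_nonneg_right hS2 hS0
          _ = S ^ 2 := (sq S).symm
    · have h1 := IsQI.ln_le M hφ.2 (l * (q k).1 * (q k).2)
        (((q k).1 * (q k).2)⁻¹ * ((q (k + 1)).1 * (q (k + 1)).2))
      rw [mul_assoc l, mul_assoc l, mul_inv_cancel_left, ← mul_assoc l, ← mul_assoc l] at h1
      linarith [mul_le_mul_of_nonneg_left (q3 k hk) (by linarith : 0 ≤ K)]
    · have g0 := good 0 (Nat.zero_le _)
      have gk := good k hk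
      have h1 := M.le_h (a3.image (w l).continuous) (Set.mem_image_of_mem _ (q2 k hk).2.2) i
      have e0 : (q 0).2 = ζ := by rw [q0]
      rw [e0] at g0 ⊢
      generalize M.A (φ (l * (q k).1 * (q k).2)) = u at *
      generalize M.A (φ (l * (q 0).1 * ζ)) = u' at *
      have h2 := norm_sub_le (u - w l (M.A (q k).2) - m l) (u' - w l (M.A ζ) - m l)
      have h3 := real_inner_le_norm (M.wt i)
        ((u - w l (M.A (q k).2) - m l) - (u' - w l (M.A ζ) - m l))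
      have h4 := mul_le_mul_of_nonneg_left (h2.trans (add_le_add gk g0)) (norm_nonneg (M.wt i))
      simp only [wv, inner_sub_right] at h1 h3 ⊢
      linarith
  · rw [M.mE_preimage_mul_right (hye k (Nat.le_of_lt_succ (Finset.mem_range.1 hk)))]
    exact M.cont_fin hA.lb _ _
  · rw [Finset.card_range, nsmul_eq_mul]
    have hL' : ((L + 1 : ℕ) : ℝ) ≤ L₀ + 1 := by exact_mod_cast Nat.succ_le_succ hL
    have h0 : 0 ≤ M.mE.real B := measureReal_nonneg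
    calc _ ≤ ((L₀ : ℝ) + 1) * (2 * (δ / (2 * (L₀ + 1)) * M.mE.real B)) := by gcongr
      _ = _ := by field_simp

/-- The statement of the affinity theorem. -/
def AffStmt : Prop := ∀ K C C₁ ε δ : ℝ, 1 ≤ C₁ → 0 < ε → 0 < δ →
    ∃ S₀ : ℝ, ∀ S : ℝ, S₀ ≤ S → ∀ φ, M.MQI K C φ → ∀ Ω B, M.Adm Ω S C₁ ε B →
      ∃ w m, M.Aff φ Ω S C₁ ε δ B w m

theorem affStmt_of (h : ∀ K C C₁ ε δ : ℝ, 1 ≤ C₁ → 0 < ε → 0 < δ →
    ∃ S₀ : ℝ, ∀ S : ℝ, S₀ ≤ S → ∀ φ, M.MQI K C φ → ∀ Ω B, M.Adm Ω S C₁ ε B →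
      ∃ w m, M.Aff0 φ Ω S C₁ ε δ B w m) : M.AffStmt := by
  intro K C C₁ ε δ h1 h2 h3
  obtain ⟨C₁', ε', δ', S₀, a1, a2, a3, a4, H⟩ := M.cont K C C₁ ε δ h1 h2 h3
  obtain ⟨S₁, H1⟩ := h K C C₁' ε' δ' (h1.trans a1) a2 a4
  refine ⟨max (max S₀ S₁) 0, fun S hS φ hφ Ω B hA => ?_⟩
  have e0 : 0 ≤ S := (le_max_right _ _).trans hS
  have e1 : S₀ ≤ S := ((le_max_left _ _).trans (le_max_left _ _)).trans hS
  have e2 : S₁ ≤ S := ((le_max_right _ _).trans (le_max_left _ _)).trans hS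
  obtain ⟨w, m, hw⟩ := H1 S e2 φ hφ Ω B (Adm.mono M hA e0 (by linarith) a1 a3)
  exact ⟨w, m, H S e1 φ hφ Ω B hA w m hw⟩

end Vale.Agent.P188.Geo
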