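import Vale.Agent.P188.SC

/-! Volumes of symmetric convex bodies in subspaces (pure convex geometry).
`subMu W` is Lebesgue measure of the subspace `W`.  Plan: `slab`: translate by a point of the
set to reduce to a centred slab of `2 • S`; disjoint translates of a thin slab along `x₀`.
`sec_proj_*`: Fubini `subMu_fubini`; fibres of `S` are translates of subsets of `2 • S ∩ I`,
and over `proj (S / 2)` each fibre contains a translate of `(S ∩ I) / 2`.
`add_inter`: for `x = l + t`, `l + (L ∩ T) ⊆ 2L` and `x - (l + y) ∈ 2T`; integrate over `x`. -/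

namespace Vale.Agent.P188
open scoped Pointwise
open MeasureTheory
variable {X : Type} [NormedAddCommGroup X] [InnerProductSpace ℝ X] [FiniteDimensional ℝ X]
  [MeasurableSpace X] [BorelSpace X]

private theorem conv_emb (W : Submodule ℝ X) : MeasurableEmbedding (Subtype.val : W → X) :=
  MeasurableEmbedding.subtype_coe W.closed_of_finiteDimensional.measurableSet

theorem subMu_top : subMu (⊤ : Submodule ℝ X) = volume :=
  (LinearIsometryEquiv.ofTop X ⊤ rfl).measurePreserving.map_eq
theorem subMu_apply (W : Submodule ℝ X) (S : Set X) :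
    subMu W S = volume ((Subtype.val : W → X) ⁻¹' S) := (conv_emb W).map_apply _ _
instance (W : Submodule ℝ X) : SFinite (subMu W) := by unfold subMu; infer_instance
instance (W : Submodule ℝ X) : IsFiniteMeasureOnCompacts (subMu W) := ⟨fun K hK => by
  rw [subMu_apply]
  exact (W.closed_of_finiteDimensional.isClosedEmbedding_subtypeVal.isCompact_preimage
    hK).measure_lt_top⟩
theorem subMu_compl (W : Submodule ℝ X) : subMu W (W : Set X)ᶜ = 0 := by
  rw [subMu_apply]
  have : (Subtype.val : W → X) ⁻¹' (W : Set X)ᶜ = ∅ := by ext x; simp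
  rw [this, measure_empty]
theorem subMu_inter (W : Submodule ℝ X) (S : Set X) : subMu W (S ∩ W) = subMu W S := by
  rw [subMu_apply, subMu_apply]
  congr 1
  ext x; simp
theorem subMu_smul (W : Submodule ℝ X) (t : ℝ) (ht : t ≠ 0) (S : Set X) :
    subMu W (t • S) = ENNReal.ofReal (|t| ^ Module.finrank ℝ W) * subMu W S := by
  rw [subMu_apply, subMu_apply, ← abs_pow, ← Measure.addHaar_smul]
  congr 1
  ext x
  simp only [Set.mem_preimage, Set.mem_smul_set_iff_inv_smul_mem₀ ht, Submodule.coe_smul]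
theorem subMu_real_smul (W : Submodule ℝ X) (t : ℝ) (ht : 0 < t) (S : Set X) :
    (subMu W).real (t • S) = t ^ Module.finrank ℝ W * (subMu W).real S := by
  rw [measureReal_def, subMu_smul W t ht.ne', ENNReal.toReal_mul, abs_of_pos ht,
    ENNReal.toReal_ofReal (by positivity), measureReal_def]
theorem subMu_map_add (W : Submodule ℝ X) {x : X} (hx : x ∈ W) :
    (subMu W).map (fun y => x + y) = subMu W := by
  unfold subMu
  rw [Measure.map_map (by fun_prop) (conv_emb W).measurable]
  conv_rhs => rw [← map_add_left_eq_self (volume : Measure W) ⟨x, hx⟩]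
  rw [Measure.map_map (conv_emb W).measurable (by fun_prop)]
  rfl
theorem subMu_map_neg (W : Submodule ℝ X) : (subMu W).map (fun y => -y) = subMu W := by
  unfold subMu
  rw [Measure.map_map (by fun_prop) (conv_emb W).measurable]
  conv_rhs => rw [← Measure.map_neg_eq_self (volume : Measure W)]
  rw [Measure.map_map (conv_emb W).measurable (by fun_prop)]
  rfl
theorem subMu_pos (W : Submodule ℝ X) {S : Set X} {ε : ℝ} (hε : 0 < ε)
    (h : ∀ x ∈ W, ‖x‖ ≤ ε → x ∈ S) : subMu W S ≠ 0 := by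
  rw [subMu_apply]
  refine ((Metric.measure_closedBall_pos volume (0 : W) hε).trans_le (measure_mono ?_)).ne'
  intro x hx
  exact h x x.2 (by simpa using hx)
theorem subMu_image_linear (W : Submodule ℝ X) (T : X →ₗ[ℝ] X) (hT : ∀ x ∈ W, T x ∈ W)
    (S : Set X) (hS : S ⊆ W) :
    subMu W (T '' S) = ENNReal.ofReal |LinearMap.det (T.restrict hT)| * subMu W S := by
  rw [subMu_apply, subMu_apply, ← Measure.addHaar_image_linearMap]
  congr 1
  ext x
  constructor
  · rintro ⟨y, hy, hyx⟩
    exact ⟨⟨y, hS hy⟩, hy, Subtype.ext hyx⟩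
  · rintro ⟨y, hy, rfl⟩
    exact ⟨y, hy, rfl⟩

omit [MeasurableSpace X] [BorelSpace X] in
private theorem conv_split {I H : Submodule ℝ X} (h : I ≤ H) {x : X} (hx : x ∈ H) :
    x - (H ⊓ Iᗮ).starProjection x ∈ I := by
  obtain ⟨y, hy, z, hz, rfl⟩ := I.exists_add_mem_mem_orthogonal x
  have hzH : z ∈ H := by simpa using H.sub_mem hx (h hy)
  have : (H ⊓ Iᗮ).starProjection (y + z) = z := by
    refine Submodule.eq_starProjection_of_mem_orthogonal ⟨hzH, hz⟩ ?_
    rw [add_sub_cancel_right, Submodule.mem_orthogonal]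
    intro u hu
    exact Submodule.inner_left_of_mem_orthogonal hy hu.2
  rw [this, add_sub_cancel_right]
  exact hy

omit [MeasurableSpace X] [BorelSpace X] in
private theorem conv_proj {I H : Submodule ℝ X} {i q : X} (hi : i ∈ I) (hq : q ∈ H ⊓ Iᗮ) :
    (H ⊓ Iᗮ).starProjection (i + q) = q := by
  refine Submodule.eq_starProjection_of_mem_orthogonal hq ?_
  rw [add_sub_cancel_right, Submodule.mem_orthogonal]
  intro u hu
  exact Submodule.inner_left_of_mem_orthogonal hi hu.2

private noncomputable def conv_iso {I H : Submodule ℝ X} (h : I ≤ H) :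
    WithLp 2 (I × (H ⊓ Iᗮ : Submodule ℝ X)) →ₗᵢ[ℝ] H where
  toFun z := ⟨z.fst + z.snd, H.add_mem (h z.fst.2) z.snd.2.1⟩
  map_add' z w := by ext; simp only [WithLp.add_fst, WithLp.add_snd, Submodule.coe_add]; abel
  map_smul' t z := by ext; simp
  norm_map' z := by
    have h1 : ‖(z.fst : X) + z.snd‖ * ‖(z.fst : X) + z.snd‖ =
        ‖(z.fst : X)‖ * ‖(z.fst : X)‖ + ‖(z.snd : X)‖ * ‖(z.snd : X)‖ :=
      norm_add_sq_eq_norm_sq_add_norm_sq_real
        (Submodule.inner_right_of_mem_orthogonal z.fst.2 z.snd.2.2)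
    have h2 := WithLp.prod_norm_sq_eq_of_L2 z
    refine (pow_left_inj₀ (norm_nonneg _) (norm_nonneg _) two_ne_zero).1 ?_
    rw [h2]
    change ‖(z.fst : X) + z.snd‖ ^ 2 = ‖(z.fst : X)‖ ^ 2 + ‖(z.snd : X)‖ ^ 2
    rw [sq, sq, sq, h1]

theorem subMu_fubini {I H : Submodule ℝ X} (h : I ≤ H) {f : X → ENNReal} (hf : Measurable f) :
    ∫⁻ x, f x ∂(subMu H) = ∫⁻ q, ∫⁻ i, f (i + q) ∂(subMu I) ∂(subMu (H ⊓ Iᗮ)) := by
  have hs : Function.Surjective (conv_iso h) := fun x =>
    ⟨WithLp.toLp 2 (⟨_, conv_split h x.2⟩, ⟨_, (H ⊓ Iᗮ).starProjection_apply_mem x⟩),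
      Subtype.ext (sub_add_cancel _ _)⟩
  have mp := ((LinearIsometryEquiv.ofSurjective _ hs).measurePreserving).comp
    (WithLp.volume_preserving_toLp I (H ⊓ Iᗮ : Submodule ℝ X))
  unfold subMu
  rw [(conv_emb H).lintegral_map, (conv_emb _).lintegral_map]
  simp only [(conv_emb I).lintegral_map]
  refine (mp.lintegral_comp (hf.comp (conv_emb H).measurable)).symm.trans ?_
  exact lintegral_prod_symm' (fun z : I × (H ⊓ Iᗮ : Submodule ℝ X) => f (z.1 + z.2))
    (hf.comp (by fun_prop))

private theorem conv_tr (W : Submodule ℝ X) {x : X} (hx : x ∈ W) (S : Set X) :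
    subMu W ((fun y => x + y) ⁻¹' S) = subMu W S := by
  conv_rhs => rw [← subMu_map_add W hx]
  exact ((MeasurableEquiv.addLeft x).measurableEmbedding.map_apply _ _).symm

omit [FiniteDimensional ℝ X] [MeasurableSpace X] [BorelSpace X] in
private theorem conv_add {S : Set X} (h : SC S) {x y : X} (hx : x ∈ S) (hy : y ∈ S) :
    x + y ∈ (2 : ℝ) • S := by
  refine ⟨(1 / 2 : ℝ) • x + (1 / 2 : ℝ) • y,
    h.convex hx hy (by norm_num) (by norm_num) (by norm_num), ?_⟩
  simp only [smul_add, smul_smul]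
  norm_num

omit [FiniteDimensional ℝ X] [MeasurableSpace X] [BorelSpace X] in
private theorem conv_sub {S : Set X} (h : SC S) {x y : X} (hx : x ∈ S) (hy : y ∈ S) :
    x - y ∈ (2 : ℝ) • S := by
  rw [sub_eq_add_neg]
  exact conv_add h hx (h.neg_mem y hy)

private theorem conv_two (W : Submodule ℝ X) (S : Set X) :
    subMu W ((2 : ℝ) • S) = 2 ^ Module.finrank ℝ W * subMu W S := by
  rw [subMu_smul W 2 two_ne_zero, abs_two, ENNReal.ofReal_pow zero_le_two, ENNReal.ofReal_ofNat]

private theorem conv_ae (W : Submodule ℝ X) : ∀ᵐ x ∂(subMu W), x ∈ W := subMu_compl W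

private theorem conv_fub {I H : Submodule ℝ X} (h : I ≤ H) {S : Set X} (hS : MeasurableSet S) :
    subMu H S = ∫⁻ q, subMu I ((fun i => i + q) ⁻¹' S) ∂(subMu (H ⊓ Iᗮ)) := by
  rw [← lintegral_indicator_one hS, subMu_fubini h (measurable_one.indicator hS)]
  refine lintegral_congr fun q => ?_
  rw [← lintegral_indicator_one (hS.preimage (by fun_prop))]
  rfl

private theorem conv_slab (W : Submodule ℝ X) {S : Set X} (h : SC S) (hc : IsCompact S)
    (hW : S ⊆ W) (p : X →ₗ[ℝ] ℝ) {x₀ : X} (hx : x₀ ∈ S) (hp : 0 < p x₀) (a : ℝ) {ℓ τ : ℝ}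
    (hl : 0 ≤ ℓ) (hτ : 2 * ℓ < τ * p x₀) :
    (subMu W).real (S ∩ {x | |p x - a| ≤ ℓ}) ≤
      τ * (2 ^ Module.finrank ℝ W * (subMu W).real S) := by
  have τ0 : 0 < τ := (mul_pos_iff_of_pos_right hp).1 (by linarith)
  have hA : MeasurableSet (S ∩ {x | |p x - a| ≤ ℓ}) :=
    hc.measurableSet.inter (isClosed_le
      (p.continuous_of_finiteDimensional.sub continuous_const).abs continuous_const).measurableSet
  set A := S ∩ {x | |p x - a| ≤ ℓ} with hAdef
  set N := ⌈τ⁻¹⌉₊ with hN
  let B : ℕ → Set X := fun k => (fun y => -(((k : ℝ) * τ) • x₀) + y) ⁻¹' A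
  have hB : ∀ k, subMu W (B k) = subMu W A := fun k =>
    conv_tr W (W.neg_mem (W.smul_mem _ (hW hx))) A
  have hd : ∀ j k : ℕ, j < k → Disjoint (B j) (B k) := by
    intro j k hjk
    rw [Set.disjoint_left]
    intro y h1 h2
    have e1 := abs_le.1 (show |p (-(((j : ℝ) * τ) • x₀) + y) - a| ≤ ℓ from h1.2)
    have e2 := abs_le.1 (show |p (-(((k : ℝ) * τ) • x₀) + y) - a| ≤ ℓ from h2.2)
    simp only [map_add, map_neg, map_smul, smul_eq_mul] at e1 e2
    have : (j : ℝ) + 1 ≤ k := by exact_mod_cast hjk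
    nlinarith [mul_pos τ0 hp]
  have hsub : ⋃ k ∈ Finset.range N, B k ⊆ (2 : ℝ) • S := by
    intro y hy
    simp only [Set.mem_iUnion, Finset.mem_range] at hy
    obtain ⟨k, hk, hy⟩ := hy
    have k1 : (k : ℝ) * τ ≤ 1 := by
      have := Nat.lt_ceil.1 hk
      rw [← le_div_iff₀ τ0, one_div]
      exact this.le
    have := conv_add h (h.convex.smul_mem_of_zero_mem h.zero_mem hx
      ⟨(by positivity : (0 : ℝ) ≤ k * τ), k1⟩) hy.1
    simpa using this
  have hsum : (N : ENNReal) * subMu W A ≤ 2 ^ Module.finrank ℝ W * subMu W S := by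
    rw [← conv_two]
    refine le_trans (le_of_eq ?_) (measure_mono hsub)
    rw [measure_biUnion_finset (fun j _ k _ hjk => ?_) (fun k _ => hA.preimage (by fun_prop))]
    · rw [Finset.sum_congr rfl fun k _ => hB k, Finset.sum_const, Finset.card_range, nsmul_eq_mul]
    · rcases lt_or_gt_of_ne hjk with h1 | h1
      · exact hd j k h1
      · exact (hd k j h1).symm
  have hr := ENNReal.toReal_mono
    (ENNReal.mul_ne_top (by simp) hc.measure_lt_top.ne) hsum
  simp only [ENNReal.toReal_mul, ENNReal.toReal_natCast, ENNReal.toReal_pow,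
    ENNReal.toReal_ofNat] at hr
  have hN1 : 1 ≤ τ * N := by
    have := Nat.le_ceil τ⁻¹
    rw [← div_le_iff₀' τ0, one_div]
    exact this
  have A0 : 0 ≤ (subMu W A).toReal := ENNReal.toReal_nonneg
  calc (subMu W).real A ≤ τ * N * (subMu W A).toReal := le_mul_of_one_le_left A0 hN1
    _ = τ * (N * (subMu W A).toReal) := mul_assoc _ _ _
    _ ≤ _ := mul_le_mul_of_nonneg_left hr τ0.le

theorem slab (W : Submodule ℝ X) : ∃ C : ℝ, 1 ≤ C ∧ ∀ (S : Set X), SC S → IsCompact S → S ⊆ W →
    ∀ (p : X →ₗ[ℝ] ℝ) (x₀ : X), x₀ ∈ S → 0 < p x₀ → ∀ a ℓ : ℝ, 0 ≤ ℓ →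
      (subMu W).real (S ∩ {x | |p x - a| ≤ ℓ}) ≤ C * (ℓ / p x₀) * (subMu W).real S := by
  have h1 : (1 : ℝ) ≤ 2 ^ Module.finrank ℝ W := one_le_pow₀ one_le_two
  refine ⟨2 * 2 ^ Module.finrank ℝ W, by linarith, fun S h hc hW p x₀ hx hp a ℓ hl => ?_⟩
  refine le_of_forall_pos_le_add fun ε hε => ?_
  set M := 2 ^ Module.finrank ℝ W * (subMu W).real S with hM
  have M0 : 0 ≤ M := by positivity
  have e0 : 0 < ε / (M + 1) := by positivity
  have := conv_slab W h hc hW p hx hp a hl (τ := 2 * (ℓ / p x₀) + ε / (M + 1)) (by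
    rw [add_mul, mul_assoc, div_mul_cancel₀ _ hp.ne']
    linarith [mul_pos e0 hp])
  rw [← hM] at this
  have e1 : ε / (M + 1) * M ≤ ε := by
    rw [div_mul_eq_mul_div, div_le_iff₀ (by positivity)]
    nlinarith
  calc _ ≤ _ := this
    _ = 2 * (ℓ / p x₀) * M + ε / (M + 1) * M := add_mul _ _ _
    _ ≤ 2 * (ℓ / p x₀) * M + ε := by linarith
    _ = _ := by rw [hM]; ring

theorem sec_proj_le {I H : Submodule ℝ X} (h : I ≤ H) : ∃ C : ℝ, 1 ≤ C ∧ ∀ S : Set X, SC S →
    IsCompact S → S ⊆ H → (subMu I).real S * (subMu (H ⊓ Iᗮ)).real ((H ⊓ Iᗮ).starProjection '' S)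
      ≤ C * (subMu H).real S := by
  refine ⟨2 ^ Module.finrank ℝ H, one_le_pow₀ one_le_two, fun S hS hc hH => ?_⟩
  have hP : IsCompact ((H ⊓ Iᗮ).starProjection '' S) := hc.image (by fun_prop)
  have key : subMu I S * subMu (H ⊓ Iᗮ) ((H ⊓ Iᗮ).starProjection '' S) ≤
      2 ^ Module.finrank ℝ H * subMu H S := by
    rw [← conv_two, conv_fub h (hc.smul (2 : ℝ)).measurableSet, ← setLIntegral_const,
      ← lintegral_indicator hP.measurableSet]
    refine lintegral_mono fun q => ?_
    by_cases hq : q ∈ (H ⊓ Iᗮ).starProjection '' S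
    · rw [Set.indicator_of_mem hq]
      obtain ⟨s, hs, rfl⟩ := hq
      rw [← conv_tr I (conv_split h (hH hs)) (_ ⁻¹' _)]
      refine measure_mono fun i hi => ?_
      have := conv_add hS hs hi
      simp only [Set.mem_preimage]
      convert this using 1
      abel
    · rw [Set.indicator_of_notMem hq]
      exact zero_le
  have hr := ENNReal.toReal_mono (ENNReal.mul_ne_top (by simp) hc.measure_lt_top.ne) key
  simpa [measureReal_def] using hr

theorem le_sec_proj {I H : Submodule ℝ X} (h : I ≤ H) : ∃ C : ℝ, 1 ≤ C ∧ ∀ S T : Set X, SC S →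
    IsCompact S → T ⊆ S → T ⊆ H → IsCompact T → (subMu H).real T ≤
      C * (subMu I).real S * (subMu (H ⊓ Iᗮ)).real ((H ⊓ Iᗮ).starProjection '' T) := by
  refine ⟨2 ^ Module.finrank ℝ I, one_le_pow₀ one_le_two, fun S T hS hc hTS _ hT => ?_⟩
  have hP : IsCompact ((H ⊓ Iᗮ).starProjection '' T) := hT.image (by fun_prop)
  have key : subMu H T ≤ 2 ^ Module.finrank ℝ I * subMu I S *
      subMu (H ⊓ Iᗮ) ((H ⊓ Iᗮ).starProjection '' T) := by
    rw [← conv_two, conv_fub h hT.measurableSet, ← setLIntegral_const,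
      ← lintegral_indicator hP.measurableSet]
    refine lintegral_mono_ae ((conv_ae _).mono fun q hq => ?_)
    rw [← subMu_inter]
    rcases Set.eq_empty_or_nonempty (((fun i => i + q) ⁻¹' T) ∩ I) with h0 | ⟨j, hj, hjI⟩
    · rw [h0, measure_empty]
      exact zero_le
    · have hqP : q ∈ (H ⊓ Iᗮ).starProjection '' T := ⟨j + q, hj, conv_proj hjI hq⟩
      rw [Set.indicator_of_mem hqP, ← conv_tr I (I.neg_mem hjI) ((2 : ℝ) • S)]
      refine measure_mono fun i hi => ?_
      have := conv_sub hS (hTS hi.1) (hTS hj)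
      simp only [add_sub_add_right_eq_sub] at this
      rwa [Set.mem_preimage, neg_add_eq_sub]
  have hr := ENNReal.toReal_mono (ENNReal.mul_ne_top
    (ENNReal.mul_ne_top (by simp) hc.measure_lt_top.ne) hP.measure_lt_top.ne) key
  simpa [measureReal_def] using hr

theorem add_inter (W : Submodule ℝ X) : ∃ C : ℝ, 1 ≤ C ∧ ∀ L T : Set X, SC L → SC T →
    IsCompact L → IsCompact T → L ⊆ W → T ⊆ W →
      (subMu W).real (L + T) * (subMu W).real (L ∩ T) ≤
        C * (subMu W).real L * (subMu W).real T := by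
  have h1 : (1 : ℝ) ≤ 2 ^ Module.finrank ℝ W := one_le_pow₀ one_le_two
  refine ⟨2 ^ Module.finrank ℝ W * 2 ^ Module.finrank ℝ W, one_le_mul_of_one_le_of_one_le h1 h1,
    fun L T hL hT cL cT hLW _ => ?_⟩
  have mL := (cL.smul (2 : ℝ)).measurableSet
  have mT := (cT.smul (2 : ℝ)).measurableSet
  let E : Set (X × X) := {z | z.2 ∈ (2 : ℝ) • L ∧ -z.2 + z.1 ∈ (2 : ℝ) • T}
  have mE : MeasurableSet E :=
    (mL.preimage measurable_snd).inter (mT.preimage (measurable_snd.neg.add measurable_fst))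
  have key : subMu W (L ∩ T) * subMu W (L + T) ≤
      subMu W ((2 : ℝ) • T) * subMu W ((2 : ℝ) • L) := by
    calc _ ≤ ((subMu W).prod (subMu W)) E := by
          rw [Measure.prod_apply mE, ← setLIntegral_const,
            ← lintegral_indicator (cL.add cT).measurableSet]
          refine lintegral_mono fun x => ?_
          by_cases hx : x ∈ L + T
          · rw [Set.indicator_of_mem hx]
            obtain ⟨l, hl, t, ht, rfl⟩ := hx
            rw [← conv_tr W (hLW hl) (_ ⁻¹' _)]
            refine measure_mono fun y hy => ⟨conv_add hL hl hy.1, ?_⟩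
            have := conv_sub hT ht hy.2
            convert this using 1
            simp only
            abel
          · rw [Set.indicator_of_notMem hx]
            exact zero_le
      _ ≤ _ := by
          rw [Measure.prod_apply_symm mE, ← setLIntegral_const, ← lintegral_indicator mL]
          refine lintegral_mono_ae ((conv_ae W).mono fun y hy => ?_)
          by_cases hx : y ∈ (2 : ℝ) • L
          · rw [Set.indicator_of_mem hx, ← conv_tr W (W.neg_mem hy) ((2 : ℝ) • T)]
            exact measure_mono fun x hx => hx.2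
          · have : (fun x => (x, y)) ⁻¹' E = ∅ := Set.eq_empty_of_forall_notMem fun x h => hx h.1
            rw [this, measure_empty]
            exact zero_le
  rw [conv_two, conv_two] at key
  have hr := ENNReal.toReal_mono (ENNReal.mul_ne_top
    (ENNReal.mul_ne_top (by simp) cT.measure_lt_top.ne)
    (ENNReal.mul_ne_top (by simp) cL.measure_lt_top.ne)) key
  simp only [ENNReal.toReal_mul, ENNReal.toReal_pow, ENNReal.toReal_ofNat] at hr
  simp only [measureReal_def]
  linarith

end Vale.Agent.P188
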