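import Mathlib

namespace Vale.Agent.P188

/-- Polycyclic: a subnormal series from the trivial subgroup to the whole group with cyclic quotients. -/
def IsPolycyclic (G : Type*) [Group G] : Prop :=
  ∃ (m : ℕ) (s : ℕ → Subgroup G), s 0 = ⊥ ∧ s m = ⊤ ∧
    ∀ i < m, s i ≤ s (i + 1) ∧ ∃ _ : ((s i).subgroupOf (s (i + 1))).Normal,
      IsCyclic (s (i + 1) ⧸ (s i).subgroupOf (s (i + 1)))

/-- Virtually polycyclic: some finite-index subgroup is polycyclic. -/
def VirtPolycyclic (G : Type*) [Group G] : Prop :=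
  ∃ K : Subgroup G, K.FiniteIndex ∧ IsPolycyclic K

/-- Word length of `g` with respect to the generating set `S`. -/
noncomputable def wlen {G : Type*} [Group G] (S : Set G) (g : G) : ℕ :=
  sInf {n | ∃ l : List G, l.length = n ∧ (∀ x ∈ l, x ∈ S ∨ x⁻¹ ∈ S) ∧ l.prod = g}

/-- The word metric of the generating set `S`. -/
noncomputable def wdist {G : Type*} [Group G] (S : Set G) (g h : G) : ℝ :=
  (wlen S (g⁻¹ * h) : ℝ)

/-- `F` is a `(K, C)`-quasi-isometry for the word metrics of `S` and `T`. -/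
def IsQI {X Y : Type*} [Group X] [Group Y] (S : Set X) (T : Set Y) (K C : ℝ) (F : X → Y) : Prop :=
  1 ≤ K ∧ 0 ≤ C ∧
    (∀ x x', K⁻¹ * wdist S x x' - C ≤ wdist T (F x) (F x') ∧
      wdist T (F x) (F x') ≤ K * wdist S x x' + C) ∧
    ∀ y, ∃ x, wdist T y (F x) ≤ C

end Vale.Agent.P188
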