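import Mathlib

/-! GNS construction for cocycles: the Hilbert space is the completion of `G →₀ ℝ` for the
semi-inner product given by `κ`; `π g` extends `b h ↦ b (g * h) - b g`. -/

namespace Vale.Agent.P188

universe u

/-- finitely supported functions, to be given a new seminorm -/
def Pre (G : Type u) : Type u := G →₀ ℝ

noncomputable instance (G : Type u) : AddCommGroup (Pre G) := inferInstanceAs (AddCommGroup (G →₀ ℝ))

noncomputable instance (G : Type u) : Module ℝ (Pre G) := inferInstanceAs (Module ℝ (G →₀ ℝ))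

/-- the bilinear form of a kernel -/
noncomputable def kform {G : Type u} (κ : G → G → ℝ) : (G →₀ ℝ) →ₗ[ℝ] (G →₀ ℝ) →ₗ[ℝ] ℝ :=
  Finsupp.linearCombination ℝ fun g => Finsupp.linearCombination ℝ (κ g)

lemma kform_single {G : Type u} (κ : G → G → ℝ) (g h : G) (a c : ℝ) :
    kform κ (Finsupp.single g a) (Finsupp.single h c) = a * c * κ g h := by
  simp [kform, mul_assoc]

lemma kform_eq {G : Type u} (κ : G → G → ℝ) (x y : G →₀ ℝ) :
    kform κ x y = ∑ g ∈ x.support, ∑ h ∈ y.support, x g * y h * κ g h := by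
  simp [kform, Finsupp.linearCombination_apply, Finsupp.sum, Finset.mul_sum, mul_assoc]

lemma kform_symm {G : Type u} {κ : G → G → ℝ} (hs : ∀ g h, κ g h = κ h g) (x y : G →₀ ℝ) :
    kform κ y x = kform κ x y := by
  rw [kform_eq, kform_eq, Finset.sum_comm]
  exact Finset.sum_congr rfl fun g _ => Finset.sum_congr rfl fun h _ => by rw [hs h g]; ring

theorem exists_kolm {G : Type u} (κ : G → G → ℝ) (hs : ∀ g h, κ g h = κ h g)
    (hp : ∀ (I : Finset G) (t : G → ℝ), 0 ≤ ∑ g ∈ I, ∑ h ∈ I, t g * t h * κ g h) :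
    ∃ (H : Type u) (_ : NormedAddCommGroup H) (_ : InnerProductSpace ℝ H) (_ : CompleteSpace H)
      (b : G → H), (∀ g h, inner ℝ (b g) (b h) = κ g h) ∧
      Dense (Submodule.span ℝ (Set.range b) : Set H) := by
  let c : PreInnerProductSpace.Core ℝ (Pre G) :=
    { inner := fun x y => kform κ x y
      conj_inner_symm := fun x y => kform_symm hs x y
      re_inner_nonneg := fun x => (hp _ _).trans_eq (kform_eq κ x x).symm
      add_left := fun x y z => LinearMap.map_add₂ (kform κ) x y z
      smul_left := fun x y r => LinearMap.map_smul₂ (kform κ) r x y }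
  let : SeminormedAddCommGroup (Pre G) := InnerProductSpace.Core.toSeminormedAddCommGroup (𝕜 := ℝ)
  let : InnerProductSpace ℝ (Pre G) := .ofCore c
  let δ : G → Pre G := fun g => Finsupp.single g (1 : ℝ)
  refine ⟨UniformSpace.Completion (Pre G), inferInstance, inferInstance, inferInstance,
    fun g => (δ g : UniformSpace.Completion (Pre G)), fun g h => ?_, ?_⟩
  · rw [UniformSpace.Completion.inner_coe]
    change kform κ (Finsupp.single g 1) (Finsupp.single h 1) = _
    rw [kform_single]; ring
  · refine (UniformSpace.Completion.denseRange_coe (α := Pre G)).mono ?_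
    rintro _ ⟨x, rfl⟩
    have h : ∀ x : G →₀ ℝ, UniformSpace.Completion.toComplL (𝕜 := ℝ) (E := Pre G) x ∈
        Submodule.span ℝ (Set.range fun g => (δ g : UniformSpace.Completion (Pre G))) := by
      intro x
      induction x using Finsupp.induction_linear with
      | zero =>
        rw [show UniformSpace.Completion.toComplL (𝕜 := ℝ) (E := Pre G) (0 : G →₀ ℝ) = 0 from
          map_zero _]
        exact zero_mem _
      | add x y hx hy =>
        rw [show UniformSpace.Completion.toComplL (𝕜 := ℝ) (E := Pre G) (x + y : G →₀ ℝ) = _ from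
          map_add _ (x : Pre G) (y : Pre G)]
        exact add_mem hx hy
      | single g a =>
        have h1 : (Finsupp.single g a : G →₀ ℝ) = a • Finsupp.single g (1 : ℝ) := by simp
        have h2 : UniformSpace.Completion.toComplL (𝕜 := ℝ) (E := Pre G) (Finsupp.single g a) =
            a • UniformSpace.Completion.toComplL (𝕜 := ℝ) (E := Pre G) (δ g) := by
          rw [h1]
          exact map_smul _ a (δ g)
        rw [h2]
        exact Submodule.smul_mem _ _ (Submodule.subset_span ⟨g, rfl⟩)
    exact h x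

lemma exists_ext {G H : Type*} [NormedAddCommGroup H] [InnerProductSpace ℝ H] [CompleteSpace H]
    (b c : G → H) (hd : Dense (Submodule.span ℝ (Set.range b) : Set H))
    (h : ∀ g g', inner ℝ (c g) (c g') = inner ℝ (b g) (b g')) :
    ∃ T : H →L[ℝ] H, (∀ g, T (b g) = c g) ∧ ∀ x, ‖T x‖ = ‖x‖ := by
  have hd' : DenseRange (Finsupp.linearCombination ℝ b) := by
    rw [DenseRange, ← LinearMap.coe_range, Finsupp.range_linearCombination]
    exact hd
  have hn : ∀ x, ‖Finsupp.linearCombination ℝ c x‖ = ‖Finsupp.linearCombination ℝ b x‖ := by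
    intro x
    rw [← sq_eq_sq₀ (norm_nonneg _) (norm_nonneg _), ← real_inner_self_eq_norm_sq,
      ← real_inner_self_eq_norm_sq]
    simp only [Finsupp.linearCombination_apply, Finsupp.sum, sum_inner, inner_sum,
      real_inner_smul_left, real_inner_smul_right, h]
  have he := (Finsupp.linearCombination ℝ c).extendOfNorm_eq hd'
    ⟨1, fun x => by rw [hn, one_mul]⟩
  refine ⟨(Finsupp.linearCombination ℝ c).extendOfNorm (Finsupp.linearCombination ℝ b),
    fun g => ?_, fun x => ?_⟩
  · simpa using he (Finsupp.single g 1)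
  · refine hd'.induction_on x (isClosed_eq (by fun_prop) (by fun_prop)) fun y => ?_
    rw [he, hn]

theorem exists_gns {G : Type u} [Group G] (κ : G → G → ℝ) (hs : ∀ g h, κ g h = κ h g)
    (hp : ∀ (I : Finset G) (t : G → ℝ), 0 ≤ ∑ g ∈ I, ∑ h ∈ I, t g * t h * κ g h)
    (h1 : κ 1 1 = 0)
    (hc : ∀ g h h', κ (g * h) (g * h') - κ (g * h) g - κ g (g * h') + κ g g = κ h h') :
    ∃ (H : Type u) (_ : NormedAddCommGroup H) (_ : InnerProductSpace ℝ H) (_ : CompleteSpace H)
      (π : G →* (H ≃ₗᵢ[ℝ] H)) (b : G → H),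
      (∀ g h, b (g * h) = b g + π g (b h)) ∧ (∀ g h, inner ℝ (b g) (b h) = κ g h) ∧
      Dense (Submodule.span ℝ (Set.range b) : Set H) := by
  obtain ⟨H, _, _, _, b, hb, hd⟩ := exists_kolm κ hs hp
  have hT : ∀ g, ∃ T : H →L[ℝ] H, (∀ h, T (b h) = b (g * h) - b g) ∧ ∀ x, ‖T x‖ = ‖x‖ :=
    fun g => exists_ext b _ hd fun h h' => by
      simp only [inner_sub_left, inner_sub_right, hb]
      linarith [hc g h h']
  choose T hT hn using hT
  have hb1 : b 1 = 0 := by rw [← inner_self_eq_zero (𝕜 := ℝ), hb, h1]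
  have hmul : ∀ g g', T (g * g') = (T g).comp (T g') := fun g g' =>
    ContinuousLinearMap.ext_on hd (by
      rintro _ ⟨h, rfl⟩
      simp only [ContinuousLinearMap.comp_apply, hT, map_sub, mul_assoc]
      abel)
  have hone : T 1 = ContinuousLinearMap.id ℝ H :=
    ContinuousLinearMap.ext_on hd (by
      rintro _ ⟨h, rfl⟩
      simp [hT, hb1])
  have hinv : ∀ g g' x, g * g' = 1 → T g (T g' x) = x := fun g g' x e => by
    rw [← ContinuousLinearMap.comp_apply, ← hmul, e, hone, ContinuousLinearMap.id_apply]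
  let U : G → H ≃ₗᵢ[ℝ] H := fun g =>
    { (T g : H →ₗ[ℝ] H) with
      invFun := T g⁻¹
      left_inv := fun x => hinv _ _ x (inv_mul_cancel g)
      right_inv := fun x => hinv _ _ x (mul_inv_cancel g)
      norm_map' := hn g }
  have hU : ∀ g x, U g x = T g x := fun _ _ => rfl
  refine ⟨H, _, _, ‹_›, MonoidHom.mk' U fun g g' => ?_, b, fun g h => ?_, hb, hd⟩
  · ext x
    simp [hU, hmul]
  · change _ = _ + T g (b h)
    rw [hT]; abel

end Vale.Agent.P188
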