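import Vale.Agent.P188.Defs

/-! The real-split model group. `M.G` is a nilpotent graded Lie algebra `Eu d` (standard basis =
weight vectors), with the BCH product `star`, and with the group law
`x * y = star x (del (a x) y)`.  The identity is `0`. -/

namespace Vale.Agent.P188
open scoped InnerProductSpace

abbrev Eu (d : ℕ) := EuclideanSpace ℝ (Fin d)

/-- Lie polynomials in two variables, as functions. -/
inductive LiePoly {X : Type} [AddCommGroup X] [Module ℝ X] (br : X →ₗ[ℝ] X →ₗ[ℝ] X) :
    (X → X → X) → Prop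
  | fst : LiePoly br (fun x _ => x)
  | snd : LiePoly br (fun _ y => y)
  | add {f g} : LiePoly br f → LiePoly br g → LiePoly br (fun x y => f x y + g x y)
  | smul (t : ℝ) {f} : LiePoly br f → LiePoly br (fun x y => t • f x y)
  | lie {f g} : LiePoly br f → LiePoly br g → LiePoly br (fun x y => br (f x y) (g x y))

/-- Lie polynomials without linear term. -/
inductive LieBr {X : Type} [AddCommGroup X] [Module ℝ X] (br : X →ₗ[ℝ] X →ₗ[ℝ] X) :
    (X → X → X) → Prop
  | zero : LieBr br (fun _ _ => 0)
  | lie {f g} : LiePoly br f → LiePoly br g → LieBr br (fun x y => br (f x y) (g x y))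
  | add {f g} : LieBr br f → LieBr br g → LieBr br (fun x y => f x y + g x y)
  | smul (t : ℝ) {f} : LieBr br f → LieBr br (fun x y => t • f x y)

structure Geo where
  d : ℕ
  k : ℕ
  br : Eu d →ₗ[ℝ] Eu d →ₗ[ℝ] Eu d
  wt : Fin d → Eu k
  a : Eu d →ₗ[ℝ] Eu k
  star : Eu d → Eu d → Eu d
  c : ℕ
  br_self : ∀ x, br x x = 0
  jacobi : ∀ x y z, br x (br y z) = br (br x y) z + br y (br x z)
  nil : ∀ l : List (Eu d), c ≤ l.length → ∀ y, l.foldr (fun x z => br x z) y = 0
  br_wt : ∀ i j m, br (EuclideanSpace.single i 1) (EuclideanSpace.single j 1) m ≠ 0 →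
    wt m = wt i + wt j
  a_br : ∀ x y, a (br x y) = 0
  a_wt : ∀ i, wt i ≠ 0 → a (EuclideanSpace.single i 1) = 0
  a_surj : Function.Surjective a
  unimod : ∑ i, wt i = 0
  wt_span : ∀ v, (∀ i, ⟪wt i, v⟫_ℝ = 0) → v = 0
  star_assoc : ∀ x y z, star (star x y) z = star x (star y z)
  bch : LieBr br (fun x y => star x y - x - y)
  conj : ∀ x y, star (star x y) (-x) =
    ∑ j ∈ Finset.range c, ((j.factorial : ℝ)⁻¹) • ((br x) ^ j) y

section LieBasics
variable {X : Type} [AddCommGroup X] [Module ℝ X] {br : X →ₗ[ℝ] X →ₗ[ℝ] X}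

theorem LieBr.liePoly {f} (h : LieBr br f) : LiePoly br f := by
  induction h with
  | zero => simpa using LiePoly.smul (br := br) 0 LiePoly.fst
  | lie hf hg => exact hf.lie hg
  | add _ _ h1 h2 => exact h1.add h2
  | smul t _ h => exact h.smul t

theorem LiePoly.mem {f} (h : LiePoly br f) (W : Submodule ℝ X)
    (hW : ∀ x ∈ W, ∀ y ∈ W, br x y ∈ W) {x y : X} (hx : x ∈ W) (hy : y ∈ W) : f x y ∈ W := by
  induction h with
  | fst => exact hx
  | snd => exact hy
  | add _ _ h1 h2 => exact W.add_mem h1 h2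
  | smul t _ h => exact W.smul_mem t h
  | lie _ _ h1 h2 => exact hW _ h1 _ h2

theorem LieBr.mem {f} (h : LieBr br f) (W W' : Submodule ℝ X)
    (hW : ∀ x ∈ W, ∀ y ∈ W, br x y ∈ W) (hW' : ∀ x ∈ W, ∀ y ∈ W, br x y ∈ W')
    {x y : X} (hx : x ∈ W) (hy : y ∈ W) : f x y ∈ W' := by
  induction h with
  | zero => exact W'.zero_mem
  | lie hf hg => exact hW' _ (hf.mem W hW hx hy) _ (hg.mem W hW hx hy)
  | add _ _ h1 h2 => exact W'.add_mem h1 h2
  | smul t _ h => exact W'.smul_mem t h

theorem LiePoly.map {f} (h : LiePoly br f) (T : X →ₗ[ℝ] X)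
    (hT : ∀ x y, T (br x y) = br (T x) (T y)) (x y : X) : T (f x y) = f (T x) (T y) := by
  induction h with
  | fst => rfl
  | snd => rfl
  | add _ _ h1 h2 => simp [h1, h2]
  | smul t _ h => simp [h]
  | lie _ _ h1 h2 => simp [hT, h1, h2]

theorem LieBr.line {f} (h : LieBr br f) (hs : ∀ x, br x x = 0) (x : X) (s t : ℝ) :
    f (s • x) (t • x) = 0 := by
  have key : ∀ u ∈ Submodule.span ℝ {x}, ∀ v ∈ Submodule.span ℝ {x}, br u v = 0 := by
    intro u hu v hv
    obtain ⟨p, rfl⟩ := Submodule.mem_span_singleton.1 hu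
    obtain ⟨q, rfl⟩ := Submodule.mem_span_singleton.1 hv
    simp [hs]
  have := h.mem (Submodule.span ℝ {x}) ⊥ (fun u hu v hv => by simp [key u hu v hv])
    (fun u hu v hv => by simp [key u hu v hv])
    (Submodule.smul_mem _ s (Submodule.mem_span_singleton_self x))
    (Submodule.smul_mem _ t (Submodule.mem_span_singleton_self x))
  simpa using this

end LieBasics

namespace Geo
variable (M : Geo)

/-- The underlying vector space, also the group. -/
def G : Type := Eu M.d
/-- The height space. -/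
abbrev V : Type := Eu M.k

noncomputable instance : NormedAddCommGroup M.G := inferInstanceAs (NormedAddCommGroup (Eu M.d))
noncomputable instance : InnerProductSpace ℝ M.G := inferInstanceAs (InnerProductSpace ℝ (Eu M.d))
instance : FiniteDimensional ℝ M.G := inferInstanceAs (FiniteDimensional ℝ (Eu M.d))
noncomputable instance : MeasurableSpace M.G := borel M.G
instance : BorelSpace M.G := ⟨rfl⟩

/-- The `i`-th coordinate. -/
noncomputable def co (i : Fin M.d) : M.G →ₗ[ℝ] ℝ := (EuclideanSpace.proj i : Eu M.d →L[ℝ] ℝ).toLinearMap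
/-- The `i`-th basis vector, of weight `wt i`. -/
noncomputable def X (i : Fin M.d) : M.G := (EuclideanSpace.single i 1 : Eu M.d)
/-- The bracket. -/
def B : M.G →ₗ[ℝ] M.G →ₗ[ℝ] M.G := M.br
/-- The height homomorphism. -/
def A : M.G →ₗ[ℝ] M.V := M.a
/-- The BCH product. -/
def st (x y : M.G) : M.G := M.star x y
/-- The diagonal automorphism. -/
noncomputable def del (v : M.V) : M.G →ₗ[ℝ] M.G :=
  ∑ i, (M.co i).smulRight (Real.exp ⟪M.wt i, v⟫_ℝ • M.X i)

theorem co_X (i j : Fin M.d) : M.co i (M.X j) = if i = j then 1 else 0 := by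
  show (EuclideanSpace.single j (1:ℝ) : Eu M.d) i = _
  simp

theorem ext_co {x y : M.G} (h : ∀ i, M.co i x = M.co i y) : x = y := by
  have : (x : Eu M.d) = y := by
    apply PiLp.ext
    intro i
    exact h i
  exact this

theorem sum_co (x : M.G) : ∑ i, M.co i x • M.X i = x := by
  apply M.ext_co
  intro j
  simp [map_sum, co_X]

theorem co_del (v : M.V) (x : M.G) (i : Fin M.d) :
    M.co i (M.del v x) = Real.exp ⟪M.wt i, v⟫_ℝ * M.co i x := by
  simp [del, LinearMap.sum_apply, map_sum, co_X, mul_comm]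

theorem del_X (v : M.V) (i : Fin M.d) : M.del v (M.X i) = Real.exp ⟪M.wt i, v⟫_ℝ • M.X i := by
  apply M.ext_co
  intro j
  by_cases h : j = i
  · subst h; simp [co_del, co_X]
  · simp [co_del, co_X, h]

theorem del_zero (x : M.G) : M.del 0 x = x := by
  apply M.ext_co; intro i; simp [co_del]

theorem del_add (v w : M.V) (x : M.G) : M.del (v + w) x = M.del v (M.del w x) := by
  apply M.ext_co; intro i; simp [co_del, inner_add_right, Real.exp_add, mul_assoc]

theorem B_self (x : M.G) : M.B x x = 0 := M.br_self x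

theorem B_jacobi (x y z : M.G) : M.B x (M.B y z) = M.B (M.B x y) z + M.B y (M.B x z) :=
  M.jacobi x y z

theorem B_anti (x y : M.G) : M.B x y = -M.B y x := by
  have h := M.B_self (x + y)
  simp only [map_add, LinearMap.add_apply, B_self, zero_add, add_zero] at h
  exact eq_neg_of_add_eq_zero_right h

theorem B_wt (i j m : Fin M.d) (h : M.co m (M.B (M.X i) (M.X j)) ≠ 0) :
    M.wt m = M.wt i + M.wt j := M.br_wt i j m h

theorem A_B (x y : M.G) : M.A (M.B x y) = 0 := M.a_br x y

theorem A_X (i : Fin M.d) (h : M.wt i ≠ 0) : M.A (M.X i) = 0 := M.a_wt i h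

theorem bchG : LieBr M.B (fun x y => M.st x y - x - y) := M.bch

theorem del_B (v : M.V) (x y : M.G) : M.del v (M.B x y) = M.B (M.del v x) (M.del v y) := by
  have key : ∀ i j, M.del v (M.B (M.X i) (M.X j)) = M.B (M.del v (M.X i)) (M.del v (M.X j)) := by
    intro i j
    apply M.ext_co
    intro m
    rw [co_del, del_X, del_X]
    simp only [map_smul, LinearMap.smul_apply, smul_eq_mul]
    by_cases h : M.co m (M.B (M.X i) (M.X j)) = 0
    · simp [h]
    · rw [M.B_wt i j m h, inner_add_left, Real.exp_add]; ring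
  rw [← M.sum_co x, ← M.sum_co y]
  simp only [map_sum, map_smul, LinearMap.sum_apply, LinearMap.smul_apply, key]

theorem A_del (v : M.V) (x : M.G) : M.A (M.del v x) = M.A x := by
  rw [← M.sum_co x]
  simp only [map_sum, map_smul, del_X]
  refine Finset.sum_congr rfl fun i _ => ?_
  by_cases h : M.wt i = 0
  · simp [h]
  · simp [M.A_X i h]

theorem st_smul (x : M.G) (s t : ℝ) : M.st (s • x) (t • x) = (s + t) • x := by
  have := M.bchG.line M.B_self x s t
  rw [add_smul]
  rw [sub_sub, sub_eq_zero] at this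
  exact this

theorem st_zero (x : M.G) : M.st x 0 = x := by simpa using M.st_smul x 1 0
theorem zero_st (x : M.G) : M.st 0 x = x := by simpa using M.st_smul x 0 1
theorem neg_st (x : M.G) : M.st (-x) x = 0 := by simpa using M.st_smul x (-1) 1
theorem st_neg (x : M.G) : M.st x (-x) = 0 := by simpa using M.st_smul x 1 (-1)
theorem st_assoc (x y z : M.G) : M.st (M.st x y) z = M.st x (M.st y z) := M.star_assoc x y z

theorem A_st (x y : M.G) : M.A (M.st x y) = M.A x + M.A y := by
  have := M.bchG.mem ⊤ (LinearMap.ker M.A) (by simp) (fun x _ y _ => M.A_B x y)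
    (x := x) (y := y) trivial trivial
  simp only [LinearMap.mem_ker, map_sub] at this
  rw [sub_sub, sub_eq_zero] at this
  exact this

theorem del_st (v : M.V) (x y : M.G) : M.del v (M.st x y) = M.st (M.del v x) (M.del v y) := by
  have := M.bchG.liePoly.map (M.del v) (M.del_B v) x y
  simp only [map_sub] at this
  have h2 := sub_left_injective this
  exact sub_left_injective h2

noncomputable instance : Group M.G where
  mul x y := M.st x (M.del (M.A x) y)
  one := 0
  inv x := -M.del (-M.A x) x
  mul_assoc x y z := by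
    show M.st (M.st x (M.del (M.A x) y)) (M.del (M.A (M.st x (M.del (M.A x) y))) z) =
      M.st x (M.del (M.A x) (M.st y (M.del (M.A y) z)))
    rw [A_st, A_del, del_st, del_add, st_assoc]
  one_mul x := by
    show M.st 0 (M.del (M.A 0) x) = x
    rw [map_zero, del_zero, zero_st]
  mul_one x := by
    show M.st x (M.del (M.A x) 0) = x
    rw [map_zero, st_zero]
  inv_mul_cancel x := by
    show M.st (-M.del (-M.A x) x) (M.del (M.A (-M.del (-M.A x) x)) x) = 0
    rw [map_neg, A_del, neg_st]

theorem mul_def (x y : M.G) : x * y = M.st x (M.del (M.A x) y) := rfl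
theorem one_def : (1 : M.G) = 0 := rfl
theorem inv_def (x : M.G) : x⁻¹ = -M.del (-M.A x) x := rfl

theorem A_mul (x y : M.G) : M.A (x * y) = M.A x + M.A y := by rw [mul_def, A_st, A_del]
theorem A_inv (x : M.G) : M.A x⁻¹ = -M.A x := by rw [inv_def, map_neg, A_del]
theorem A_one : M.A 1 = 0 := map_zero _

/-- The generating set of `G`: the closed unit ball. -/
def Q : Set M.G := Metric.closedBall 0 1
/-- Word length in `G`, as a real number. -/
noncomputable def ln (g : M.G) : ℝ := (wlen M.Q g : ℝ)

end Geo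
end Vale.Agent.P188
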