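import Vale.Agent.P188.Haar1

/-! Invariance of Lebesgue measures under the group law.
The engine is `map_subMu_of_unip` (Haar1): a measurable map of a subspace that is the identity plus
a map raising a finite filtration preserves Lebesgue measure.  For `del`: determinant `1` on `G`,
the identity on `G / e`, hence determinant `1` on `e`. -/

namespace Vale.Agent.P188.Geo
open scoped InnerProductSpace Pointwise
open MeasureTheory
variable (M : Geo)

/-- Subalgebras on which the group law is the BCH law. -/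
structure Sub (H : Submodule ℝ M.G) : Prop where
  lie : ∀ x ∈ H, ∀ y ∈ H, M.B x y ∈ H
  tame : M.Tame (H : Set M.G)

theorem sub_e : M.Sub M.e := ⟨fun x _ _ hy => M.B_e x hy, M.tame_of_e subset_rfl⟩
theorem sub_u0 : M.Sub M.u0 := ⟨fun _ hx _ hy => M.B_u0 hx hy, M.tame_of_u0 subset_rfl⟩

theorem Sub.mul_eq {H} (hH : M.Sub H) {x y : M.G} (hx : x ∈ H) (hy : y ∈ H) : x * y = M.st x y :=
  M.mul_eq_st (hH.tame.imp (fun h => h x hx) (fun h => h y hy))

theorem map_mul_left {H} (hH : M.Sub H) {g : M.G} (hg : g ∈ H) :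
    (subMu H).map (fun x => g * x) = subMu H :=
  (subMu_map_congr H fun _ hx => hH.mul_eq M hg hx).trans (M.map_st hH.lie hg).2
theorem map_mul_right {H} (hH : M.Sub H) {g : M.G} (hg : g ∈ H) :
    (subMu H).map (fun x => x * g) = subMu H :=
  (subMu_map_congr H fun _ hx => hH.mul_eq M hx hg).trans (M.map_st hH.lie hg).1
theorem map_inv {H} (hH : M.Sub H) : (subMu H).map (fun x => x⁻¹) = subMu H :=
  (subMu_map_congr H fun x hx =>
    M.inv_eq_neg (hH.tame.imp (fun h => h x hx) (fun h => h x hx))).trans (subMu_map_neg H)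
theorem map_Ad_unip (H : Submodule ℝ M.G) {g : M.G} (hg : M.A g = 0 ∨ H ≤ M.u0)
    (h : ∀ y ∈ H, M.B g y ∈ H) : (subMu H).map (M.Ad g) = subMu H := by
  refine (subMu_map_congr H fun x hx => ?_).trans (M.map_exp H h)
  rw [Ad, LinearMap.comp_apply]
  rcases hg with hg | hg
  · rw [hg, del_zero]
  · rw [M.del_u0 _ (hg hx)]

theorem del_neg_del (v : M.V) (x : M.G) : M.del (-v) (M.del v x) = x := by
  rw [← del_add, neg_add_cancel, del_zero]

theorem del_del_neg (v : M.V) (x : M.G) : M.del v (M.del (-v) x) = x := by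
  rw [← del_add, add_neg_cancel, del_zero]

theorem mE_image_del (v : M.V) (S : Set M.G) : M.mE (M.del v '' S) = M.mE S := by
  have h : M.del v '' S ∩ M.e = M.del v '' (S ∩ M.e) := by
    refine Set.Subset.antisymm ?_ ?_
    · rintro _ ⟨⟨x, hx, rfl⟩, h2⟩
      refine ⟨x, ⟨hx, ?_⟩, rfl⟩
      rw [← M.del_neg_del v x]
      exact M.del_e _ h2
    · rintro _ ⟨x, hx, rfl⟩
      exact ⟨⟨x, hx.1, rfl⟩, M.del_e v hx.2⟩
  rw [mE, ← subMu_inter, h, subMu_image_linear M.e (M.del v) (fun _ hx => M.del_e v hx) _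
    Set.inter_subset_right, det_del_e, subMu_inter]
  simp

theorem map_del_e (v : M.V) : M.mE.map (M.del v) = M.mE := by
  ext s hs
  rw [Measure.map_apply (LinearMap.continuous_of_finiteDimensional _).measurable hs,
    ← M.mE_image_del (-v) s,
    Set.image_eq_preimage_of_inverse (M.del_del_neg v) (M.del_neg_del v)]

theorem map_Ad_e (g : M.G) : M.mE.map (M.Ad g) = M.mE := by
  rw [Ad, LinearMap.coe_comp, ← Measure.map_map
    (LinearMap.continuous_of_finiteDimensional _).measurable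
    (LinearMap.continuous_of_finiteDimensional _).measurable, map_del_e]
  exact M.map_exp M.e fun _ hy => M.B_e g hy

theorem mE_image_Ad (g : M.G) (S : Set M.G) : M.mE (M.Ad g '' S) = M.mE S := by
  have h1 : ∀ x, M.Ad g⁻¹ (M.Ad g x) = x := fun x => by rw [← Ad_mul, inv_mul_cancel, Ad_one]
  have h2 : ∀ x, M.Ad g (M.Ad g⁻¹ x) = x := fun x => by rw [← Ad_mul, mul_inv_cancel, Ad_one]
  let φ : M.G ≃ₜ M.G := ⟨⟨M.Ad g⁻¹, M.Ad g, h2, h1⟩, LinearMap.continuous_of_finiteDimensional _,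
    LinearMap.continuous_of_finiteDimensional _⟩
  have h3 : MeasurableEmbedding (M.Ad g⁻¹) := φ.measurableEmbedding
  rw [Set.image_eq_preimage_of_inverse h1 h2, ← h3.map_apply, map_Ad_e]
theorem mE_preimage_mul_left {g : M.G} (hg : g ∈ M.e) (S : Set M.G) :
    M.mE ((fun x => g * x) ⁻¹' S) = M.mE S := by
  have h : MeasurableEmbedding (fun x => g * x) := (Homeomorph.mulLeft g).measurableEmbedding
  rw [← h.map_apply, mE, M.map_mul_left M.sub_e hg]
theorem mE_preimage_mul_right {g : M.G} (hg : g ∈ M.e) (S : Set M.G) :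
    M.mE ((fun x => x * g) ⁻¹' S) = M.mE S := by
  have h : MeasurableEmbedding (fun x => x * g) := (Homeomorph.mulRight g).measurableEmbedding
  rw [← h.map_apply, mE, M.map_mul_right M.sub_e hg]
theorem mE_K_pos (r) : 0 < M.mE.real (M.K r) := by
  obtain ⟨C, hC, h⟩ := M.ball_subset_K
  have ht : 0 ≤ ∑ i, |r i| := Finset.sum_nonneg fun i _ => abs_nonneg _
  have h1 := M.K_subset_smul (r := r) (r' := 0) ht fun i _ => by
    have := Finset.single_le_sum (f := fun i => |r i|) (fun i _ => abs_nonneg _) (Finset.mem_univ i)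
    simp only [Pi.zero_apply]
    linarith [neg_abs_le (r i)]
  generalize ∑ i, |r i| = t at h1
  have hE := Real.exp_pos (M.c * t)
  refine ENNReal.toReal_pos (subMu_pos M.e (ε := 1 / (C * Real.exp (M.c * t))) (by positivity)
    fun x hx hn => ?_) ((M.K_isLB r).compact.measure_lt_top (μ := subMu M.e)).ne
  obtain ⟨y, hy, e⟩ := h x hx
  have h2 := (M.K_isLB r).sc.smul_mem_smul hE.le (h1 hy) (t := C * ‖x‖) (u := 1) (by
    rw [abs_of_nonneg (by positivity)]
    rw [le_div_iff₀ (by positivity)] at hn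
    linarith)
  rw [one_smul] at h2
  rw [← e]
  exact h2
theorem mu0_Z_pos {ρ : ℝ} (h : 0 < ρ) : 0 < (subMu M.u0).real (M.Z ρ) := by
  obtain ⟨C, hC, hZ⟩ := M.mem_Z
  refine ENNReal.toReal_pos (subMu_pos M.u0 (ε := ρ / C) (by positivity) fun x hx hn => ?_)
    (M.Z_isLB ρ).compact.measure_lt_top.ne
  rw [le_div_iff₀ (by positivity)] at hn
  exact M.Z_mono (by positivity) (by linarith) (hZ x hx)

/-- Fubini along an ideal `I` of a subalgebra `H`. -/
theorem fubini_sub {I H : Submodule ℝ M.G} (hH : M.Sub H) (hI : I ≤ H)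
    (hi : ∀ x ∈ H, ∀ y ∈ I, M.B x y ∈ I) {f : M.G → ENNReal} (hf : Measurable f) :
    (∫⁻ x, f x ∂(subMu H) = ∫⁻ q, ∫⁻ i, f (i * q) ∂(subMu I) ∂(subMu (H ⊓ Iᗮ))) ∧
    (∫⁻ x, f x ∂(subMu H) = ∫⁻ q, ∫⁻ i, f (q * i) ∂(subMu I) ∂(subMu (H ⊓ Iᗮ))) := by
  obtain ⟨h1, h2⟩ := M.fubini_st hH.lie hI hi hf
  refine ⟨h1.trans ?_, h2.trans ?_⟩
  · exact lintegral_congr_ae ((subMu_ae _).mono fun q hq => lintegral_congr_ae
      ((subMu_ae _).mono fun i hi' => by simp only [hH.mul_eq M (hI hi') hq.1]))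
  · exact lintegral_congr_ae ((subMu_ae _).mono fun q hq => lintegral_congr_ae
      ((subMu_ae _).mono fun i hi' => by simp only [hH.mul_eq M hq.1 (hI hi')]))

theorem map_quot_aux {I H : Submodule ℝ M.G} (hI : I ≤ H) {T : M.G → M.G} (hT : Continuous T)
    (hH : ∀ x ∈ H, T x ∈ H) (h : ∀ j, ∀ x ∈ H, ∀ x' ∈ H, x - x' ∈ (M.fil j ⊓ H) ⊔ I →
      (T x - x) - (T x' - x') ∈ (M.fil (j + 1) ⊓ H) ⊔ I) :
    (subMu (H ⊓ Iᗮ)).map (fun q => (H ⊓ Iᗮ).starProjection (T q)) = subMu (H ⊓ Iᗮ) := by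
  have key := map_subMu_of_unip (fun j => (M.fil j ⊓ H) ⊔ I)
    (fun _ _ hij => sup_le_sup_right (inf_le_inf_right _ (M.fil_anti hij)) _) M.c (H ⊓ Iᗮ)
    (fun q => (H ⊓ Iᗮ).starProjection (T q - q))
    ((H ⊓ Iᗮ).starProjection.continuous.comp (hT.sub continuous_id)).measurable
    (fun _ _ => Submodule.starProjection_apply_mem _ _)
    (fun x hx => Submodule.mem_sup_left ⟨M.fil_zero x, hx.1⟩) (by
      simp only [fil_c, bot_inf_eq, bot_sup_eq]
      rw [eq_bot_iff, ← I.inf_orthogonal_eq_bot]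
      exact fun x hx => ⟨hx.2, hx.1.2⟩) (by
      intro j x hx x' hx' hxx
      rw [← map_sub, proj_inf_orth hI
        (H.sub_mem (H.sub_mem (hH x hx.1) hx.1) (H.sub_mem (hH x' hx'.1) hx'.1))]
      exact Submodule.sub_mem _ (h j x hx.1 x' hx'.1 hxx)
        (Submodule.mem_sup_right (I.starProjection_apply_mem _)))
  refine (subMu_map_congr _ fun q hq => ?_).trans key
  rw [map_sub, Submodule.starProjection_eq_self_iff.2 hq, add_sub_cancel]

theorem B_filq {I H : Submodule ℝ M.G} (hH : ∀ x ∈ H, ∀ y ∈ H, M.B x y ∈ H)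
    (hi : ∀ x ∈ H, ∀ y ∈ I, M.B x y ∈ I) (j : ℕ) :
    ∀ x ∈ H, ∀ y ∈ (M.fil j ⊓ H) ⊔ I, M.B x y ∈ (M.fil (j + 1) ⊓ H) ⊔ I := by
  intro x hx y hy
  obtain ⟨a, ha, b, hb, rfl⟩ := Submodule.mem_sup.1 hy
  rw [map_add]
  exact Submodule.add_mem_sup ⟨M.B_fil x ha.1, hH x hx a ha.2⟩ (hi x hx b hb)

/-- Invariance of the quotient measure. -/
theorem map_quot {I H : Submodule ℝ M.G} (hH : M.Sub H) (hI : I ≤ H)
    (hi : ∀ x ∈ H, ∀ y ∈ I, M.B x y ∈ I) {g : M.G} (hg : g ∈ H) :
    (subMu (H ⊓ Iᗮ)).map (fun q => (H ⊓ Iᗮ).starProjection (g * q)) = subMu (H ⊓ Iᗮ) ∧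
    (subMu (H ⊓ Iᗮ)).map (fun q => (H ⊓ Iᗮ).starProjection (q * g)) = subMu (H ⊓ Iᗮ) := by
  have hB := M.B_filq hH.lie hi
  have hB' : ∀ j, ∀ x ∈ H, ∀ y ∈ (M.fil j ⊓ H) ⊔ I, M.B x y ∈ (M.fil j ⊓ H) ⊔ I :=
    fun j x hx y hy => sup_le_sup_right (inf_le_inf_right _ (M.fil_anti (Nat.le_succ j))) I
      (hB j x hx y hy)
  constructor
  · refine (subMu_map_congr _ fun q hq => by rw [hH.mul_eq M hg hq.1]).trans
      (M.map_quot_aux hI (M.cont_st_right g) (fun x hx => M.st_mem H hH.lie hg hx)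
        fun j x hx x' hx' hxx => ?_)
    have h1 := M.st_sub_mem hH.lie (hB' j) (hB j) hg hx hg hx' (by simp) hxx
    rwa [show M.st g x - g - x - (M.st g x' - g - x') = M.st g x - x - (M.st g x' - x') by
      abel] at h1
  · refine (subMu_map_congr _ fun q hq => by rw [hH.mul_eq M hq.1 hg]).trans
      (M.map_quot_aux hI (M.cont_st_left g) (fun x hx => M.st_mem H hH.lie hx hg)
        fun j x hx x' hx' hxx => ?_)
    have h1 := M.st_sub_mem hH.lie (hB' j) (hB j) hx hg hx' hg hxx (by simp)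
    rwa [show M.st x g - x - g - (M.st x' g - x' - g) = M.st x g - x - (M.st x' g - x') by
      abel] at h1
theorem proj_mul {I H : Submodule ℝ M.G} (hH : M.Sub H) (hI : I ≤ H)
    (hi : ∀ x ∈ H, ∀ y ∈ I, M.B x y ∈ I) {x y : M.G} (hx : x ∈ H) (hy : y ∈ H) :
    (H ⊓ Iᗮ).starProjection (x * y) = (H ⊓ Iᗮ).starProjection
      ((H ⊓ Iᗮ).starProjection x * (H ⊓ Iᗮ).starProjection y) := by
  have hx' : (H ⊓ Iᗮ).starProjection x ∈ H := ((H ⊓ Iᗮ).starProjection_apply_mem x).1
  have hy' : (H ⊓ Iᗮ).starProjection y ∈ H := ((H ⊓ Iᗮ).starProjection_apply_mem y).1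
  have h1 : x - (H ⊓ Iᗮ).starProjection x ∈ I := by
    rw [proj_inf_orth hI hx, sub_sub_cancel]
    exact I.starProjection_apply_mem x
  have h2 : y - (H ⊓ Iᗮ).starProjection y ∈ I := by
    rw [proj_inf_orth hI hy, sub_sub_cancel]
    exact I.starProjection_apply_mem y
  rw [hH.mul_eq M hx hy, hH.mul_eq M hx' hy', ← sub_eq_zero, ← map_sub,
    Submodule.starProjection_apply_eq_zero_iff]
  have h3 := I.add_mem (I.add_mem (M.st_sub_mem hH.lie hi hi hx hy hx' hy' h1 h2) h1) h2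
  generalize (H ⊓ Iᗮ).starProjection x = x' at h3 ⊢
  generalize (H ⊓ Iᗮ).starProjection y = y' at h3 ⊢
  rw [show M.st x y - x - y - (M.st x' y' - x' - y') + (x - x') + (y - y') =
    M.st x y - M.st x' y' by abel] at h3
  exact Submodule.orthogonal_le inf_le_right (I.le_orthogonal_orthogonal h3)
theorem fubini_G {f : M.G → ENNReal} (hf : Measurable f) :
    ∫⁻ x, f x = ∫⁻ q, ∫⁻ y, f (y * q) ∂M.mE ∂(subMu M.eᗮ) := by
  have h := (M.fubini_st (I := M.e) (H := ⊤) (fun _ _ _ _ => trivial) le_top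
    (fun x _ _ hy => M.B_e x hy) hf).1
  rw [subMu_top, top_inf_eq] at h
  rw [h, mE]
  exact lintegral_congr fun q => lintegral_congr_ae ((subMu_ae _).mono fun y hy => by
    simp only [M.mul_eq_st (y := q) (Or.inl (M.A_e hy))])
instance : (volume : Measure M.G).IsMulLeftInvariant := by
  refine ⟨fun g => ?_⟩
  have h1 := (M.map_st (H := ⊤) (fun _ _ _ _ => trivial) (q := g) trivial).2
  rw [subMu_top] at h1
  have h2 : (volume : Measure M.G).map (M.del (M.A g)) = volume := by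
    rw [Measure.map_linearMap_addHaar_eq_smul_addHaar _ (by rw [det_del]; exact one_ne_zero),
      det_del]
    simp
  have h3 := Measure.map_map (μ := (volume : Measure M.G)) (M.cont_st_right g).measurable
    (LinearMap.continuous_of_finiteDimensional (M.del (M.A g))).measurable
  rw [h2, h1] at h3
  exact h3.symm
instance : (volume : Measure M.G).IsMulRightInvariant := by
  refine ⟨fun g => ?_⟩
  let F : ℕ → Submodule ℝ M.G := fun j => Nat.casesOn j ⊤ fun i => M.fil i ⊓ LinearMap.ker M.A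
  have hF : Antitone F := antitone_nat_of_succ_le fun j => by
    cases j with
    | zero => exact le_top
    | succ i => exact inf_le_inf_right _ (M.fil_anti (Nat.le_succ i))
  have hA : ∀ x x' : M.G, (x * g - x) - (x' * g - x') ∈ LinearMap.ker M.A := fun x x' => by
    simp [LinearMap.mem_ker, A_mul]
  have key := map_subMu_of_unip F hF (M.c + 1) ⊤ (fun x => x * g - x)
    ((continuous_mul_right g).sub continuous_id).measurable (fun _ _ => trivial) le_rfl (by
      show ⊤ ⊓ (M.fil M.c ⊓ LinearMap.ker M.A) = ⊥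
      rw [fil_c, bot_inf_eq, inf_bot_eq]) (by
      intro j x _ x' _ hxx
      refine ⟨?_, hA x x'⟩
      cases j with
      | zero => exact M.fil_zero _
      | succ i =>
        have h1 : M.A x = M.A x' := by
          have := hxx.2
          rwa [SetLike.mem_coe, LinearMap.mem_ker, map_sub, sub_eq_zero] at this
        have h2 := M.st_fil (y := M.del (M.A x) g) (y' := M.del (M.A x) g) hxx.1 (by simp)
        rw [mul_def, mul_def, ← h1]
        rwa [sub_sub_sub_cancel_right] at h2)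
  rw [subMu_top] at key
  simpa using key

theorem real_smul_diff {H : Submodule ℝ M.G} {S : Set M.G} (hS : M.IsLB S) {a b D : ℝ}
    (ha : 0 < a) (hab : a ≤ b) (hb : b ≤ D) (hD : 1 ≤ D) :
    (subMu H).real ((b • S) \ (a • S)) ≤
      (b - a) * (Module.finrank ℝ H * D ^ Module.finrank ℝ H) * (subMu H).real S := by
  rw [measureReal_sdiff (hS.sc.smul_mono (by rwa [abs_of_pos ha])) (hS.compact.smul a).measurableSet
    (hS.compact.smul b).measure_lt_top.ne, subMu_real_smul H b (ha.trans_le hab),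
    subMu_real_smul H a ha, ← sub_mul]
  refine mul_le_mul_of_nonneg_right ?_ measureReal_nonneg
  generalize Module.finrank ℝ H = n
  refine (le_abs_self _).trans ((abs_pow_sub_pow_le b a n).trans ?_)
  rw [abs_of_nonneg (sub_nonneg.2 hab), abs_of_pos ha, abs_of_pos (ha.trans_le hab),
    max_eq_left hab, mul_assoc]
  refine mul_le_mul_of_nonneg_left (mul_le_mul_of_nonneg_left ?_ (Nat.cast_nonneg n))
    (sub_nonneg.2 hab)
  exact (pow_le_pow_left₀ (ha.trans_le hab).le hb _).trans (pow_le_pow_right₀ hD (Nat.sub_le n 1))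

/-- Folner property of Lie bodies. -/
theorem folner_LB {H} (hH : M.Sub H) (C : ℝ) (hC : 1 ≤ C) : ∃ C' : ℝ, 1 ≤ C' ∧ ∀ S, M.IsLB S →
    S ⊆ H → ∀ β : ℝ, 0 ≤ β → β ≤ 1 →
      (subMu H).real (((C • S) * (β • S)) \ (C • S)) ≤ C' * β * (subMu H).real S ∧
      (subMu H).real (((β • S) * (C • S)) \ (C • S)) ≤ C' * β * (subMu H).real S ∧
      (subMu H).real {x ∈ C • S | ∃ y ∈ β • S, x * y ∉ C • S ∨ y * x ∉ C • S} ≤
        C' * β * (subMu H).real S := by
  obtain ⟨C1, hC1, h⟩ := M.mul_sub_mem C (by linarith)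
  set n := Module.finrank ℝ H with hn
  have hD : 1 ≤ C + C1 := by linarith
  have hDn : 1 ≤ (C + C1) ^ n := one_le_pow₀ hD
  have hn0 : (0 : ℝ) ≤ n := Nat.cast_nonneg n
  refine ⟨C1 * ((n + 1) * (C + C1) ^ n), one_le_mul_of_one_le_of_one_le hC1
    (one_le_mul_of_one_le_of_one_le (by linarith) hDn), fun S hS hSH β h0 h1 => ?_⟩
  have hβ : 0 ≤ C1 * β := by positivity
  have hβ1 : C1 * β ≤ C1 := mul_le_of_le_one_right (by linarith) h1
  have hm : 0 ≤ (subMu H).real S := measureReal_nonneg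
  have key : ∀ a : ℝ, 0 ≤ a → ∀ x ∈ C • S, x ∈ a • S → ∀ y ∈ β • S,
      x * y ∈ (a + C1 * β) • S ∧ y * x ∈ (a + C1 * β) • S := by
    intro a ha x hx hxa y hy
    have h2 := h S (β • S) hS (hH.tame.mono M hSH) (hS.sc.smul β) (by
      rintro u hu _ ⟨z, hz, rfl⟩
      exact ⟨M.B u z, hS.lie u hu z hz, (map_smul _ _ _).symm⟩) x hx y
      (hS.sc.smul_mono (by rw [abs_of_nonneg h0]; linarith) hy) hy
    rw [smul_smul] at h2
    have h3 := hS.sc.add_mem ha hβ hxa h2.1
    have h4 := hS.sc.add_mem ha hβ hxa h2.2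
    rw [add_sub_cancel] at h3 h4
    exact ⟨h3, h4⟩
  have hfin : ∀ a b : ℝ, subMu H ((b • S) \ (a • S)) ≠ ⊤ := fun a b =>
    ((measure_mono Set.diff_subset).trans_lt (hS.compact.smul b).measure_lt_top).ne
  have hc : C1 * β * (n * (C + C1) ^ n) * (subMu H).real S ≤
      C1 * ((n + 1) * (C + C1) ^ n) * β * (subMu H).real S := by
    refine mul_le_mul_of_nonneg_right ?_ hm
    nlinarith [mul_nonneg hβ (zero_le_one.trans hDn)]
  have up := M.real_smul_diff (H := H) hS (a := C) (b := C + C1 * β) (by linarith) (by linarith)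
    (by linarith) hD
  rw [add_sub_cancel_left] at up
  refine ⟨(measureReal_mono (Set.diff_subset_diff_left ?_) (hfin _ _)).trans (up.trans hc),
    (measureReal_mono (Set.diff_subset_diff_left ?_) (hfin _ _)).trans (up.trans hc), ?_⟩
  · rintro _ ⟨x, hx, y, hy, rfl⟩
    exact (key C (by linarith) x hx hx y hy).1
  · rintro _ ⟨y, hy, x, hx, rfl⟩
    exact (key C (by linarith) x hx hx y hy).2
  · rcases lt_or_ge (C1 * β) C with hlt | hge
    · have lo := M.real_smul_diff (H := H) hS (a := C - C1 * β) (b := C) (by linarith)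
        (by linarith) (by linarith) hD
      rw [sub_sub_cancel] at lo
      refine (measureReal_mono ?_ (hfin _ _)).trans (lo.trans hc)
      rintro x ⟨hx, y, hy, hxy⟩
      refine ⟨hx, fun hxa => ?_⟩
      have h2 := key _ (by linarith) x hx hxa y hy
      rw [sub_add_cancel] at h2
      exact hxy.elim (fun h3 => h3 h2.1) (fun h3 => h3 h2.2)
    · refine (measureReal_mono (Set.sep_subset _ _) (hS.compact.smul C).measure_lt_top.ne).trans ?_
      rw [subMu_real_smul H C (by linarith)]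
      refine mul_le_mul_of_nonneg_right ?_ hm
      have h2 : C ^ n ≤ (C + C1) ^ n := pow_le_pow_left₀ (by linarith) (by linarith) n
      have h3 := mul_le_mul_of_nonneg_right (hC.trans hge) (zero_le_one.trans hDn)
      nlinarith [mul_nonneg hβ (mul_nonneg hn0 (zero_le_one.trans hDn))]

end Vale.Agent.P188.Geo
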