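import Vale.Agent.P188.Conv
import Vale.Agent.P188.Body

/-! Unitriangular maps preserve Lebesgue measure (induction on the filtration, Fubini and
translation invariance), and the filtration of the nilpotent algebra. -/

namespace Vale.Agent.P188
open scoped InnerProductSpace Pointwise
open MeasureTheory

section
variable {X : Type} [NormedAddCommGroup X] [InnerProductSpace ℝ X] [FiniteDimensional ℝ X]
  [MeasurableSpace X] [BorelSpace X]

theorem subMu_ae (W : Submodule ℝ X) : ∀ᵐ x ∂(subMu W), x ∈ W := subMu_compl W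

theorem subMu_map_congr (W : Submodule ℝ X) {f g : X → X} (h : ∀ x ∈ W, f x = g x) :
    (subMu W).map f = (subMu W).map g :=
  Measure.map_congr ((subMu_ae W).mono h)

theorem lintegral_of_map {μ : Measure X} {T : X → X} (hT : Measurable T) (h : μ.map T = μ)
    {f : X → ENNReal} (hf : Measurable f) : ∫⁻ x, f (T x) ∂μ = ∫⁻ x, f x ∂μ := by
  rw [← lintegral_map hf hT, h]

theorem map_of_lintegral {μ : Measure X} {T : X → X} (hT : Measurable T)
    (h : ∀ f : X → ENNReal, Measurable f → ∫⁻ x, f (T x) ∂μ = ∫⁻ x, f x ∂μ) : μ.map T = μ := by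
  ext s hs
  have h1 := h (s.indicator 1) (measurable_one.indicator hs)
  rwa [← lintegral_map (measurable_one.indicator hs) hT, lintegral_indicator_one hs,
    lintegral_indicator_one hs] at h1

omit [MeasurableSpace X] [BorelSpace X] in
theorem proj_inf_orth {I H : Submodule ℝ X} (h : I ≤ H) {y : X} (hy : y ∈ H) :
    (H ⊓ Iᗮ).starProjection y = y - I.starProjection y := by
  refine Submodule.eq_starProjection_of_mem_orthogonal
    ⟨H.sub_mem hy (h (I.starProjection_apply_mem y)), I.sub_starProjection_mem_orthogonal y⟩ ?_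
  rw [sub_sub_cancel]
  exact Submodule.orthogonal_le inf_le_right
    (I.le_orthogonal_orthogonal (I.starProjection_apply_mem y))

theorem map_subMu_of_unip (F : ℕ → Submodule ℝ X) (hF : Antitone F) (n : ℕ) :
    ∀ (W : Submodule ℝ X) (g : X → X), Measurable g → (∀ x ∈ W, g x ∈ W) → W ≤ F 0 →
      W ⊓ F n = ⊥ → (∀ j, ∀ x ∈ W, ∀ x' ∈ W, x - x' ∈ F j → g x - g x' ∈ F (j + 1)) →
      (subMu W).map (fun x => x + g x) = subMu W := by
  induction n with
  | zero =>
    intro W g _ hW h0 hn _
    rw [inf_eq_left.2 h0] at hn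
    rw [subMu_map_congr W (g := id) ?_, Measure.map_id]
    intro x hx
    have h1 := hW x hx
    rw [hn, Submodule.mem_bot] at h1
    simp [h1]
  | succ n ih =>
    intro W g hg hW h0 hn hj
    set I := W ⊓ F n with hI
    have hIW : I ≤ W := inf_le_left
    have hP : Measurable fun x => I.starProjection (g x) :=
      I.starProjection.continuous.measurable.comp hg
    have hg' : Measurable fun x => g x - I.starProjection (g x) := hg.sub hP
    have hbot : (W ⊓ Iᗮ) ⊓ F n = ⊥ := by
      rw [eq_bot_iff, ← I.inf_orthogonal_eq_bot]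
      exact fun x hx => ⟨⟨hx.1.1, hx.2⟩, hx.1.2⟩
    have key := ih (W ⊓ Iᗮ) (fun x => g x - I.starProjection (g x)) hg'
      (fun x hx => ⟨W.sub_mem (hW x hx.1) (hIW (I.starProjection_apply_mem _)),
        I.sub_starProjection_mem_orthogonal _⟩) (inf_le_left.trans h0) hbot (by
        intro j x hx x' hx' hxx
        rcases le_or_gt n j with h | h
        · have h1 : x - x' ∈ (W ⊓ Iᗮ) ⊓ F n := ⟨Submodule.sub_mem _ hx hx', hF h hxx⟩
          rw [hbot, Submodule.mem_bot, sub_eq_zero] at h1
          rw [h1, sub_self]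
          exact Submodule.zero_mem _
        · have h1 : g x - I.starProjection (g x) - (g x' - I.starProjection (g x')) =
              (g x - g x') - I.starProjection (g x - g x') := by
            rw [map_sub]
            abel
          rw [h1]
          exact Submodule.sub_mem _ (hj j x hx.1 x' hx'.1 hxx)
            (hF h (I.starProjection_apply_mem _).2))
    refine map_of_lintegral (measurable_id.add hg) fun f hf => ?_
    have hΦ : Measurable fun q => ∫⁻ i, f (i + q) ∂(subMu I) :=
      Measurable.lintegral_prod_left (f := fun i q => f (i + q)) (hf.comp measurable_add)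
    rw [subMu_fubini hIW (f := fun x => f (x + g x)) (hf.comp (measurable_id.add hg)),
      subMu_fubini hIW hf, ← lintegral_of_map (T := fun x => x + (g x - I.starProjection (g x)))
        (measurable_id.add hg') key hΦ]
    refine lintegral_congr_ae ((subMu_ae _).mono fun q hq => ?_)
    have h2 := lintegral_of_map (by fun_prop)
      (subMu_map_add I (I.starProjection_apply_mem (g q)))
      (f := fun i => f (i + (q + (g q - I.starProjection (g q))))) (by fun_prop)
    refine Eq.trans ?_ h2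
    refine lintegral_congr_ae ((subMu_ae _).mono fun i hi => ?_)
    have h3 : g (i + q) - g q ∈ W ⊓ F (n + 1) :=
      ⟨W.sub_mem (hW _ (W.add_mem hi.1 hq.1)) (hW q hq.1),
        hj n _ (W.add_mem hi.1 hq.1) q hq.1 (by simpa using hi.2)⟩
    rw [hn, Submodule.mem_bot, sub_eq_zero] at h3
    simp only [h3]
    congr 1
    abel

end

theorem LieBr.sub_mem {X : Type} [AddCommGroup X] [Module ℝ X] {br : X →ₗ[ℝ] X →ₗ[ℝ] X} {f}
    (hf : LieBr br f) {K L L' : Submodule ℝ X} (hK : ∀ x ∈ K, ∀ y ∈ K, br x y ∈ K)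
    (hL : ∀ x ∈ K, ∀ y ∈ L, br x y ∈ L ∧ br y x ∈ L)
    (hL' : ∀ x ∈ K, ∀ y ∈ L, br x y ∈ L' ∧ br y x ∈ L') {x y x' y' : X} (hx : x ∈ K) (hy : y ∈ K)
    (hx' : x' ∈ K) (hy' : y' ∈ K) (h1 : x - x' ∈ L) (h2 : y - y' ∈ L) :
    f x y - f x' y' ∈ L' := by
  obtain ⟨C, -, h⟩ := hf.lip 1 zero_le_one
  obtain ⟨z, hz, e⟩ := h K L L' (SC.submodule K) (SC.submodule L) (SC.submodule L') hK hL hL'
    x (by rwa [one_smul]) y (by rwa [one_smul]) x' (by rwa [one_smul]) y' (by rwa [one_smul]) h1 h2
  rw [← e]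
  exact L'.smul_mem C hz

namespace Geo
variable (M : Geo)

/-- A central filtration. -/
noncomputable def fil (j : ℕ) : Submodule ℝ M.G :=
  ⨅ (l : List M.G) (_ : M.c ≤ l.length + j), LinearMap.ker ((l.map M.B).prod : Module.End ℝ M.G)

theorem mem_fil {j : ℕ} {y : M.G} : y ∈ M.fil j ↔
    ∀ l : List M.G, M.c ≤ l.length + j → ((l.map M.B).prod : Module.End ℝ M.G) y = 0 := by
  simp only [fil, Submodule.mem_iInf, LinearMap.mem_ker]

theorem fil_anti : Antitone M.fil := fun _ _ h _ hy =>
  M.mem_fil.2 fun l hl => M.mem_fil.1 hy l (by omega)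

theorem fil_zero (y : M.G) : y ∈ M.fil 0 := by
  refine M.mem_fil.2 fun l hl => Eq.trans ?_ (M.nil l hl y)
  clear hl
  induction l with
  | nil => rfl
  | cons a l ih =>
    rw [List.map_cons, List.prod_cons, Module.End.mul_apply, ih]
    rfl

theorem fil_c : M.fil M.c = ⊥ := by
  refine eq_bot_iff.2 fun y hy => ?_
  simpa using M.mem_fil.1 hy [] (by simp)

theorem B_fil (x : M.G) {j : ℕ} {y : M.G} (hy : y ∈ M.fil j) : M.B x y ∈ M.fil (j + 1) := by
  refine M.mem_fil.2 fun l hl => ?_
  have h := M.mem_fil.1 hy (l ++ [x]) (by simp only [List.length_append, List.length_singleton]; omega)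
  simpa using h

theorem B_two {K L L' : Submodule ℝ M.G} (h : ∀ x ∈ K, ∀ y ∈ L, M.B x y ∈ L') :
    ∀ x ∈ K, ∀ y ∈ L, M.B x y ∈ L' ∧ M.B y x ∈ L' := fun x hx y hy =>
  ⟨h x hx y hy, by rw [M.B_anti]; exact L'.neg_mem (h x hx y hy)⟩

theorem st_sub_mem {K L L' : Submodule ℝ M.G} (hK : ∀ x ∈ K, ∀ y ∈ K, M.B x y ∈ K)
    (hL : ∀ x ∈ K, ∀ y ∈ L, M.B x y ∈ L) (hL' : ∀ x ∈ K, ∀ y ∈ L, M.B x y ∈ L')
    {x y x' y' : M.G} (hx : x ∈ K) (hy : y ∈ K) (hx' : x' ∈ K) (hy' : y' ∈ K) (h1 : x - x' ∈ L)
    (h2 : y - y' ∈ L) : (M.st x y - x - y) - (M.st x' y' - x' - y') ∈ L' :=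
  M.bchG.sub_mem hK (M.B_two hL) (M.B_two hL') hx hy hx' hy' h1 h2

theorem st_fil {j : ℕ} {x y x' y' : M.G} (h1 : x - x' ∈ M.fil j) (h2 : y - y' ∈ M.fil j) :
    (M.st x y - x - y) - (M.st x' y' - x' - y') ∈ M.fil (j + 1) :=
  M.st_sub_mem (K := ⊤) (fun _ _ _ _ => trivial)
    (fun x _ _ hy => M.fil_anti (Nat.le_succ j) (M.B_fil x hy)) (fun x _ _ hy => M.B_fil x hy)
    trivial trivial trivial trivial h1 h2

theorem map_fil (W : Submodule ℝ M.G) {T : M.G → M.G} (hT : Measurable T)
    (hW : ∀ x ∈ W, T x ∈ W)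
    (h : ∀ j, ∀ x ∈ W, ∀ x' ∈ W, x - x' ∈ M.fil j → (T x - x) - (T x' - x') ∈ M.fil (j + 1)) :
    (subMu W).map T = subMu W := by
  have := map_subMu_of_unip M.fil M.fil_anti M.c W (fun x => T x - x) (hT.sub measurable_id)
    (fun x hx => W.sub_mem (hW x hx) hx) (fun x _ => M.fil_zero x) (by rw [fil_c, inf_bot_eq]) h
  simpa using this

theorem cont_st_left (q : M.G) : Continuous fun i => M.st i q :=
  M.continuous_st.comp (continuous_id.prodMk continuous_const)

theorem cont_st_right (q : M.G) : Continuous fun i => M.st q i :=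
  M.continuous_st.comp (continuous_const.prodMk continuous_id)

/-- Translations along an ideal. -/
theorem map_st_ideal {I H : Submodule ℝ M.G} (hH : ∀ x ∈ H, ∀ y ∈ H, M.B x y ∈ H) (hI : I ≤ H)
    (hi : ∀ x ∈ H, ∀ y ∈ I, M.B x y ∈ I) {q : M.G} (hq : q ∈ H) :
    (subMu I).map (fun i => M.st i q - q) = subMu I ∧
      (subMu I).map (fun i => M.st q i - q) = subMu I := by
  constructor
  · refine M.map_fil I ((M.cont_st_left q).measurable.sub_const q) (fun x hx => ?_)
      (fun j x _ x' _ h => ?_)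
    · have h1 := M.st_sub_mem hH hi hi (hI hx) hq H.zero_mem hq (by simpa using hx) (by simp)
      rw [M.zero_st] at h1
      have h2 := I.add_mem h1 hx
      rwa [show M.st x q - x - q - (q - 0 - q) + x = M.st x q - q by abel] at h2
    · have h1 := M.st_fil (y := q) (y' := q) h (by simp)
      rwa [show M.st x q - x - q - (M.st x' q - x' - q) =
        M.st x q - q - x - (M.st x' q - q - x') by abel] at h1
  · refine M.map_fil I ((M.cont_st_right q).measurable.sub_const q) (fun x hx => ?_)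
      (fun j x _ x' _ h => ?_)
    · have h1 := M.st_sub_mem hH hi hi hq (hI hx) hq H.zero_mem (by simp) (by simpa using hx)
      rw [M.st_zero] at h1
      have h2 := I.add_mem h1 hx
      rwa [show M.st q x - q - x - (q - q - 0) + x = M.st q x - q by abel] at h2
    · exact M.st_fil (x := q) (x' := q) (by simp) h

theorem map_st {H : Submodule ℝ M.G} (hH : ∀ x ∈ H, ∀ y ∈ H, M.B x y ∈ H) {q : M.G} (hq : q ∈ H) :
    (subMu H).map (fun i => M.st i q) = subMu H ∧ (subMu H).map (fun i => M.st q i) = subMu H := by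
  obtain ⟨h1, h2⟩ := M.map_st_ideal hH le_rfl hH hq
  have h3 := subMu_map_add H hq
  constructor
  · rw [← h1, Measure.map_map (by fun_prop) ((M.cont_st_left q).measurable.sub_const q)] at h3
    rw [h1] at h3
    simpa [Function.comp_def] using h3
  · rw [← h2, Measure.map_map (by fun_prop) ((M.cont_st_right q).measurable.sub_const q)] at h3
    rw [h2] at h3
    simpa [Function.comp_def] using h3

theorem fubini_st {I H : Submodule ℝ M.G} (hH : ∀ x ∈ H, ∀ y ∈ H, M.B x y ∈ H) (hI : I ≤ H)
    (hi : ∀ x ∈ H, ∀ y ∈ I, M.B x y ∈ I) {f : M.G → ENNReal} (hf : Measurable f) :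
    (∫⁻ x, f x ∂(subMu H) = ∫⁻ q, ∫⁻ i, f (M.st i q) ∂(subMu I) ∂(subMu (H ⊓ Iᗮ))) ∧
    (∫⁻ x, f x ∂(subMu H) = ∫⁻ q, ∫⁻ i, f (M.st q i) ∂(subMu I) ∂(subMu (H ⊓ Iᗮ))) := by
  rw [subMu_fubini hI hf]
  constructor
  · refine lintegral_congr_ae ((subMu_ae _).mono fun q hq => ?_)
    have h := lintegral_of_map ((M.cont_st_left q).measurable.sub_const q)
      (M.map_st_ideal hH hI hi hq.1).1 (f := fun i => f (i + q)) (by fun_prop)
    simpa using h.symm
  · refine lintegral_congr_ae ((subMu_ae _).mono fun q hq => ?_)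
    have h := lintegral_of_map ((M.cont_st_right q).measurable.sub_const q)
      (M.map_st_ideal hH hI hi hq.1).2 (f := fun i => f (i + q)) (by fun_prop)
    simpa using h.symm

/-- The exponential of an inner derivation. -/
theorem map_exp (H : Submodule ℝ M.G) {g : M.G} (h : ∀ y ∈ H, M.B g y ∈ H) :
    (subMu H).map (∑ j ∈ Finset.range M.c, ((j.factorial : ℝ)⁻¹) • ((M.B g) ^ j) :
      Module.End ℝ M.G) = subMu H := by
  have hp : ∀ W : Submodule ℝ M.G, (∀ y ∈ W, M.B g y ∈ W) → ∀ j : ℕ, ∀ y ∈ W,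
      ((M.B g) ^ j : Module.End ℝ M.G) y ∈ W := by
    intro W hW j y hy
    induction j with
    | zero => simpa using hy
    | succ j ih =>
      rw [pow_succ', Module.End.mul_apply]
      exact hW _ ih
  refine M.map_fil H (LinearMap.continuous_of_finiteDimensional _).measurable (fun x hx => ?_)
    (fun j x _ x' _ hx => ?_)
  · rw [LinearMap.sum_apply]
    exact H.sum_mem fun j _ => H.smul_mem _ (hp H h j x hx)
  · rw [sub_sub_sub_comm, ← map_sub]
    generalize x - x' = y at hx
    rcases Nat.eq_zero_or_pos M.c with hc | hc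
    · have h1 := M.fil_zero y
      rw [← hc, fil_c, Submodule.mem_bot] at h1
      rw [h1, map_zero, sub_zero]
      exact Submodule.zero_mem _
    · obtain ⟨n, hn⟩ := Nat.exists_eq_add_one_of_ne_zero hc.ne'
      rw [hn, Finset.sum_range_succ', LinearMap.add_apply, LinearMap.sum_apply]
      simp only [Nat.factorial_zero, Nat.cast_one, inv_one, pow_zero, one_smul,
        Module.End.one_apply, add_sub_cancel_right]
      refine Submodule.sum_mem _ fun i _ => Submodule.smul_mem _ _ ?_
      rw [pow_succ', Module.End.mul_apply]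
      exact M.B_fil g (hp _ (fun y hy => M.fil_anti (Nat.le_succ j) (M.B_fil g hy)) i y hx)

theorem det_del (v : M.V) : LinearMap.det (M.del v) = 1 := by
  let b : Module.Basis (Fin M.d) ℝ M.G := (EuclideanSpace.basisFun (Fin M.d) ℝ).toBasis
  have hb : ∀ i, b i = M.X i := fun i => EuclideanSpace.basisFun_apply _ _ i
  have h : LinearMap.toMatrix b b (M.del v) = Matrix.diagonal fun i => Real.exp ⟪M.wt i, v⟫_ℝ := by
    ext i j
    rw [LinearMap.toMatrix_apply, hb, del_X, ← hb, map_smul, b.repr_self, Matrix.diagonal_apply,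
      Finsupp.smul_apply, Finsupp.single_apply]
    by_cases hij : i = j
    · simp [hij]
    · simp [hij, Ne.symm hij]
  rw [← LinearMap.det_toMatrix b, h, Matrix.det_diagonal, ← Real.exp_sum, ← sum_inner, M.unimod,
    inner_zero_left, Real.exp_zero]

theorem del_sub_mem_e (v : M.V) (x : M.G) : M.del v x - x ∈ M.e := by
  rw [← M.sum_co x, map_sum, ← Finset.sum_sub_distrib]
  refine M.e.sum_mem fun i _ => ?_
  rw [map_smul, ← smul_sub, del_X]
  refine M.e.smul_mem _ ?_
  by_cases h : M.wt i = 0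
  · simp [h]
  · exact M.e.sub_mem (M.e.smul_mem _ (M.X_mem_e h)) (M.X_mem_e h)

theorem det_del_e (v : M.V) :
    LinearMap.det ((M.del v).restrict (fun _ hx => M.del_e v hx : ∀ x ∈ M.e, M.del v x ∈ M.e)) = 1 := by
  have he : M.e ≤ M.e.comap (M.del v) := fun _ hx => M.del_e v hx
  have h := LinearMap.det_eq_det_mul_det M.e (M.del v) he
  have h1 : M.e.mapQ M.e (M.del v) he = LinearMap.id := by
    ext x
    simpa [Submodule.Quotient.eq] using M.del_sub_mem_e v x
  rw [det_del, h1, LinearMap.det_id, mul_one] at h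
  exact h.symm

end Geo
end Vale.Agent.P188
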