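import Vale.Agent.P188.Geo

/-! Definitions for the coarse analysis on `M.G` (no proofs of substance here). -/

namespace Vale.Agent.P188
open scoped InnerProductSpace Pointwise
open MeasureTheory

/-- Lebesgue measure of a subspace, as a measure on the ambient space. -/
noncomputable def subMu {X : Type} [NormedAddCommGroup X] [InnerProductSpace ℝ X]
    [FiniteDimensional ℝ X] [MeasurableSpace X] [BorelSpace X] (W : Submodule ℝ X) : Measure X :=
  Measure.map (Subtype.val : W → X) (volume : Measure W)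

/-- Symmetric convex sets containing zero. -/
structure SC {X : Type} [AddCommGroup X] [Module ℝ X] (S : Set X) : Prop where
  convex : Convex ℝ S
  neg_mem : ∀ x ∈ S, -x ∈ S
  zero_mem : (0 : X) ∈ S

namespace Geo
variable (M : Geo)

/-- Lie bodies: compact symmetric convex sets closed under the bracket. -/
structure IsLB (S : Set M.G) : Prop where
  sc : SC S
  compact : IsCompact S
  lie : ∀ x ∈ S, ∀ y ∈ S, M.B x y ∈ S

/-- Bracket monomials (trees) in the letters `L`. -/
inductive Mon (L : Set M.G) : M.G → Prop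
  | base {x} : x ∈ L → Mon L x
  | neg {x} : Mon L x → Mon L (-x)
  | lie {x y} : Mon L x → Mon L y → Mon L (M.B x y)

/-- The Lie body generated by the letters `L`. -/
def gen (L : Set M.G) : Set M.G := convexHull ℝ (insert 0 {x | M.Mon L x})

/-- Right-nested monomial. -/
noncomputable def mono : List M.G → M.G
  | [] => 0
  | [x] => x
  | x :: y :: l => M.B x (mono (y :: l))

/-- The weight-zero subalgebra (also a subgroup). -/
noncomputable def u0 : Submodule ℝ M.G := Submodule.span ℝ {x | ∃ i, M.wt i = 0 ∧ x = M.X i}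

/-- The exponential radical: generated by the nonzero weight spaces. -/
noncomputable def e : Submodule ℝ M.G :=
  Submodule.span ℝ {x | M.Mon {y | ∃ i, M.wt i ≠ 0 ∧ y = M.X i} x}

/-- On such sets the group law is the BCH product and the inverse is the negative. -/
def Tame (S : Set M.G) : Prop := (∀ x ∈ S, M.A x = 0) ∨ (∀ x ∈ S, x ∈ M.u0)

/-- Body in `e` with letter `i` of size `exp (r i)`. -/
def K (r : Fin M.d → ℝ) : Set M.G := M.gen {y | ∃ i, M.wt i ≠ 0 ∧ y = Real.exp (r i) • M.X i}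

/-- Graded ball of radius `ρ` in `u0`. -/
def Z (ρ : ℝ) : Set M.G := M.gen {y | ∃ i, M.wt i = 0 ∧ y = ρ • M.X i}

/-- `r i` depends only on the weight of `i`. -/
def WtFun (r : Fin M.d → ℝ) : Prop := ∀ i j, M.wt i = M.wt j → r i = r j

/-- The weights evaluated at a height. -/
noncomputable def wv (v : M.V) : Fin M.d → ℝ := fun i => ⟪M.wt i, v⟫_ℝ

/-- Support function of a height region. -/
noncomputable def h (Ω : Set M.V) : Fin M.d → ℝ := fun i => sSup ((fun v => ⟪M.wt i, v⟫_ℝ) '' Ω)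

/-- Support function of the closed ball of centre `o` and radius `R`. -/
noncomputable def hb (o : M.V) (R : ℝ) : Fin M.d → ℝ := fun i => ⟪M.wt i, o⟫_ℝ + R * ‖M.wt i‖

/-- Adjoint action. -/
noncomputable def Ad (g : M.G) : M.G →ₗ[ℝ] M.G :=
  (∑ j ∈ Finset.range M.c, ((j.factorial : ℝ)⁻¹) • ((M.B g) ^ j)) ∘ₗ M.del (M.A g)

/-- Haar measure of `e`. -/
noncomputable def mE : Measure M.G := subMu M.e

/-- Tuples of words in nonzero-weight letters whose monomials form a basis of `e`. -/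
def Frame (β : Fin (Module.finrank ℝ M.e) → List (Fin M.d)) : Prop :=
  (∀ j, ∀ i ∈ β j, M.wt i ≠ 0) ∧ LinearIndependent ℝ (fun j => M.mono ((β j).map M.X))

/-- Logarithmic volume of `K r`. -/
noncomputable def Phi (r : Fin M.d → ℝ) : ℝ :=
  sSup {t | ∃ β, M.Frame β ∧ t = ∑ j, ((β j).map r).sum}

/-- Entropy norm on the height space. -/
noncomputable def Psi (s : M.V) : ℝ := M.Phi (fun i => max 0 ⟪M.wt i, s⟫_ℝ)

/-- The orientation group. -/
def W : Set (M.V ≃ₗᵢ[ℝ] M.V) := {w | ∀ s, M.Psi (w s) = M.Psi s}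

/-- Every linear `Psi`-isometry is Euclidean. -/
def Orth : Prop := ∀ L : M.V →ₗ[ℝ] M.V, (∀ s, M.Psi (L s) = M.Psi s) → ∀ v, ‖L v‖ = ‖v‖

/-- `p` is a nonzero functional of weight `μ ≠ 0` killing all brackets. -/
def GenF (μ : M.V) (p : M.G →ₗ[ℝ] ℝ) : Prop :=
  μ ≠ 0 ∧ (∀ x y, p (M.B x y) = 0) ∧ (∀ i, M.wt i ≠ μ → p (M.X i) = 0) ∧ ∃ i, p (M.X i) ≠ 0

/-- The letter `i` lies on the ray of the unit vector `s`. -/
def OnRay (s : M.V) (i : Fin M.d) : Prop := M.wt i ≠ 0 ∧ M.wt i = ‖M.wt i‖ • s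

/-- Monomials in nonzero-weight letters with at least one letter off the ray of `s`. -/
inductive MonOff (s : M.V) : M.G → Prop
  | base {i} : M.wt i ≠ 0 → ¬ M.OnRay s i → MonOff s (M.X i)
  | left {x y} : MonOff s x → M.Mon {z | ∃ i, M.wt i ≠ 0 ∧ z = M.X i} y → MonOff s (M.B x y)
  | right {x y} : M.Mon {z | ∃ i, M.wt i ≠ 0 ∧ z = M.X i} x → MonOff s y → MonOff s (M.B x y)

/-- The ideal of `e` generated by the off-ray letters. -/
noncomputable def I (s : M.V) : Submodule ℝ M.G := Submodule.span ℝ {x | M.MonOff s x}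

/-- Growth rate of `e / I s` in the direction `s`. -/
noncomputable def nu (s : M.V) : ℝ :=
  Real.log ((subMu (M.e ⊓ (M.I s)ᗮ)).real
      ((M.e ⊓ (M.I s)ᗮ).starProjection '' (M.del s '' M.K 0))) -
    Real.log ((subMu (M.e ⊓ (M.I s)ᗮ)).real ((M.e ⊓ (M.I s)ᗮ).starProjection '' M.K 0))

/-- The abelianisation modulo `e`, realised inside `u0`. -/
noncomputable def ab : Submodule ℝ M.G :=
  (M.e ⊔ Submodule.span ℝ {z | ∃ x y, z = M.B x y})ᗮ

/-- The homomorphism onto `ab`. -/
noncomputable def ah : M.G →L[ℝ] M.G := M.ab.starProjection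

/-- Measurable `(K, C)`-quasi-isometries of `G`. -/
def MQI (K C : ℝ) (φ : M.G → M.G) : Prop := Measurable φ ∧ IsQI M.Q M.Q K C φ

/-- Points within distance `R` of both `S` and its complement. -/
def bd (R : ℝ) (S : Set M.G) : Set M.G :=
  {x | (∃ b, M.ln b ≤ R ∧ x * b ∈ S) ∧ ∃ b, M.ln b ≤ R ∧ x * b ∉ S}

/-- Folner sequences along a filter. -/
def Fol {ι : Type} (u : Filter ι) (S : ι → Set M.G) : Prop :=
  (∀ n, MeasurableSet (S n) ∧ volume (S n) ≠ ⊤ ∧ volume (S n) ≠ 0) ∧
    ∀ R θ : ℝ, 0 < θ → ∀ᶠ n in u, volume (M.bd R (S n)) ≤ ENNReal.ofReal θ * volume (S n)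

end Geo
end Vale.Agent.P188
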