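import Vale.Agent.P188.Lie

/-! Lie bodies: products, Folner-type estimates, conjugation, generated bodies.
Plan: everything from `LieBr.lip` applied to `M.bchG` (`st x y = x + y + R x y`, `R x 0 = 0`,
`R x (-x) = 0`), with `L = β • S` (an ideal of `S` for `0 ≤ β`) or a given ideal `L`.
`prod_mem`: induct on the list keeping the partial product in `(j * C * β) • S ⊆ S`.
`Ad_mem`: the finite exponential sum. `gen`: monomials with more than `c` leaves vanish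
(first `Mon` elements are integer combinations of right-nested `mono`, by Jacobi), so for finite
`L` there are finitely many monomials. -/

namespace Vale.Agent.P188.Geo
open scoped InnerProductSpace Pointwise
variable (M : Geo)

theorem Tame.mono {S T : Set M.G} (h : M.Tame T) (hS : S ⊆ T) : M.Tame S := by
  exact h.imp (fun h x hx => h x (hS hx)) fun h x hx => h x (hS hx)
theorem Tame.smul {S : Set M.G} (h : M.Tame S) (t : ℝ) : M.Tame (t • S) := by
  refine h.imp (fun h => ?_) fun h => ?_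
  · rintro _ ⟨x, hx, rfl⟩
    simp [h x hx]
  · rintro _ ⟨x, hx, rfl⟩
    exact M.u0.smul_mem t (h x hx)
theorem tame_of_e {S : Set M.G} (h : S ⊆ M.e) : M.Tame S := by
  exact Or.inl fun x hx => M.A_e (h hx)
theorem tame_of_u0 {S : Set M.G} (h : S ⊆ M.u0) : M.Tame S := by
  exact Or.inr fun x hx => h hx
theorem lb_smul_lie {S : Set M.G} (h : SC S) (hl : ∀ x ∈ S, ∀ y ∈ S, M.B x y ∈ S) {t : ℝ}
    (h0 : 0 ≤ t) (h1 : t ≤ 1) : ∀ x ∈ t • S, ∀ y ∈ t • S, M.B x y ∈ t • S := fun _ hx _ hy =>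
  h.smul_mono (by rw [abs_of_nonneg (mul_nonneg h0 h0)]; nlinarith) (SC.map_mem₂ M.B hl hx hy)

theorem lb_two {S L L' : Set M.G} (h : SC L') (hl : ∀ x ∈ S, ∀ y ∈ L, M.B x y ∈ L') :
    ∀ x ∈ S, ∀ y ∈ L, M.B x y ∈ L' ∧ M.B y x ∈ L' := fun x hx y hy =>
  ⟨hl x hx y hy, by rw [M.B_anti]; exact h.neg_mem _ (hl x hx y hy)⟩

theorem lb_one {S : Set M.G} {x : M.G} (hx : x ∈ S) : x ∈ (1 : ℝ) • S := by
  rwa [one_smul]

theorem lb_st {S : Set M.G} (ht : M.Tame S) {C : ℝ} {x y : M.G} (hx : x ∈ C • S)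
    (hy : y ∈ C • S) : x * y = M.st x y :=
  M.mul_eq_st ((Tame.smul M ht C).imp (fun h => h x hx) fun h => h y hy)

theorem lb_inv {S : Set M.G} (ht : M.Tame S) {C : ℝ} {x : M.G} (hx : x ∈ C • S) : x⁻¹ = -x :=
  M.inv_eq_neg ((Tame.smul M ht C).imp (fun h => h x hx) fun h => h x hx)

theorem IsLB.smul {S : Set M.G} (h : M.IsLB S) {t : ℝ} (h0 : 0 ≤ t) (h1 : t ≤ 1) :
    M.IsLB (t • S) := by
  exact ⟨h.sc.smul t, h.compact.smul t, M.lb_smul_lie h.sc h.lie h0 h1⟩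
theorem IsLB.image_Ad {S : Set M.G} (h : M.IsLB S) (g : M.G) : M.IsLB (M.Ad g '' S) := by
  refine ⟨h.sc.image _, h.compact.image (M.Ad g).continuous_of_finiteDimensional, ?_⟩
  rintro _ ⟨x, hx, rfl⟩ _ ⟨y, hy, rfl⟩
  exact ⟨_, h.lie x hx y hy, M.Ad_B g x y⟩
theorem IsLB.inter {S T : Set M.G} (h : M.IsLB S) (h' : M.IsLB T) : M.IsLB (S ∩ T) := by
  exact ⟨h.sc.inter h'.sc, h.compact.inter_right h'.compact.isClosed, fun x hx y hy =>
    ⟨h.lie x hx.1 y hy.1, h'.lie x hx.2 y hy.2⟩⟩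
/-- If `L` is an ideal for `T`, a quarter of the sum is a Lie body. -/
theorem IsLB.add {L T : Set M.G} (h : M.IsLB L) (h' : M.IsLB T)
    (hi : ∀ x ∈ T, ∀ y ∈ L, M.B x y ∈ L) : M.IsLB ((4 : ℝ)⁻¹ • (L + T)) := by
  refine ⟨(h.sc.add h'.sc).smul _, (h.compact.add h'.compact).smul _, ?_⟩
  rintro _ ⟨_, ⟨l, hl, t, ht, rfl⟩, rfl⟩ _ ⟨_, ⟨l', hl', t', ht', rfl⟩, rfl⟩
  have h1 : M.B l l' + M.B l t' + M.B t l' ∈ ((1 : ℝ) + 1 + 1) • L :=
    h.sc.add_mem (by norm_num) (by norm_num) (h.sc.add_mem (by norm_num) (by norm_num)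
      (M.lb_one (h.lie l hl l' hl')) (M.lb_one (M.lb_two h.sc hi t' ht' l hl).2))
      (M.lb_one (hi t ht l' hl'))
  have h2 := h.sc.smul_mem_smul (t := (4 : ℝ)⁻¹) (u := 1) (by norm_num) h1 (by norm_num)
  rw [one_smul] at h2
  refine ⟨_, ⟨_, h2, _, h'.sc.smul_mem (t := (4 : ℝ)⁻¹) (h'.lie t ht t' ht') (by norm_num), rfl⟩,
    ?_⟩
  simp only [map_smul, map_add, LinearMap.smul_apply, LinearMap.add_apply, smul_add]
  abel
theorem inv_mem {S : Set M.G} (h : SC S) (ht : M.Tame S) {C : ℝ} {x : M.G} (hx : x ∈ C • S) :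
    x⁻¹ ∈ C • S := by
  rw [M.lb_inv ht hx]
  exact (h.smul C).neg_mem x hx

theorem mul_mem (C : ℝ) (hC : 0 ≤ C) : ∃ C' : ℝ, 1 ≤ C' ∧ ∀ S, M.IsLB S → M.Tame S →
    ∀ x ∈ C • S, ∀ y ∈ C • S, x * y ∈ C' • S := by
  obtain ⟨C', h1, h⟩ := M.bchG.liePoly.lip C hC
  refine ⟨C + C + C', by linarith, fun S hS ht x hx y hy => ?_⟩
  have h2 := (h S S hS.sc hS.sc hS.lie (M.lb_two hS.sc hS.lie) x hx y hy x hx y hy
    (by rw [sub_self]; exact hS.sc.zero_mem) (by rw [sub_self]; exact hS.sc.zero_mem)).1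
  have h3 := hS.sc.add_mem (by linarith) (by linarith) (hS.sc.add_mem hC hC hx hy) h2
  rw [M.lb_st ht hx hy]
  convert h3 using 1
  abel

theorem lb_sub_sub (C : ℝ) (hC : 0 ≤ C) : ∃ C' : ℝ, 1 ≤ C' ∧ ∀ S L L', M.IsLB S → M.Tame S →
    SC L → SC L' → (∀ x ∈ S, ∀ y ∈ L, M.B x y ∈ L) → (∀ x ∈ S, ∀ y ∈ L, M.B x y ∈ L') →
      ∀ x ∈ C • S, ∀ y ∈ C • S, y ∈ L → x * y - x - y ∈ C' • L' ∧ y * x - x - y ∈ C' • L' := by
  obtain ⟨C', h1, h⟩ := M.bchG.lip C hC
  refine ⟨C', h1, fun S L L' hS ht hL hL' hi hi' x hx y hy hyL => ?_⟩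
  have h0 : (0 : M.G) ∈ C • S := (hS.sc.smul C).zero_mem
  have hx0 : x - x ∈ L := by rw [sub_self]; exact hL.zero_mem
  have hy0 : y - 0 ∈ L := by rwa [sub_zero]
  have h2 := h S L L' hS.sc hL hL' hS.lie (M.lb_two hL hi) (M.lb_two hL' hi')
  have h3 := h2 x hx y hy x hx 0 h0 hx0 hy0
  have h4 := h2 y hy x hx 0 h0 x hx hy0 hx0
  rw [M.lb_st ht hx hy, M.lb_st ht hy hx]
  simp only [st_zero, zero_st, sub_self, sub_zero] at h3 h4
  exact ⟨h3, by rwa [sub_right_comm]⟩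

/-- `L` is a symmetric convex ideal of `S` contained in `C • S`. -/
theorem mul_sub_mem (C : ℝ) (hC : 0 ≤ C) : ∃ C' : ℝ, 1 ≤ C' ∧ ∀ S L, M.IsLB S → M.Tame S → SC L →
    (∀ x ∈ S, ∀ y ∈ L, M.B x y ∈ L) → ∀ x ∈ C • S, ∀ y ∈ C • S, y ∈ L →
      x * y - x ∈ C' • L ∧ y * x - x ∈ C' • L := by
  obtain ⟨C', h1, h⟩ := M.lb_sub_sub C hC
  refine ⟨C' + 1, by linarith, fun S L hS ht hL hi x hx y hy hyL => ?_⟩
  obtain ⟨h2, h3⟩ := h S L L hS ht hL hL hi hi x hx y hy hyL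
  have h4 := hL.add_mem (by linarith) zero_le_one h2 (M.lb_one hyL)
  have h5 := hL.add_mem (by linarith) zero_le_one h3 (M.lb_one hyL)
  rw [sub_add_cancel] at h4 h5
  exact ⟨h4, h5⟩

theorem inv_mul_mem (C : ℝ) (hC : 0 ≤ C) : ∃ C' : ℝ, 1 ≤ C' ∧ ∀ S L, M.IsLB S → M.Tame S → SC L →
    (∀ x ∈ S, ∀ y ∈ L, M.B x y ∈ L) → ∀ x ∈ C • S, ∀ y ∈ C • S, y - x ∈ L →
      x⁻¹ * y ∈ C' • L ∧ y * x⁻¹ ∈ C' • L := by
  obtain ⟨C', h1, h⟩ := M.bchG.lip C hC
  refine ⟨C' + 1, by linarith, fun S L hS ht hL hi x hx y hy hyL => ?_⟩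
  have hn : -x ∈ C • S := (hS.sc.smul C).neg_mem x hx
  have hx0 : -x - -x ∈ L := by rw [sub_self]; exact hL.zero_mem
  have h2 := h S L L hS.sc hL hL hS.lie (M.lb_two hL hi) (M.lb_two hL hi)
  have h3 := hL.add_mem (by linarith) zero_le_one (h2 _ hn y hy _ hn x hx hx0 hyL) (M.lb_one hyL)
  have h4 := hL.add_mem (by linarith) zero_le_one (h2 y hy _ hn x hx _ hn hyL hx0) (M.lb_one hyL)
  rw [M.lb_inv ht hx, M.lb_st ht hn hy, M.lb_st ht hy hn]
  simp only [neg_st, st_neg] at h3 h4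
  constructor
  · convert h3 using 1
    abel
  · convert h4 using 1
    abel

/-- Second-order version: `x * y - x - y` lies in the bracket body. -/
theorem mul_sub_sub_mem (C : ℝ) (hC : 0 ≤ C) : ∃ C' : ℝ, 1 ≤ C' ∧ ∀ S L L', M.IsLB S → M.Tame S →
    SC L → SC L' → (∀ x ∈ S, ∀ y ∈ L, M.B x y ∈ L) → (∀ x ∈ S, ∀ y ∈ L, M.B x y ∈ L') →
      ∀ x ∈ C • S, ∀ y ∈ C • S, y ∈ L → x * y - x - y ∈ C' • L' ∧ y * x - x - y ∈ C' • L' := by
  exact M.lb_sub_sub C hC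

theorem prod_mem : ∃ C : ℝ, 1 ≤ C ∧ ∀ S, M.IsLB S → M.Tame S → ∀ (β : ℝ) (l : List M.G), 0 ≤ β →
    (∀ x ∈ l, x ∈ β • S) → C * β * l.length ≤ 1 → l.prod ∈ (C * β * l.length) • S := by
  obtain ⟨C, h1, h⟩ := M.mul_sub_mem 1 zero_le_one
  refine ⟨C, h1, fun S hS ht β l hβ => ?_⟩
  have hCβ : 0 ≤ C * β := mul_nonneg (by linarith) hβ
  induction l with
  | nil => exact fun _ _ => (hS.sc.smul _).zero_mem
  | cons x l ih =>
    intro hl hn
    rw [List.length_cons, Nat.cast_succ] at hn ⊢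
    have hn0 : 0 ≤ C * β * l.length := mul_nonneg hCβ (Nat.cast_nonneg _)
    have h2 := ih (fun y hy => hl y (List.mem_cons_of_mem _ hy)) (by linarith)
    have hx := hl x List.mem_cons_self
    have h3 := (h S (β • S) hS ht (hS.sc.smul β)
      (fun a ha b hb => by simpa using SC.map_mem₂ M.B hS.lie (M.lb_one ha) hb) l.prod
      (hS.sc.smul_mono (by rw [abs_of_nonneg hn0]; linarith) h2) x
      (hS.sc.smul_mono (by rw [abs_of_nonneg hβ]; nlinarith) hx) hx).2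
    rw [smul_smul] at h3
    have h4 := hS.sc.add_mem hCβ hn0 h3 h2
    rw [sub_add_cancel] at h4
    rw [List.prod_cons]
    convert h4 using 2
    ring

theorem prod_mem' (C : ℝ) (hC : 0 ≤ C) (N : ℕ) : ∃ C' : ℝ, 1 ≤ C' ∧ ∀ S, M.IsLB S → M.Tame S →
    ∀ l : List M.G, l.length ≤ N → (∀ x ∈ l, x ∈ C • S) → l.prod ∈ C' • S := by
  induction N with
  | zero =>
    refine ⟨1, le_rfl, fun S hS _ l hl _ => ?_⟩
    rw [List.length_eq_zero_iff.1 (Nat.le_zero.1 hl)]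
    exact (hS.sc.smul _).zero_mem
  | succ N ih =>
    obtain ⟨C1, h1, h⟩ := ih
    obtain ⟨C2, h2, h'⟩ := M.mul_mem (C + C1) (by linarith)
    refine ⟨C2, h2, fun S hS ht l hl hx => ?_⟩
    cases l with
    | nil => exact (hS.sc.smul _).zero_mem
    | cons x l =>
      rw [List.prod_cons]
      refine h' S hS ht _ (hS.sc.smul_mono (by rw [abs_of_nonneg hC]; linarith)
        (hx x List.mem_cons_self)) _ (hS.sc.smul_mono (s := C1)
        (by rw [abs_of_nonneg (by linarith)]; linarith) ?_)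
      exact h S hS ht l (by simpa using hl) fun y hy => hx y (List.mem_cons_of_mem _ hy)

theorem Ad_mem (C : ℝ) (hC : 0 ≤ C) : ∃ C' : ℝ, 1 ≤ C' ∧ ∀ S L : Set M.G, SC L →
    (∀ x ∈ S, ∀ y ∈ L, M.B x y ∈ L) → ∀ g ∈ C • S, (M.A g = 0 ∨ L ⊆ M.u0) →
      ∀ y ∈ L, M.Ad g y ∈ C' • L := by
  have h0 : 0 ≤ ∑ j ∈ Finset.range M.c, C ^ j := Finset.sum_nonneg fun j _ => pow_nonneg hC j
  refine ⟨1 + ∑ j ∈ Finset.range M.c, C ^ j, by linarith, fun S L hL hi g hg hA y hy => ?_⟩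
  have h1 : M.del (M.A g) y = y := by
    rcases hA with h | h
    · rw [h, del_zero]
    · exact M.del_u0 _ (h hy)
  have h2 : ∀ j : ℕ, (M.B g ^ j) y ∈ C ^ j • L := by
    intro j
    induction j with
    | zero => simpa using hy
    | succ j ih =>
      rw [pow_succ', pow_succ', Module.End.mul_apply]
      exact SC.map_mem₂ M.B hi hg ih
  refine hL.smul_mono (s := ∑ j ∈ Finset.range M.c, C ^ j)
    (by rw [abs_of_nonneg h0]; linarith) ?_
  rw [Ad, LinearMap.comp_apply, h1, LinearMap.sum_apply]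
  refine hL.sum_mem _ _ _ (fun j _ => pow_nonneg hC j) fun j _ => ?_
  rw [LinearMap.smul_apply]
  refine hL.smul_mem_smul (pow_nonneg hC j) (h2 j) (mul_le_of_le_one_left (pow_nonneg hC j) ?_)
  rw [abs_of_nonneg (by positivity)]
  exact inv_le_one_of_one_le₀ (by exact_mod_cast j.factorial_pos)

theorem lb_mon {L : Set M.G} {x : M.G} (h : M.Mon L x) : x ∈ M.gen L :=
  subset_convexHull ℝ _ (Set.mem_insert_of_mem _ h)

theorem lb_hull {A T : Set M.G} (hT : Convex ℝ T) (h0 : (0 : M.G) ∈ T) (f : M.G →ₗ[ℝ] M.G)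
    (h : ∀ x ∈ A, f x ∈ T) {x : M.G} (hx : x ∈ convexHull ℝ (insert 0 A)) : f x ∈ T := by
  refine convexHull_min (t := f ⁻¹' T) ?_ (hT.linear_preimage f) hx
  rintro y (rfl | hy)
  · simpa using h0
  · exact h y hy

theorem lb_sc {A : Set M.G} (h : ∀ x ∈ A, -x ∈ A) : SC (convexHull ℝ (insert 0 A)) :=
  ⟨convex_convexHull ℝ _, fun _ hx => M.lb_hull (convex_convexHull ℝ _)
    (subset_convexHull ℝ _ (Set.mem_insert _ _)) (-LinearMap.id)
    (fun y hy => subset_convexHull ℝ _ (Set.mem_insert_of_mem _ (h y hy))) hx,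
    subset_convexHull ℝ _ (Set.mem_insert _ _)⟩

theorem subset_gen (L : Set M.G) : L ⊆ M.gen L := by
  exact fun x hx => M.lb_mon (Mon.base hx)
theorem gen_sc (L : Set M.G) : SC (M.gen L) := by
  exact M.lb_sc fun _ hx => Mon.neg hx
theorem gen_lie (L : Set M.G) : ∀ x ∈ M.gen L, ∀ y ∈ M.gen L, M.B x y ∈ M.gen L := by
  intro x hx y hy
  have h := M.gen_sc L
  exact M.lb_hull h.convex h.zero_mem (M.B.flip y) (fun a ha => M.lb_hull h.convex h.zero_mem
    (M.B a) (fun b hb => M.lb_mon (Mon.lie ha hb)) hy) hx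
theorem gen_min {L S : Set M.G} (hS : SC S) (hl : ∀ x ∈ S, ∀ y ∈ S, M.B x y ∈ S) (h : L ⊆ S) :
    M.gen L ⊆ S := by
  intro x hx
  refine M.lb_hull hS.convex hS.zero_mem LinearMap.id (fun a ha => ?_) hx
  show a ∈ S
  induction ha with
  | base ha => exact h ha
  | neg _ ih => exact hS.neg_mem _ ih
  | lie _ _ h1 h2 => exact hl _ h1 _ h2
theorem gen_mono {L L' : Set M.G} (h : L ⊆ M.gen L') : M.gen L ⊆ M.gen L' := by
  exact M.gen_min (M.gen_sc L') (M.gen_lie L') h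
theorem image_gen (T : M.G →ₗ[ℝ] M.G) (hT : ∀ x y, T (M.B x y) = M.B (T x) (T y)) (L : Set M.G) :
    T '' M.gen L = M.gen (T '' L) := by
  have h := M.gen_sc (T '' L)
  refine Set.Subset.antisymm (Set.image_subset_iff.2 (M.gen_min
    ⟨h.convex.linear_preimage T, fun x hx => ?_, ?_⟩ (fun x hx y hy => ?_) fun x hx => ?_))
    (M.gen_min ((M.gen_sc L).image T) ?_ (Set.image_mono (M.subset_gen L)))
  · rw [Set.mem_preimage, map_neg]
    exact h.neg_mem _ hx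
  · rw [Set.mem_preimage, map_zero]
    exact h.zero_mem
  · rw [Set.mem_preimage, hT]
    exact M.gen_lie _ _ hx _ hy
  · exact M.subset_gen _ ⟨x, hx, rfl⟩
  · rintro _ ⟨x, hx, rfl⟩ _ ⟨y, hy, rfl⟩
    exact ⟨_, M.gen_lie L x hx y hy, hT x y⟩
theorem lb_cons (x : M.G) {l : List M.G} (h : l ≠ []) : M.mono (x :: l) = M.B x (M.mono l) := by
  cases l with
  | nil => exact absurd rfl h
  | cons y l => rfl

theorem lb_concat (l : List M.G) (y : M.G) :
    M.mono (l ++ [y]) = l.foldr (fun x z => M.B x z) y := by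
  induction l with
  | nil => rfl
  | cons x l ih => rw [List.cons_append, M.lb_cons x (by simp), ih, List.foldr_cons]

theorem mono_mem_gen {L : Set M.G} {l : List M.G} (hl : ∀ x ∈ l, x ∈ M.gen L) :
    M.mono l ∈ M.gen L := by
  induction l with
  | nil => exact (M.gen_sc L).zero_mem
  | cons x l ih =>
    by_cases h : l = []
    · rw [h]
      exact hl x List.mem_cons_self
    · rw [M.lb_cons x h]
      exact M.gen_lie L _ (hl x List.mem_cons_self) _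
        (ih fun y hy => hl y (List.mem_cons_of_mem _ hy))
theorem mono_eq_zero {l : List M.G} (hl : M.c < l.length) : M.mono l = 0 := by
  rcases List.eq_nil_or_concat l with rfl | ⟨l', y, rfl⟩
  · rfl
  · rw [List.concat_eq_append, lb_concat]
    rw [List.length_concat] at hl
    exact M.nil l' (Nat.lt_succ_iff.1 hl) y
/-- tree monomials with a given number of leaves -/
inductive LbMon (L : Set M.G) : ℕ → M.G → Prop
  | base {x} : x ∈ L → LbMon L 1 x
  | neg {n x} : LbMon L n x → LbMon L n (-x)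
  | lie {m n x y} : LbMon L m x → LbMon L n y → LbMon L (m + n) (M.B x y)

/-- the hull of the right-nested monomials of a given length -/
def lbH (L : Set M.G) (n : ℕ) : Set M.G := convexHull ℝ (insert 0
  {x | ∃ l : List M.G, l.length = n ∧ (∀ y ∈ l, y ∈ L) ∧ (x = M.mono l ∨ x = -M.mono l)})

theorem lb_H_sc (L : Set M.G) (n : ℕ) : SC (M.lbH L n) := by
  refine M.lb_sc ?_
  rintro x ⟨l, h1, h2, rfl | rfl⟩
  · exact ⟨l, h1, h2, Or.inr rfl⟩
  · exact ⟨l, h1, h2, Or.inl (neg_neg _)⟩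

theorem lb_H_mono {L : Set M.G} {l : List M.G} (h : ∀ y ∈ l, y ∈ L) :
    M.mono l ∈ M.lbH L l.length :=
  subset_convexHull ℝ _ (Set.mem_insert_of_mem _ ⟨l, rfl, h, Or.inl rfl⟩)

theorem lb_H_map {L T : Set M.G} (hT : SC T) {n : ℕ} (f : M.G →ₗ[ℝ] M.G)
    (h : ∀ l : List M.G, l.length = n → (∀ y ∈ l, y ∈ L) → f (M.mono l) ∈ T) {x : M.G}
    (hx : x ∈ M.lbH L n) : f x ∈ T := by
  refine M.lb_hull hT.convex hT.zero_mem f ?_ hx
  rintro y ⟨l, h1, h2, rfl | rfl⟩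
  · exact h l h1 h2
  · rw [map_neg]
    exact hT.neg_mem _ (h l h1 h2)

theorem lb_H_letter {L : Set M.G} {n : ℕ} (hn : 0 < n) :
    ∀ x ∈ L, ∀ y ∈ M.lbH L n, M.B x y ∈ M.lbH L (n + 1) := by
  intro x hx y hy
  refine M.lb_H_map (M.lb_H_sc L _) (M.B x) (fun l h1 h2 => ?_) hy
  rw [← M.lb_cons x (List.ne_nil_of_length_pos (by omega)), ← h1]
  exact M.lb_H_mono (l := x :: l) (by simpa using ⟨hx, h2⟩)

theorem lb_H_word {L : Set M.G} (l : List M.G) (h : ∀ y ∈ l, y ∈ L) : ∀ n, 0 < n →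
    ∀ y ∈ M.lbH L n, M.B (M.mono l) y ∈ (2 : ℝ) ^ l.length • M.lbH L (l.length + n) := by
  induction l with
  | nil =>
    intro n _ y _
    have : M.B (M.mono []) y = 0 := by simp [mono]
    rw [this]
    exact ((M.lb_H_sc L _).smul _).zero_mem
  | cons x l ih =>
    intro n hn y hy
    have hx := h x List.mem_cons_self
    have ih' := ih fun y hy => h y (List.mem_cons_of_mem _ hy)
    by_cases hl : l = []
    · subst hl
      refine (M.lb_H_sc L _).subset_smul (one_le_pow₀ one_le_two) ?_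
      rw [List.length_singleton, add_comm]
      exact M.lb_H_letter hn x hx y hy
    have h1 := SC.map_mem₂ M.B (M.lb_H_letter (n := l.length + n) (by omega)) (M.lb_one hx)
      (ih' n hn y hy)
    have h2 := ih' (n + 1) (by omega) _ (M.lb_H_letter hn x hx y hy)
    rw [← add_assoc] at h2
    have h3 := (M.lb_H_sc L _).sub_mem (by positivity) (by positivity) h1 h2
    rw [M.B_jacobi, add_sub_cancel_right] at h3
    rw [M.lb_cons x hl, List.length_cons, add_right_comm]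
    convert h3 using 2
    ring

theorem lb_H_lie {L : Set M.G} {m n : ℕ} (hn : 0 < n) :
    ∀ x ∈ M.lbH L m, ∀ y ∈ M.lbH L n, M.B x y ∈ (2 : ℝ) ^ m • M.lbH L (m + n) := by
  intro x hx y hy
  refine M.lb_H_map ((M.lb_H_sc L _).smul _) (M.B.flip y) (fun l h1 h2 => ?_) hx
  rw [← h1]
  exact M.lb_H_word l h2 n hn y hy

theorem lb_deg {L : Set M.G} {x : M.G} (h : M.Mon L x) : ∃ n, M.LbMon L n x := by
  induction h with
  | base h => exact ⟨_, LbMon.base h⟩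
  | neg _ ih => exact ih.imp fun _ h => h.neg
  | lie _ _ h1 h2 =>
    obtain ⟨m, h1⟩ := h1
    obtain ⟨n, h2⟩ := h2
    exact ⟨_, h1.lie h2⟩

theorem lb_deg_mon {L : Set M.G} {n : ℕ} {x : M.G} (h : M.LbMon L n x) : M.Mon L x := by
  induction h with
  | base h => exact Mon.base h
  | neg _ ih => exact ih.neg
  | lie _ _ h1 h2 => exact h1.lie h2

theorem lb_deg_pos {L : Set M.G} {n : ℕ} {x : M.G} (h : M.LbMon L n x) : 0 < n := by
  induction h with
  | base _ => exact one_pos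
  | neg _ ih => exact ih
  | lie _ _ h1 _ => omega

theorem lb_deg_H {L : Set M.G} {n : ℕ} {x : M.G} (h : M.LbMon L n x) :
    x ∈ (2 : ℝ) ^ (n ^ 2) • M.lbH L n := by
  induction h with
  | @base x h =>
    exact (M.lb_H_sc L _).subset_smul (one_le_pow₀ one_le_two)
      (M.lb_H_mono (l := [x]) (by simpa using h))
  | neg _ ih => exact ((M.lb_H_sc L _).smul _).neg_mem _ ih
  | @lie m n x y _ hy h1 h2 =>
    have hn := M.lb_deg_pos hy
    have h3 := SC.map_mem₂ M.B (M.lb_H_lie (L := L) (m := m) hn) h1 h2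
    rw [smul_smul, ← pow_add, ← pow_add] at h3
    refine (M.lb_H_sc L _).smul_mono ?_ h3
    rw [abs_of_nonneg (by positivity)]
    exact pow_le_pow_right₀ one_le_two (by nlinarith)

theorem lb_deg_zero {L : Set M.G} {n : ℕ} {x : M.G} (h : M.LbMon L n x) (hn : M.c < n) :
    x = 0 := by
  obtain ⟨y, hy, rfl⟩ := M.lb_deg_H h
  have : y = 0 := M.lb_H_map (SC.submodule ⊥) LinearMap.id
    (fun l h1 _ => M.mono_eq_zero (by omega)) hy
  simp [this]

theorem lb_deg_fin {L : Set M.G} (hL : L.Finite) (n : ℕ) : {x | M.LbMon L n x}.Finite := by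
  induction n using Nat.strong_induction_on with
  | _ n ih =>
  have hF : (⋃ m ∈ Set.Iio n, {x | M.LbMon L m x}).Finite :=
    (Set.finite_Iio n).biUnion fun m hm => ih m hm
  have hT := hL.union (Set.Finite.image2 (fun a b => M.B a b) hF hF)
  have key : ∀ k x, M.LbMon L k x → k = n →
      x ∈ L ∪ Set.image2 (fun a b => M.B a b) (⋃ m ∈ Set.Iio n, {x | M.LbMon L m x})
        (⋃ m ∈ Set.Iio n, {x | M.LbMon L m x}) ∨
      -x ∈ L ∪ Set.image2 (fun a b => M.B a b) (⋃ m ∈ Set.Iio n, {x | M.LbMon L m x})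
        (⋃ m ∈ Set.Iio n, {x | M.LbMon L m x}) := by
    intro k x hx
    induction hx with
    | base h => exact fun _ => Or.inl (Or.inl h)
    | neg _ ih => exact fun h => by rw [neg_neg]; exact (ih h).symm
    | @lie a b x y hx hy _ _ =>
      intro h
      have h1 := M.lb_deg_pos hx
      have h2 := M.lb_deg_pos hy
      exact Or.inl (Or.inr (Set.mem_image2_of_mem
        (Set.mem_biUnion (show a < n by omega) hx) (Set.mem_biUnion (show b < n by omega) hy)))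
  exact (hT.union hT.neg).subset fun x hx => key n x hx rfl

theorem lb_deg_smul {L : Set M.G} {t : ℝ} {n : ℕ} {x : M.G} (h : M.LbMon (t • L) n x) :
    ∃ y, M.Mon L y ∧ x = t ^ n • y := by
  induction h with
  | base h =>
    obtain ⟨y, hy, rfl⟩ := h
    exact ⟨y, Mon.base hy, by simp⟩
  | neg _ ih =>
    obtain ⟨y, hy, rfl⟩ := ih
    exact ⟨_, hy.neg, by simp⟩
  | lie _ _ h1 h2 =>
    obtain ⟨y, hy, rfl⟩ := h1
    obtain ⟨z, hz, rfl⟩ := h2
    exact ⟨_, hy.lie hz, by simp [smul_smul, pow_add, mul_comm]⟩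

/-- Tree monomials are bounded combinations of right-nested ones. -/
theorem gen_subset_mono : ∃ C : ℝ, 1 ≤ C ∧ ∀ L : Set M.G, M.gen L ⊆
    C • convexHull ℝ (insert 0 {x | ∃ l : List M.G, l ≠ [] ∧ l.length ≤ M.c ∧ (∀ y ∈ l, y ∈ L) ∧
      (x = M.mono l ∨ x = -M.mono l)}) := by
  refine ⟨2 ^ (M.c ^ 2), one_le_pow₀ one_le_two, fun L x hx => ?_⟩
  have hH := M.lb_sc (A := {x | ∃ l : List M.G, l ≠ [] ∧ l.length ≤ M.c ∧ (∀ y ∈ l, y ∈ L) ∧
      (x = M.mono l ∨ x = -M.mono l)}) (by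
    rintro x ⟨l, h1, h2, h3, rfl | rfl⟩
    · exact ⟨l, h1, h2, h3, Or.inr rfl⟩
    · exact ⟨l, h1, h2, h3, Or.inl (neg_neg _)⟩)
  refine M.lb_hull (hH.smul _).convex (hH.smul _).zero_mem LinearMap.id (fun a ha => ?_) hx
  obtain ⟨n, hn⟩ := M.lb_deg ha
  rcases lt_or_ge M.c n with h | h
  · rw [M.lb_deg_zero hn h]
    exact (hH.smul _).zero_mem
  refine hH.smul_mono (s := 2 ^ (n ^ 2)) ?_ (Set.smul_set_mono (convexHull_mono ?_)
    (M.lb_deg_H hn))
  · rw [abs_of_nonneg (by positivity)]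
    exact pow_le_pow_right₀ one_le_two (Nat.pow_le_pow_left h 2)
  · refine Set.insert_subset_insert ?_
    rintro y ⟨l, h1, h2, h3⟩
    have := M.lb_deg_pos hn
    exact ⟨l, List.ne_nil_of_length_pos (by omega), by omega, h2, h3⟩
theorem gen_isLB {L : Set M.G} (hL : L.Finite) : M.IsLB (M.gen L) := by
  refine ⟨M.gen_sc L, Set.Finite.isCompact_convexHull ℝ ?_, M.gen_lie L⟩
  refine (((Set.finite_Iic M.c).biUnion fun n _ => M.lb_deg_fin hL n).insert 0).subset ?_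
  rintro x (rfl | hx)
  · exact Set.mem_insert _ _
  obtain ⟨n, hn⟩ := M.lb_deg hx
  rcases lt_or_ge M.c n with h | h
  · exact Or.inl (M.lb_deg_zero hn h)
  · exact Or.inr (Set.mem_biUnion h hn)
theorem smul_gen_subset {t : ℝ} (ht : 1 ≤ t) (L : Set M.G) : t • M.gen L ⊆ M.gen (t • L) := by
  have h0 : t ≠ 0 := by positivity
  have h := M.gen_sc (t • L)
  have h1 : M.gen L ⊆ t⁻¹ • M.gen (t • L) :=
    M.gen_min (h.smul _) (M.lb_smul_lie h (M.gen_lie _) (by positivity) (inv_le_one_of_one_le₀ ht))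
      fun x hx => ⟨t • x, M.subset_gen _ ⟨x, hx, rfl⟩, by simp [smul_smul, h0]⟩
  refine (Set.smul_set_mono h1).trans ?_
  rw [smul_smul, mul_inv_cancel₀ h0, one_smul]
theorem gen_smul_subset {t : ℝ} (ht : 1 ≤ t) (L : Set M.G) :
    M.gen (t • L) ⊆ (t ^ M.c) • M.gen L := by
  intro x hx
  have h := M.gen_sc L
  refine M.lb_hull (h.smul _).convex (h.smul _).zero_mem LinearMap.id (fun a ha => ?_) hx
  obtain ⟨n, hn⟩ := M.lb_deg ha
  rcases lt_or_ge M.c n with h1 | h1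
  · rw [M.lb_deg_zero hn h1]
    exact (h.smul _).zero_mem
  obtain ⟨y, hy, rfl⟩ := M.lb_deg_smul hn
  refine h.smul_mono (s := t ^ n) ?_ ⟨y, M.lb_mon hy, rfl⟩
  rw [abs_of_nonneg (by positivity)]
  exact pow_le_pow_right₀ ht h1
theorem gen_smul_subset_of_le {t : ℝ} (h0 : 0 ≤ t) (h1 : t ≤ 1) (L : Set M.G) :
    M.gen (t • L) ⊆ t • M.gen L := by
  exact M.gen_min ((M.gen_sc L).smul t) (M.lb_smul_lie (M.gen_sc L) (M.gen_lie L) h0 h1)
    (Set.smul_set_mono (M.subset_gen L))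

end Vale.Agent.P188.Geo
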