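import Vale.Agent.P188.Body
import Vale.Agent.P188.BB
import Vale.Agent.P188.QI0

/-! Length estimates in `G` and the normal form of paths.
Plan: `closure_Q`: `g = e * q` (`mul_proj_inv_mem_e`), and `x = (x / n) ^ n` on tame elements.
Balls: `{ln ≤ n}` is the `n`-fold product of the compact set `Q ∪ Q⁻¹`.  `exists_ln_le`: a small
ball lies in `Q`, so the interiors of the balls cover (or use the normal form directly).
`ln_letter`: conjugate by `ι (s • wt i)` (`exists_sec`, `conj_eq`), `s ~ log`, which makes the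
vector small: size `exp (-s ‖wt i‖²) * poly s`.  `ln_K`, `ln_Z`: `bounded_gen`.
`path_nf`: cut every step into unit steps `b = e_b * ζ_b` (`e_b ∈ K (fun _ => C)`, `ζ_b ∈ Z C`),
push the `ζ`'s to the right (`conj_eq`, `Ad_Z_K`, `Z_prod`, `K_prod`). -/

namespace Vale.Agent.P188.Geo
open scoped InnerProductSpace Pointwise
variable (M : Geo)

theorem len_tame_list {x : M.G} (h : M.A x = 0 ∨ x ∈ M.u0) :
    ∃ l : List M.G, l.length = ⌈‖x‖⌉₊ ∧ (∀ y ∈ l, y ∈ M.Q) ∧ l.prod = x := by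
  set n := ⌈‖x‖⌉₊ with hn
  have h' : M.A ((n : ℝ)⁻¹ • x) = 0 ∨ (n : ℝ)⁻¹ • x ∈ M.u0 :=
    h.imp (fun h => by rw [map_smul, h, smul_zero]) fun h => M.u0.smul_mem _ h
  have hle : ‖x‖ ≤ n := Nat.le_ceil _
  refine ⟨List.replicate n ((n : ℝ)⁻¹ • x), List.length_replicate, fun y hy => ?_, ?_⟩
  · rw [List.eq_of_mem_replicate hy, Q, mem_closedBall_zero_iff, norm_smul, norm_inv,
      Real.norm_natCast]
    exact inv_mul_le_one_of_le₀ hle (Nat.cast_nonneg n)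
  · rw [List.prod_replicate, M.pow_eq_smul h', smul_smul]
    rcases Nat.eq_zero_or_pos n with h0 | h0
    · have h1 : x = 0 := by
        rw [h0, Nat.cast_zero] at hle
        exact norm_le_zero_iff.1 hle
      rw [h1, smul_zero]
    · rw [mul_inv_cancel₀ (Nat.cast_ne_zero.2 h0.ne'), one_smul]

theorem len_proj_u0 (g : M.G) : M.eᗮ.starProjection g ∈ M.u0 :=
  M.e_orth_le (Submodule.starProjection_apply_mem _ g)

theorem closure_Q : Subgroup.closure M.Q = ⊤ := by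
  have h : ∀ x : M.G, (M.A x = 0 ∨ x ∈ M.u0) → x ∈ Subgroup.closure M.Q := fun x hx => by
    obtain ⟨l, -, h2, rfl⟩ := M.len_tame_list hx
    exact Subgroup.list_prod_mem _ fun y hy => Subgroup.subset_closure (h2 y hy)
  refine (Subgroup.eq_top_iff' _).2 fun g => ?_
  rw [← inv_mul_cancel_right g (M.eᗮ.starProjection g)]
  exact Subgroup.mul_mem _ (h _ (Or.inl (M.A_e (M.mul_proj_inv_mem_e g))))
    (h _ (Or.inr (M.len_proj_u0 g)))
theorem ln_nonneg (g : M.G) : 0 ≤ M.ln g := by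
  exact Nat.cast_nonneg _
theorem ln_one : M.ln 1 = 0 := by
  rw [ln, wlen_one, Nat.cast_zero]
theorem ln_inv (g : M.G) : M.ln g⁻¹ = M.ln g := by
  rw [ln, ln, wlen_inv]
theorem ln_mul (g h : M.G) : M.ln (g * h) ≤ M.ln g + M.ln h := by
  unfold ln
  exact_mod_cast wlen_mul M.closure_Q g h
theorem ln_prod (l : List M.G) : M.ln l.prod ≤ (l.map M.ln).sum := by
  induction l with
  | nil => simp [ln_one]
  | cons a l ih =>
    rw [List.prod_cons, List.map_cons, List.sum_cons]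
    exact (M.ln_mul _ _).trans (by linarith)
theorem wdist_eq (g h : M.G) : wdist M.Q g h = M.ln (g⁻¹ * h) := rfl
theorem ln_le_one {g : M.G} (h : ‖g‖ ≤ 1) : M.ln g ≤ 1 := by
  have h1 := wlen_le (S := M.Q) (l := [g]) (fun x hx => by
    rw [List.mem_singleton.1 hx]
    exact Or.inl (mem_closedBall_zero_iff.2 h))
  rw [List.prod_singleton, List.length_singleton] at h1
  unfold ln
  exact_mod_cast h1
theorem len_compact_S : IsCompact (M.Q ∪ M.Q⁻¹) :=
  (isCompact_closedBall _ _).union (isCompact_closedBall _ _).inv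

theorem len_mem_S {x : M.G} : x ∈ M.Q ∪ M.Q⁻¹ ↔ x ∈ M.Q ∨ x⁻¹ ∈ M.Q := by
  rw [Set.mem_union, Set.mem_inv]

theorem len_compact_nat (n : ℕ) : IsCompact {g : M.G | wlen M.Q g ≤ n} := by
  induction n with
  | zero =>
    refine (isCompact_singleton (x := (1 : M.G))).of_isClosed_subset ?_ ?_
    · refine Set.Subsingleton.isClosed fun x hx y hy => ?_
      obtain ⟨l, h1, -, h2⟩ := wlen_spec M.closure_Q x
      obtain ⟨l', h1', -, h2'⟩ := wlen_spec M.closure_Q y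
      rw [Nat.le_zero.1 hx, List.length_eq_zero_iff] at h1
      rw [Nat.le_zero.1 hy, List.length_eq_zero_iff] at h1'
      rw [← h2, ← h2', h1, h1']
    · intro x hx
      obtain ⟨l, h1, -, h2⟩ := wlen_spec M.closure_Q x
      rw [Nat.le_zero.1 hx, List.length_eq_zero_iff] at h1
      rw [← h2, h1]
      rfl
  | succ n ih =>
    have h : {g : M.G | wlen M.Q g ≤ n + 1} = (M.Q ∪ M.Q⁻¹) * {g : M.G | wlen M.Q g ≤ n} := by
      ext g
      constructor
      · intro hg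
        obtain ⟨l, h1, h2, h3⟩ := wlen_spec M.closure_Q g
        cases l with
        | nil =>
          refine ⟨1, Or.inl (Metric.mem_closedBall_self zero_le_one), 1, ?_, ?_⟩
          · simp [wlen_one]
          · simpa using h3
        | cons a l =>
          refine ⟨a, M.len_mem_S.2 (h2 a List.mem_cons_self), l.prod, ?_, by simpa using h3⟩
          have h4 := wlen_le (S := M.Q) (l := l) fun x hx => h2 x (List.mem_cons_of_mem _ hx)
          have h5 : wlen M.Q g ≤ n + 1 := hg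
          rw [List.length_cons] at h1
          change wlen M.Q l.prod ≤ n
          omega
      · rintro ⟨a, ha, b, hb, rfl⟩
        have h1 := wlen_le (S := M.Q) (l := [a]) (fun x hx => by
          rw [List.mem_singleton.1 hx]
          exact M.len_mem_S.1 ha)
        rw [List.prod_singleton, List.length_singleton] at h1
        have h2 := wlen_mul M.closure_Q a b
        have h3 : wlen M.Q b ≤ n := hb
        change wlen M.Q (a * b) ≤ n + 1
        omega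
    rw [h]
    exact M.len_compact_S.mul ih

theorem isCompact_ball (R : ℝ) : IsCompact {g : M.G | M.ln g ≤ R} := by
  by_cases hR : 0 ≤ R
  · have h : {g : M.G | M.ln g ≤ R} = {g : M.G | wlen M.Q g ≤ ⌊R⌋₊} := by
      ext g
      exact (Nat.le_floor_iff hR).symm
    rw [h]
    exact M.len_compact_nat _
  · have h : {g : M.G | M.ln g ≤ R} = ∅ :=
      Set.eq_empty_of_forall_notMem fun g hg => hR ((M.ln_nonneg g).trans hg)
    rw [h]
    exact isCompact_empty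
theorem measurable_ln : Measurable M.ln := by
  exact measurable_of_Iic fun R => (M.isCompact_ball R).isClosed.measurableSet
theorem len_tame {x : M.G} (h : M.A x = 0 ∨ x ∈ M.u0) : M.ln x ≤ ‖x‖ + 1 := by
  obtain ⟨l, h1, h2, h3⟩ := M.len_tame_list h
  have h4 := wlen_le (S := M.Q) (l := l) fun x hx => Or.inl (h2 x hx)
  rw [h3, h1] at h4
  have h5 : M.ln x ≤ (⌈‖x‖⌉₊ : ℝ) := by
    unfold ln
    exact_mod_cast h4
  exact h5.trans (Nat.ceil_lt_add_one (norm_nonneg x)).le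

theorem len_bound {S : Set M.G} (hS : IsCompact S) : ∃ D : ℝ, 0 ≤ D ∧ ∀ g ∈ S,
    ‖g * (M.eᗮ.starProjection g)⁻¹‖ ≤ D ∧ ‖M.eᗮ.starProjection g‖ ≤ D := by
  have hc : Continuous fun g : M.G =>
      ‖g * (M.eᗮ.starProjection g)⁻¹‖ + ‖M.eᗮ.starProjection g‖ := by fun_prop
  obtain ⟨D, hD⟩ := hS.bddAbove_image hc.continuousOn
  refine ⟨max D 0, le_max_right _ _, fun g hg => ?_⟩
  have h := (hD (Set.mem_image_of_mem _ hg)).trans (le_max_left D 0)
  have h1 := norm_nonneg (g * (M.eᗮ.starProjection g)⁻¹)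
  have h2 := norm_nonneg (M.eᗮ.starProjection g)
  constructor <;> linarith

theorem exists_ln_le {S : Set M.G} (hS : IsCompact S) : ∃ R : ℝ, ∀ g ∈ S, M.ln g ≤ R := by
  obtain ⟨D, -, hD⟩ := M.len_bound hS
  refine ⟨2 * D + 2, fun g hg => ?_⟩
  have h1 := M.ln_mul (g * (M.eᗮ.starProjection g)⁻¹) (M.eᗮ.starProjection g)
  rw [inv_mul_cancel_right] at h1
  have h2 := M.len_tame (Or.inl (M.A_e (M.mul_proj_inv_mem_e g)))
  have h3 := M.len_tame (Or.inr (M.len_proj_u0 g))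
  have h4 := hD g hg
  linarith [h4.1, h4.2]
theorem ln_tame {x : M.G} (h : M.A x = 0 ∨ x ∈ M.u0) : M.ln x ≤ ‖x‖ + 1 := by
  exact M.len_tame h
theorem len_hom {E : Type} [NormedAddCommGroup E] [NormedSpace ℝ E] (f : M.G →ₗ[ℝ] E)
    (hf : ∀ x y, f (x * y) = f x + f y) : ∃ C : ℝ, 1 ≤ C ∧ ∀ g, ‖f g‖ ≤ C * M.ln g := by
  refine ⟨max 1 ‖LinearMap.toContinuousLinearMap f‖, le_max_left _ _, fun g => ?_⟩
  set C := max 1 ‖LinearMap.toContinuousLinearMap f‖ with hC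
  have h0 : f 1 = 0 := map_zero f
  have hQ : ∀ x ∈ M.Q, ‖f x‖ ≤ C := fun x hx =>
    ((LinearMap.toContinuousLinearMap f).unit_le_opNorm x (mem_closedBall_zero_iff.1 hx)).trans
      (le_max_right _ _)
  have hl : ∀ l : List M.G, (∀ x ∈ l, x ∈ M.Q ∨ x⁻¹ ∈ M.Q) → ‖f l.prod‖ ≤ C * l.length := by
    intro l hl
    induction l with
    | nil => simp [h0]
    | cons a l ih =>
      have h1 : ‖f a‖ ≤ C := by
        rcases hl a List.mem_cons_self with h | h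
        · exact hQ a h
        · have h2 := hf a a⁻¹
          rw [mul_inv_cancel, h0] at h2
          rw [eq_neg_of_add_eq_zero_left h2.symm, norm_neg]
          exact hQ _ h
      have h2 := ih fun x hx => hl x (List.mem_cons_of_mem _ hx)
      rw [List.prod_cons, hf, List.length_cons, Nat.cast_succ]
      exact (norm_add_le _ _).trans (by linarith)
  obtain ⟨l, h1, h2, h3⟩ := wlen_spec M.closure_Q g
  have h4 := hl l h2
  rwa [h3, h1] at h4

theorem norm_ah_le : ∃ C : ℝ, 1 ≤ C ∧ ∀ g, ‖M.ah g‖ ≤ C * M.ln g ∧ ‖M.A g‖ ≤ C * M.ln g := by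
  obtain ⟨C, hC, h⟩ := M.len_hom (M.ah : M.G →ₗ[ℝ] M.G) M.ah_mul
  obtain ⟨C', -, h'⟩ := M.len_hom M.A M.A_mul
  refine ⟨max C C', le_max_of_le_left hC, fun g => ⟨?_, ?_⟩⟩
  · exact (h g).trans (mul_le_mul_of_nonneg_right (le_max_left _ _) (M.ln_nonneg g))
  · exact (h' g).trans (mul_le_mul_of_nonneg_right (le_max_right _ _) (M.ln_nonneg g))
theorem GenF.abs_le_ln {μ p} (hp : M.GenF μ p) : ∃ C : ℝ, 1 ≤ C ∧ ∀ g,
    |p g| ≤ Real.exp (C * M.ln g) := by
  have hc : Continuous fun x : M.G => |p x| + Real.exp ⟪μ, M.A x⟫_ℝ := by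
    have h1 := p.continuous_of_finiteDimensional
    have h2 := M.A.continuous_of_finiteDimensional
    fun_prop
  obtain ⟨D, hD⟩ := M.len_compact_S.bddAbove_image hc.continuousOn
  set E := max D 1 with hE
  have hE1 : 1 ≤ E := le_max_right _ _
  have hl : ∀ l : List M.G, (∀ x ∈ l, x ∈ M.Q ∨ x⁻¹ ∈ M.Q) →
      |p l.prod| + 1 ≤ (2 * E) ^ l.length := by
    intro l hl
    induction l with
    | nil =>
      have h0 : p 1 = 0 := map_zero p
      simp [h0]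
    | cons a l ih =>
      have h1 := (hD (Set.mem_image_of_mem _ (M.len_mem_S.2 (hl a List.mem_cons_self)))).trans
        (le_max_left D 1)
      have h2 := ih fun x hx => hl x (List.mem_cons_of_mem _ hx)
      have h3 := Real.exp_pos ⟪μ, M.A a⟫_ℝ
      have h4 := abs_nonneg (p a)
      have h5 := abs_nonneg (p l.prod)
      have h6 : |p (a * l.prod)| ≤ E + E * |p l.prod| := by
        rw [GenF.mul M hp]
        refine (abs_add_le _ _).trans (add_le_add (by linarith) ?_)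
        rw [abs_mul, abs_of_pos h3]
        exact mul_le_mul_of_nonneg_right (by linarith) h5
      rw [List.prod_cons, List.length_cons, pow_succ]
      nlinarith
  refine ⟨2 * E, by linarith, fun g => ?_⟩
  obtain ⟨l, h1, h2, h3⟩ := wlen_spec M.closure_Q g
  have h4 := hl l h2
  rw [h3, h1] at h4
  have h5 : (2 * E) ^ wlen M.Q g ≤ Real.exp (2 * E) ^ wlen M.Q g :=
    pow_le_pow_left₀ (by linarith) (by linarith [Real.add_one_le_exp (2 * E)]) _
  rw [← Real.exp_nat_mul, mul_comm (wlen M.Q g : ℝ)] at h5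
  unfold ln
  linarith
theorem len_exp_norm : ∃ β : ℝ, 0 ≤ β ∧ ∀ ε : ℝ, 0 < ε → ε ≤ 1 → ∀ h z : M.G,
    ‖(∑ j ∈ Finset.range M.c, ((j.factorial : ℝ)⁻¹) • ((M.B h) ^ j)) z‖ ≤
      ε⁻¹ ^ M.c * Real.exp (ε * (β * ‖h‖)) * ‖z‖ := by
  obtain ⟨β, hβ0, hβ⟩ : ∃ β : ℝ, 0 ≤ β ∧ ∀ x y, ‖M.B x y‖ ≤ β * ‖x‖ * ‖y‖ :=
    ⟨‖M.B.toContinuousBilinearMap‖, ContinuousLinearMap.opNorm_nonneg _, fun x y =>
      M.B.toContinuousBilinearMap.le_opNorm₂ x y⟩
  refine ⟨β, hβ0, fun ε h0 h1 h z => ?_⟩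
  have ht : 0 ≤ β * ‖h‖ := mul_nonneg hβ0 (norm_nonneg _)
  have hp : ∀ j : ℕ, ‖((M.B h) ^ j) z‖ ≤ (β * ‖h‖) ^ j * ‖z‖ := fun j => by
    induction j with
    | zero => simp
    | succ j ih =>
      rw [pow_succ', Module.End.mul_apply, pow_succ', mul_assoc]
      exact (hβ _ _).trans (mul_le_mul_of_nonneg_left ih ht)
  have hi : 1 ≤ ε⁻¹ := (one_le_inv₀ h0).2 h1
  rw [LinearMap.sum_apply]
  refine (norm_sum_le _ _).trans ?_
  have h2 := Real.sum_le_exp_of_nonneg (mul_nonneg h0.le ht) M.c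
  refine le_trans ?_ (mul_le_mul_of_nonneg_right
    (mul_le_mul_of_nonneg_left h2 (by positivity)) (norm_nonneg z))
  rw [Finset.mul_sum, Finset.sum_mul]
  refine Finset.sum_le_sum fun j hj => ?_
  rw [LinearMap.smul_apply, norm_smul, norm_inv, Real.norm_natCast]
  have h3 : ε⁻¹ ^ j ≤ ε⁻¹ ^ M.c := pow_le_pow_right₀ hi (Finset.mem_range.1 hj).le
  have h4 : (β * ‖h‖) ^ j = ε⁻¹ ^ j * (ε * (β * ‖h‖)) ^ j := by
    rw [← mul_pow, inv_mul_cancel_left₀ h0.ne']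
  calc (j.factorial : ℝ)⁻¹ * ‖((M.B h) ^ j) z‖
      ≤ (j.factorial : ℝ)⁻¹ * ((β * ‖h‖) ^ j * ‖z‖) :=
        mul_le_mul_of_nonneg_left (hp j) (by positivity)
    _ = ε⁻¹ ^ j * ((ε * (β * ‖h‖)) ^ j / j.factorial) * ‖z‖ := by rw [h4]; ring
    _ ≤ _ := mul_le_mul_of_nonneg_right (mul_le_mul_of_nonneg_right h3 (by positivity))
        (norm_nonneg z)

theorem len_log {t : ℝ} (ht : 0 ≤ t) : 1 / 2 ≤ Real.log (2 + t) := by
  have h1 := Real.log_two_gt_d9
  have h2 := Real.log_le_log (by norm_num : (0 : ℝ) < 2) (by linarith : 2 ≤ 2 + t)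
  linarith

theorem len_letter (μ : M.V) : ∃ C : ℝ, 0 ≤ C ∧ ∀ x : M.G, μ ≠ 0 →
    (∀ i, M.wt i ≠ μ → M.co i x = 0) → M.ln x ≤ C * Real.log (2 + ‖x‖) := by
  by_cases hμ : μ = 0
  · exact ⟨0, le_rfl, fun x h => (h hμ).elim⟩
  obtain ⟨β, hβ0, hβ⟩ := M.len_exp_norm
  obtain ⟨ι, hι, hA⟩ := M.exists_sec
  have hm : 0 < ‖μ‖ ^ 2 := pow_pos (norm_pos_iff.2 hμ) 2
  set m := ‖μ‖ ^ 2 with hm'
  set κ := β * ‖ι μ‖ with hκ
  have hκ0 : 0 ≤ κ := mul_nonneg hβ0 (norm_nonneg _)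
  set ε := min 1 (m / (2 * (κ + 1))) with hε
  have hε0 : 0 < ε := lt_min one_pos (by positivity)
  have hεκ : ε * κ ≤ m / 2 := by
    have h1 : ε ≤ m / (2 * (κ + 1)) := min_le_right _ _
    rw [le_div_iff₀ (by positivity)] at h1
    nlinarith
  refine ⟨4 * ‖ι μ‖ / m + 2 * (3 + ε⁻¹ ^ M.c), by positivity, fun x _ hx => ?_⟩
  set L := Real.log (2 + ‖x‖) with hL
  have hL1 : 1 / 2 ≤ L := len_log (norm_nonneg x)
  set s := 2 * L / m with hs
  have hs0 : 0 ≤ s := by positivity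
  have hsm : s * m = 2 * L := by rw [hs, div_mul_cancel₀ _ hm.ne']
  have hAx : M.A x = 0 := by
    rw [← M.sum_co x, map_sum]
    refine Finset.sum_eq_zero fun i _ => ?_
    by_cases h : M.wt i = μ
    · rw [map_smul, M.A_X i (h ▸ hμ), smul_zero]
    · rw [hx i h, zero_smul, map_zero]
  have hh : ι ((-s) • μ) ∈ M.u0 := hι _
  have hn : ‖ι ((-s) • μ)‖ = s * ‖ι μ‖ := by
    rw [map_smul, norm_smul, norm_neg, Real.norm_of_nonneg hs0]
  have hdel : M.del ((-s) • μ) x = Real.exp (-(2 * L)) • x := by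
    refine M.ext_co fun i => ?_
    rw [M.co_del, map_smul, smul_eq_mul]
    by_cases h : M.wt i = μ
    · rw [h, real_inner_smul_right, real_inner_self_eq_norm_sq, ← hsm, neg_mul]
    · rw [hx i h, mul_zero, mul_zero]
  have hy : ‖M.Ad (ι ((-s) • μ)) x‖ ≤ ε⁻¹ ^ M.c := by
    rw [Ad, LinearMap.comp_apply, hA, hdel]
    refine (hβ ε hε0 (min_le_left _ _) _ _).trans ?_
    rw [mul_assoc, hn, norm_smul, Real.norm_of_nonneg (Real.exp_pos _).le]
    refine mul_le_of_le_one_right (by positivity) ?_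
    have h1 : ε * (β * (s * ‖ι μ‖)) ≤ L := by
      have h2 : ε * (β * (s * ‖ι μ‖)) = s * (ε * κ) := by rw [hκ]; ring
      rw [h2]
      nlinarith
    have h3 : ‖x‖ ≤ Real.exp L := by
      rw [hL, Real.exp_log (by positivity)]
      linarith
    calc Real.exp (ε * (β * (s * ‖ι μ‖))) * (Real.exp (-(2 * L)) * ‖x‖)
        ≤ Real.exp L * (Real.exp (-(2 * L)) * Real.exp L) := by gcongr
      _ = 1 := by
        rw [← Real.exp_add, ← Real.exp_add, ← Real.exp_zero]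
        congr 1
        ring
  have h1 : x = (ι ((-s) • μ))⁻¹ * M.Ad (ι ((-s) • μ)) x * ι ((-s) • μ) := by
    rw [← M.conj_eq (Or.inr hh)]
    group
  have h2 := M.ln_mul ((ι ((-s) • μ))⁻¹ * M.Ad (ι ((-s) • μ)) x) (ι ((-s) • μ))
  have h3 := M.ln_mul (ι ((-s) • μ))⁻¹ (M.Ad (ι ((-s) • μ)) x)
  rw [← h1] at h2
  rw [M.ln_inv] at h3
  have h4 := M.ln_tame (Or.inr hh)
  have h5 := M.ln_tame (x := M.Ad (ι ((-s) • μ)) x) (Or.inl (by rw [M.A_Ad, hAx]))
  rw [hn] at h4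
  have h6 : 4 * ‖ι μ‖ / m * L = 2 * (s * ‖ι μ‖) := by rw [hs]; ring
  have h7 : (0 : ℝ) ≤ ε⁻¹ ^ M.c := by positivity
  rw [add_mul, h6]
  nlinarith

/-- A vector of a single nonzero weight has logarithmic length. -/
theorem ln_letter : ∃ C : ℝ, 1 ≤ C ∧ ∀ (μ : M.V) (x : M.G), μ ≠ 0 →
    (∀ i, M.wt i ≠ μ → M.co i x = 0) → M.ln x ≤ C * Real.log (2 + ‖x‖) := by
  choose C hC0 hC using M.len_letter
  have hs : 0 ≤ ∑ i, C (M.wt i) := Finset.sum_nonneg fun i _ => hC0 _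
  refine ⟨1 + ∑ i, C (M.wt i), by linarith, fun μ x hμ hx => ?_⟩
  have hL : 1 / 2 ≤ Real.log (2 + ‖x‖) := len_log (norm_nonneg x)
  by_cases h : ∃ i, M.wt i = μ
  · obtain ⟨i, rfl⟩ := h
    refine (hC _ x hμ hx).trans (mul_le_mul_of_nonneg_right ?_ (by linarith))
    have := Finset.single_le_sum (f := fun i => C (M.wt i)) (fun i _ => hC0 _) (Finset.mem_univ i)
    linarith
  · have h1 : x = 1 := M.ext_co fun i => by
      rw [hx i fun h' => h ⟨i, h'⟩, one_def, map_zero]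
    have h2 : M.ln x = 0 := by rw [h1, M.ln_one]
    rw [h2]
    exact mul_nonneg (by linarith) (by linarith)
theorem len_norm_X (i : Fin M.d) : ‖M.X i‖ = 1 := by
  change ‖(EuclideanSpace.single i (1 : ℝ) : Eu M.d)‖ = 1
  simp

theorem len_gen (C₀ : ℝ) (h : 0 ≤ C₀) : ∃ (N : ℕ) (C' : ℝ), 1 ≤ C' ∧
    ∀ (P : Fin M.d → Prop) (t : Fin M.d → ℝ) (R : ℝ), 0 ≤ R →
      M.Tame {y | ∃ i, P i ∧ y = t i • M.X i} →
      (∀ i, P i → ∀ u : ℝ, |u| ≤ C' → M.ln (u • t i • M.X i) ≤ R) →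
      ∀ x ∈ C₀ • M.gen {y | ∃ i, P i ∧ y = t i • M.X i}, M.ln x ≤ N * R := by
  classical
  obtain ⟨N, C', hC', hb⟩ := M.bounded_gen M.d C₀ h
  refine ⟨N, C', hC', fun P t R hR ht hP x hx => ?_⟩
  have he : (((Finset.univ.filter P).image fun i => t i • M.X i : Finset M.G) : Set M.G) =
      {y | ∃ i, P i ∧ y = t i • M.X i} := by
    ext y
    simp [eq_comm]
  obtain ⟨l, h1, h2, h3⟩ := hb ((Finset.univ.filter P).image fun i => t i • M.X i)
    (Finset.card_image_le.trans ((Finset.card_filter_le _ _).trans (by simp))) (he ▸ ht) x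
    (he ▸ hx)
  rw [h3]
  refine (M.ln_prod _).trans ?_
  have h4 := List.sum_le_card_nsmul (((l.map fun p => p.1 • p.2)).map M.ln) R (by
    intro z hz
    obtain ⟨y, hy, rfl⟩ := List.mem_map.1 hz
    obtain ⟨p, hp, rfl⟩ := List.mem_map.1 hy
    have h5 : p.2 ∈ {y | ∃ i, P i ∧ y = t i • M.X i} := he ▸ (h2 p hp).2
    obtain ⟨i, hi, h6⟩ := h5
    rw [h6]
    exact hP i hi _ (h2 p hp).1)
  refine h4.trans ?_
  rw [List.length_map, List.length_map, nsmul_eq_mul]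
  exact mul_le_mul_of_nonneg_right (by exact_mod_cast h1) hR

theorem ln_K (C₀ : ℝ) (h : 0 ≤ C₀) : ∃ C : ℝ, 1 ≤ C ∧ ∀ r (ρ : ℝ), 0 ≤ ρ →
    (∀ i, M.wt i ≠ 0 → r i ≤ ρ) → ∀ x ∈ C₀ • M.K r, M.ln x ≤ C * (ρ + 1) := by
  obtain ⟨N, C', hC', hg⟩ := M.len_gen C₀ h
  obtain ⟨C₁, hC₁, hl⟩ := M.ln_letter
  have h0 : 0 ≤ (N : ℝ) * (C₁ * (2 + C')) := by positivity
  refine ⟨1 + N * (C₁ * (2 + C')), by linarith, fun r ρ hρ hr x hx => ?_⟩
  have h1 := hg (fun i => M.wt i ≠ 0) (fun i => Real.exp (r i)) (C₁ * ((2 + C') * (ρ + 1)))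
    (by positivity) (Tame.mono M (M.K_tame r) (M.subset_gen _)) (fun i hi u hu => ?_) x hx
  · nlinarith
  refine (hl (M.wt i) _ hi fun j hj => ?_).trans (mul_le_mul_of_nonneg_left ?_ (by linarith))
  · rw [map_smul, map_smul, M.co_X, if_neg fun h' => hj (by rw [h']), smul_zero, smul_zero]
  · rw [norm_smul, norm_smul, M.len_norm_X, mul_one, Real.norm_of_nonneg (Real.exp_pos _).le,
      Real.norm_eq_abs]
    have h2 : |u| * Real.exp (r i) ≤ C' * Real.exp ρ :=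
      mul_le_mul hu (Real.exp_le_exp.2 (hr i hi)) (Real.exp_pos _).le (by linarith)
    have h3 := Real.one_le_exp hρ
    have h4 : Real.log (2 + |u| * Real.exp (r i)) ≤ Real.log ((2 + C') * Real.exp ρ) :=
      Real.log_le_log (by positivity) (by linarith)
    rw [Real.log_mul (by positivity) (Real.exp_pos _).ne', Real.log_exp] at h4
    have h5 := Real.log_le_sub_one_of_pos (by positivity : 0 < 2 + C')
    nlinarith
theorem ln_Z : ∃ C : ℝ, 1 ≤ C ∧ ∀ ρ : ℝ, 0 ≤ ρ → ∀ x ∈ M.Z ρ, M.ln x ≤ C * (ρ + 1) := by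
  obtain ⟨N, C', hC', hg⟩ := M.len_gen 1 zero_le_one
  have h0 : 0 ≤ (N : ℝ) * C' := by positivity
  refine ⟨1 + N * C', by linarith, fun ρ hρ x hx => ?_⟩
  have h1 := hg (fun i => M.wt i = 0) (fun _ => ρ) (C' * (ρ + 1))
    (by positivity) (Tame.mono M (M.Z_tame ρ) (M.subset_gen _)) (fun i hi u hu => ?_) x
    (by rw [one_smul]; exact hx)
  · nlinarith
  have h2 : M.X i ∈ M.u0 := Submodule.subset_span ⟨i, hi, rfl⟩
  refine (M.ln_tame (Or.inr (M.u0.smul_mem _ (M.u0.smul_mem _ h2)))).trans ?_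
  rw [norm_smul, norm_smul, M.len_norm_X, mul_one, Real.norm_of_nonneg hρ, Real.norm_eq_abs]
  nlinarith
/-- Distance between `ζ` and `x * ζ` for `x` in a body, seen from the height of `ζ`. -/
theorem ln_conj_K (C₀ : ℝ) (h : 0 ≤ C₀) : ∃ C : ℝ, 1 ≤ C ∧ ∀ r (ρ τ : ℝ), 0 ≤ ρ → 0 ≤ τ →
    M.WtFun r → ∀ ζ ∈ M.Z ρ, (∀ i, M.wt i ≠ 0 → r i ≤ M.wv (M.A ζ) i + τ) →
      ∀ x ∈ C₀ • M.K r, M.ln (ζ⁻¹ * x * ζ) ≤ C * (τ + Real.log (2 + ρ)) := by
  obtain ⟨C₁, hC₁, hK⟩ := M.ln_K C₀ h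
  obtain ⟨C₂, hC₂, hA⟩ := M.Ad_Z_K
  refine ⟨C₁ * (C₂ + 2), by nlinarith, fun r ρ τ hρ hτ hr ζ hζ hi x hx => ?_⟩
  obtain ⟨x', hx', rfl⟩ := hx
  have hL := len_log hρ
  have h1 := M.conj_eq (g := ζ⁻¹) (x := C₀ • x') (Or.inr (M.inv_mem_u0 (M.Z_sub_u0 ρ hζ)))
  rw [inv_inv] at h1
  have h2 := hA ρ r hρ hr ζ⁻¹ (M.Z_inv hζ) (Set.mem_image_of_mem _ hx')
  have h3 := hK _ (τ + C₂ * Real.log (2 + ρ)) (by positivity) (fun i h' => ?_) _
    (Set.smul_mem_smul_set (a := C₀) h2)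
  · dsimp only
    rw [h1, map_smul, mul_assoc]
    refine h3.trans (mul_le_mul_of_nonneg_left ?_ (by linarith))
    nlinarith
  · have h4 := hi i h'
    have h5 : M.wv (M.A ζ⁻¹) i = -M.wv (M.A ζ) i := by
      rw [M.A_inv, wv, wv, inner_neg_right]
    linarith
theorem len_A_prod {l : List M.G} (hl : ∀ x ∈ l, x ∈ M.e) : M.A l.prod = 0 := by
  induction l with
  | nil => exact M.A_one
  | cons a l ih =>
    rw [List.prod_cons, M.A_mul, M.A_e (hl a List.mem_cons_self),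
      ih fun x hx => hl x (List.mem_cons_of_mem _ hx), add_zero]

theorem len_nf : ∃ C : ℝ, 1 ≤ C ∧ ∀ (l : List M.G) (τ ρ : ℝ) (r : Fin M.d → ℝ), 0 ≤ ρ →
    (∀ b ∈ l, ∃ x ∈ M.K (fun _ => τ), ∃ ζ ∈ M.Z ρ, b = x * ζ) →
    (∀ j ≤ l.length, ∀ i, M.wt i ≠ 0 → M.wv (M.A (l.take j).prod) i ≤ r i) →
    ∃ x ∈ M.K (fun i => r i + τ + C * Real.log (2 + C * ρ * l.length) +
      Real.log (C * (1 + l.length))), ∃ ζ ∈ M.Z (C * ρ * l.length), l.prod = x * ζ := by
  obtain ⟨C₁, hC₁, hZ⟩ := M.Z_prod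
  obtain ⟨C₂, hC₂, hK⟩ := M.K_prod
  obtain ⟨C₃, hC₃, hA⟩ := M.Ad_Z_K
  set C := max C₁ (max C₂ C₃) with hC
  have h1 : C₁ ≤ C := le_max_left _ _
  have h2 : C₂ ≤ C := le_max_of_le_right (le_max_left _ _)
  have h3 : C₃ ≤ C := le_max_of_le_right (le_max_right _ _)
  refine ⟨C, hC₁.trans h1, fun l τ ρ r hρ hb hr => ?_⟩
  have hC0 : 0 ≤ C := by linarith
  have hZ' : ∀ (N : ℕ) (lz : List M.G), lz.length ≤ N → (∀ z ∈ lz, z ∈ M.Z ρ) →
      lz.prod ∈ M.Z (C * ρ * N) := fun N lz hN hz =>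
    M.Z_mono (by positivity) (by gcongr) (hZ ρ lz hρ hz)
  have key : ∀ (N : ℕ) (l : List M.G), l.length ≤ N →
      (∀ b ∈ l, ∃ x ∈ M.K (fun _ => τ), ∃ ζ ∈ M.Z ρ, b = x * ζ) →
      (∀ j ≤ l.length, ∀ i, M.wt i ≠ 0 → M.wv (M.A (l.take j).prod) i ≤ r i) →
      ∃ lx lz : List M.G, lx.length = l.length ∧ lz.length = l.length ∧
        (∀ x ∈ lx, x ∈ M.K fun i => r i + τ + C * Real.log (2 + C * ρ * N)) ∧
        (∀ z ∈ lz, z ∈ M.Z ρ) ∧ l.prod = lx.prod * lz.prod := by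
    intro N l
    induction l using List.reverseRecOn with
    | nil => exact fun _ _ _ => ⟨[], [], rfl, rfl, by simp, by simp, by simp⟩
    | append_singleton l b ih =>
      intro hN hb hr
      rw [List.length_append, List.length_singleton] at hN hr
      have hr' : ∀ j ≤ l.length, ∀ i, M.wt i ≠ 0 → M.wv (M.A (l.take j).prod) i ≤ r i :=
        fun j hj i hi => by
          have h4 := hr j (by omega) i hi
          rwa [List.take_append_of_le_length hj] at h4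
      obtain ⟨lx, lz, e1, e2, hx, hz, e3⟩ := ih (by omega)
        (fun b' hb' => hb b' (List.mem_append_left _ hb')) hr'
      obtain ⟨x, hxK, ζ, hζ, rfl⟩ := hb b (by simp)
      have h4 := hZ' N lz (by omega) hz
      have h5 : M.A lz.prod = M.A l.prod := by
        rw [e3, M.A_mul, M.len_A_prod fun y hy => M.K_sub_e _ (hx y hy), zero_add]
      have h6 := hA _ (fun _ => τ) (by positivity) (fun _ _ _ => rfl) _ h4
        (Set.mem_image_of_mem _ hxK)
      refine ⟨lx ++ [M.Ad lz.prod x], lz ++ [ζ], by simp [e1], by simp [e2], fun y hy => ?_,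
        fun z hz' => ?_, ?_⟩
      · rcases List.mem_append.1 hy with hy | hy
        · exact hx y hy
        · rw [List.mem_singleton.1 hy]
          refine M.K_mono (fun i hi => ?_) h6
          have h7 := hr' l.length le_rfl i hi
          rw [List.take_length, ← h5] at h7
          have h8 := len_log (t := C * ρ * N) (by positivity)
          have h9 := mul_le_mul_of_nonneg_right h3 (by linarith : 0 ≤ Real.log (2 + C * ρ * N))
          linarith
      · rcases List.mem_append.1 hz' with hz' | hz'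
        · exact hz z hz'
        · rw [List.mem_singleton.1 hz']
          exact hζ
      · rw [List.prod_append, List.prod_append, List.prod_append, List.prod_singleton,
          List.prod_singleton, List.prod_singleton, e3,
          ← M.conj_eq (Or.inr (M.Z_sub_u0 _ h4))]
        group
  obtain ⟨lx, lz, e1, e2, hx, hz, e3⟩ := key l.length l le_rfl hb hr
  refine ⟨lx.prod, M.K_mono (fun i _ => ?_) (hK _ lx hx), lz.prod, hZ' _ lz e2.le hz, e3⟩
  rw [e1]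
  have h4 : Real.log (C₂ * (1 + l.length)) ≤ Real.log (C * (1 + l.length)) :=
    Real.log_le_log (by positivity) (by gcongr)
  linarith

theorem len_unit : ∃ τ ρ : ℝ, 0 ≤ τ ∧ 0 ≤ ρ ∧ ∀ b, (b ∈ M.Q ∨ b⁻¹ ∈ M.Q) →
    ∃ x ∈ M.K (fun _ => τ), ∃ ζ ∈ M.Z ρ, b = x * ζ := by
  obtain ⟨D, hD0, hD⟩ := M.len_bound M.len_compact_S
  obtain ⟨C₁, hC₁, h1⟩ := M.ball_subset_K
  obtain ⟨C₂, hC₂, h2⟩ := M.mem_Z
  refine ⟨C₁ * D, C₂ * D, by positivity, by positivity, fun b hb => ?_⟩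
  obtain ⟨h3, h4⟩ := hD b (M.len_mem_S.2 hb)
  refine ⟨_, ?_, _, M.Z_mono (by positivity) (by gcongr) (h2 _ (M.len_proj_u0 b)),
    (inv_mul_cancel_right b _).symm⟩
  refine M.smul_K_subset (r := 0) (t := C₁ * D) (by positivity) (fun i _ => by simp)
    ((M.K_isLB 0).sc.smul_mono ?_ (h1 _ (M.mul_proj_inv_mem_e b)))
  rw [abs_of_nonneg (by positivity)]
  have h5 := Real.add_one_le_exp (C₁ * D)
  have h6 := mul_le_mul_of_nonneg_left h3 (by linarith : 0 ≤ C₁)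
  linarith

theorem len_nf_of_ln : ∃ C : ℝ, 1 ≤ C ∧ ∀ (g : M.G) (ℓ : ℝ), M.ln g ≤ ℓ →
    ∃ x ∈ M.K (fun _ => C * (ℓ + 1)), ∃ ζ ∈ M.Z (C * (ℓ + 1)), g = x * ζ := by
  obtain ⟨C, hC, hn⟩ := M.len_nf
  obtain ⟨τ, ρ, hτ, hρ, hu⟩ := M.len_unit
  obtain ⟨C₁, hC₁, hA⟩ := M.norm_ah_le
  set W := ∑ i, ‖M.wt i‖ with hW
  have hW0 : 0 ≤ W := Finset.sum_nonneg fun i _ => norm_nonneg _
  have hWi : ∀ i, ‖M.wt i‖ ≤ W := fun i =>
    Finset.single_le_sum (f := fun i => ‖M.wt i‖) (fun i _ => norm_nonneg _) (Finset.mem_univ i)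
  have p1 : 0 ≤ W * C₁ := by positivity
  have p2 : 0 ≤ C * (C * ρ) := by positivity
  have p3 : C * ρ ≤ C * (C * ρ) := le_mul_of_one_le_left (by positivity) hC
  refine ⟨W * C₁ + τ + C * (C * ρ) + 2 * C, by linarith, fun g ℓ hg => ?_⟩
  obtain ⟨l, h1, h2, h3⟩ := wlen_spec M.closure_Q g
  have hℓ : (l.length : ℝ) ≤ ℓ := by rw [h1]; exact hg
  have hl0 : (0 : ℝ) ≤ l.length := Nat.cast_nonneg _
  have hℓ0 : 0 ≤ ℓ := hl0.trans hℓ
  obtain ⟨x, hx, ζ, hζ, h4⟩ := hn l τ ρ (fun _ => W * C₁ * ℓ) hρ (fun b hb => hu b (h2 b hb))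
    (fun j _ i _ => by
      have h5 := wlen_le (S := M.Q) (l := l.take j) fun y hy => h2 y (List.mem_of_mem_take hy)
      have h6 : M.ln (l.take j).prod ≤ l.length := by
        unfold ln
        exact_mod_cast h5.trans (List.length_take_le' _ _)
      have h7 := (hA (l.take j).prod).2.trans
        (mul_le_mul_of_nonneg_left (h6.trans hℓ) (by linarith))
      refine (real_inner_le_norm _ _).trans ?_
      rw [mul_assoc]
      exact mul_le_mul (hWi i) h7 (norm_nonneg _) hW0)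
  have q1 : C * ρ * l.length ≤ C * ρ * ℓ := by gcongr
  refine ⟨x, M.K_mono (fun i _ => ?_) hx, ζ, M.Z_mono (by positivity) ?_ hζ, h3 ▸ h4⟩
  · have h5 := Real.log_le_sub_one_of_pos (by positivity : 0 < 2 + C * ρ * l.length)
    have h6 := Real.log_le_sub_one_of_pos (by positivity : 0 < C * (1 + l.length))
    have h7 : C * Real.log (2 + C * ρ * l.length) ≤ C * (1 + C * ρ * ℓ) :=
      mul_le_mul_of_nonneg_left (by linarith) (by linarith)
    have h8 : C * (1 + l.length) ≤ C * (1 + ℓ) := by gcongr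
    have h9 : 0 ≤ τ * ℓ := by positivity
    have h10 : 0 ≤ C * ℓ := by positivity
    nlinarith
  · have h5 : C * ρ * ℓ ≤ C * (C * ρ) * ℓ := by gcongr
    have h6 : 0 ≤ (W * C₁ + τ + 2 * C) * (ℓ + 1) := by positivity
    nlinarith

/-- Normal form of a path with controlled heights. -/
theorem path_nf : ∃ C : ℝ, 1 ≤ C ∧ ∀ (l : List M.G) (ℓ : ℝ) (r : Fin M.d → ℝ), 1 ≤ ℓ →
    M.WtFun r → (∀ b ∈ l, M.ln b ≤ ℓ) →
    (∀ j ≤ l.length, ∀ i, M.wt i ≠ 0 → M.wv (M.A (l.take j).prod) i ≤ r i) →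
    ∃ x ∈ M.K (fun i => r i + C * (ℓ + Real.log (1 + l.length))),
      ∃ ζ ∈ M.Z (C * ℓ * (1 + l.length)), l.prod = x * ζ := by
  obtain ⟨C, hC, hn⟩ := M.len_nf
  obtain ⟨C₁, hC₁, h1⟩ := M.len_nf_of_ln
  have p1 : 0 ≤ C * C₁ := by positivity
  have p2 : C * C₁ ≤ C * (C * C₁) := le_mul_of_one_le_left p1 hC
  refine ⟨2 * C₁ + C * (1 + 2 * (C * C₁)) + C + 1, by nlinarith, fun l ℓ r hℓ _ hb hr => ?_⟩
  obtain ⟨x, hx, ζ, hζ, h2⟩ := hn l (C₁ * (ℓ + 1)) (C₁ * (ℓ + 1)) r (by positivity)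
    (fun b hb' => h1 b ℓ (hb b hb')) hr
  have hl0 : (0 : ℝ) ≤ l.length := Nat.cast_nonneg _
  refine ⟨x, M.K_mono (fun i _ => ?_) hx, ζ, M.Z_mono (by positivity) ?_ hζ, h2⟩
  · have hL : 0 ≤ Real.log (1 + l.length) := Real.log_nonneg (by linarith)
    have q0 : 0 ≤ C * (C₁ * (ℓ + 1)) := by positivity
    have h3 : Real.log (2 + C * (C₁ * (ℓ + 1)) * l.length) ≤
        Real.log ((2 + C * (C₁ * (ℓ + 1))) * (1 + l.length)) :=
      Real.log_le_log (by positivity) (by nlinarith)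
    rw [Real.log_mul (by positivity) (by positivity)] at h3
    have h4 := Real.log_le_sub_one_of_pos (by positivity : 0 < 2 + C * (C₁ * (ℓ + 1)))
    have h5 := Real.log_le_sub_one_of_pos (by positivity : 0 < C)
    have h6 : C * (C₁ * (ℓ + 1)) ≤ 2 * (C * C₁) * ℓ := by nlinarith
    have h7 : C * Real.log (2 + C * (C₁ * (ℓ + 1)) * l.length) ≤
        C * ((1 + 2 * (C * C₁)) * ℓ + Real.log (1 + l.length)) :=
      mul_le_mul_of_nonneg_left (by linarith) (by linarith)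
    have h8 : C₁ * (ℓ + 1) ≤ 2 * C₁ * ℓ := by nlinarith
    have h9 : C ≤ C * ℓ := le_mul_of_one_le_right (by linarith) hℓ
    have h10 : 0 ≤ (2 * C₁ + C * (1 + 2 * (C * C₁))) * Real.log (1 + l.length) := by positivity
    rw [Real.log_mul (by positivity) (by positivity)]
    nlinarith
  · have h3 : C * (C₁ * (ℓ + 1)) ≤ (2 * C₁ + C * (1 + 2 * (C * C₁)) + C + 1) * ℓ := by
      have h4 : C * (C₁ * (ℓ + 1)) ≤ 2 * (C * C₁) * ℓ := by nlinarith
      exact h4.trans (mul_le_mul_of_nonneg_right (by nlinarith) (by linarith))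
    exact mul_le_mul h3 (by linarith) hl0 (by positivity)
theorem nf_of_ln : ∃ C : ℝ, 1 ≤ C ∧ ∀ (g : M.G) (ℓ : ℝ), M.ln g ≤ ℓ →
    ∃ x ∈ M.K (fun _ => C * (ℓ + 1)), ∃ ζ ∈ M.Z (C * (ℓ + 1)), g = x * ζ := by
  exact M.len_nf_of_ln

end Vale.Agent.P188.Geo
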