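import Vale.Agent.P188.SC

/-! Group law on tame sets, subalgebras `u0`, `e`, the adjoint action, continuity.
Plan: `u0 = {x | co i x = 0 whenever wt i ≠ 0}`; `del` is the identity on `u0`; `M.conj` gives
`Ad`; `Ad_B`: exponential of the nilpotent derivation `B g` (truncated sums; `M.nil`), or use
`IsNilpotent.exp`. `e` is an ideal: `B (X j)` with `wt j = 0` is a derivation mapping each letter
of nonzero weight to a combination of such letters (`B_wt`). -/

namespace Vale.Agent.P188.Geo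
open scoped InnerProductSpace Pointwise
variable (M : Geo)

theorem lie_exp {Y : Type} [AddCommGroup Y] [Module ℝ Y] (br : Y →ₗ[ℝ] Y →ₗ[ℝ] Y) (D : Y →ₗ[ℝ] Y)
    (hD : ∀ x y, D (br x y) = br x (D y) + br (D x) y) {c : ℕ} (hc : D ^ c = 0) (x y : Y) :
    (∑ j ∈ Finset.range c, ((j.factorial : ℝ)⁻¹) • D ^ j) (br x y) =
      br ((∑ j ∈ Finset.range c, ((j.factorial : ℝ)⁻¹) • D ^ j) x)
        ((∑ j ∈ Finset.range c, ((j.factorial : ℝ)⁻¹) • D ^ j) y) := by
  let _ : NonUnitalNonAssocRing Y :=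
    { (inferInstance : AddCommGroup Y) with
      mul := fun x y => br x y
      left_distrib := fun x y z => map_add (br x) y z
      right_distrib := fun x y z => LinearMap.map_add₂ br x y z
      zero_mul := fun x => LinearMap.map_zero₂ br x
      mul_zero := fun x => map_zero (br x) }
  let _ : Module ℚ Y := Module.compHom Y (algebraMap ℚ ℝ)
  have : SMulCommClass ℝ Y Y := ⟨fun t x y => (map_smul (br x) t y).symm⟩
  have : IsScalarTower ℝ Y Y := ⟨fun t x y => LinearMap.map_smul₂ br t x y⟩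
  have h := Module.End.exp_mul_of_derivation ℝ Y D hD ⟨c, hc⟩ x y
  have e : IsNilpotent.exp (A := Module.End ℝ Y) D =
      ∑ j ∈ Finset.range c, ((j.factorial : ℝ)⁻¹) • D ^ j := by
    rw [IsNilpotent.exp_eq_sum hc]
    refine Finset.sum_congr rfl fun j _ => LinearMap.ext fun z => ?_
    change algebraMap ℚ ℝ (j.factorial : ℚ)⁻¹ • (D ^ j) z = _
    simp
  rw [e] at h
  exact h

/-- the weight spaces -/
noncomputable def lieWs (μ : M.V) : Submodule ℝ M.G :=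
  ⨅ i : {i // M.wt i ≠ μ}, LinearMap.ker (M.co i)

theorem lie_mem_Ws {μ : M.V} {x : M.G} : x ∈ M.lieWs μ ↔ ∀ i, M.wt i ≠ μ → M.co i x = 0 := by
  simp [lieWs]

theorem lie_X_Ws (i : Fin M.d) : M.X i ∈ M.lieWs (M.wt i) :=
  M.lie_mem_Ws.2 fun j hj => by rw [co_X, if_neg fun e => hj (by rw [e])]

theorem lie_B_Ws {μ ν : M.V} {x y : M.G} (hx : x ∈ M.lieWs μ) (hy : y ∈ M.lieWs ν) :
    M.B x y ∈ M.lieWs (μ + ν) := by
  rw [lie_mem_Ws] at hx hy ⊢
  intro m hm
  rw [← M.sum_co x, ← M.sum_co y]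
  simp only [map_sum, map_smul, LinearMap.sum_apply, LinearMap.smul_apply, smul_eq_mul]
  refine Finset.sum_eq_zero fun j _ => ?_
  by_cases hj : M.wt j = ν
  swap
  · rw [hy j hj, zero_mul]
  refine mul_eq_zero_of_right _ (Finset.sum_eq_zero fun i _ => ?_)
  by_cases hi : M.wt i = μ
  · refine mul_eq_zero_of_right _ (by_contra fun h => hm ?_)
    rw [M.B_wt i j m h, hi, hj]
  · rw [hx i hi, zero_mul]

theorem lie_del_Ws (v : M.V) {μ : M.V} {x : M.G} (hx : x ∈ M.lieWs μ) : M.del v x ∈ M.lieWs μ :=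
  M.lie_mem_Ws.2 fun i hi => by rw [co_del, M.lie_mem_Ws.1 hx i hi, mul_zero]

theorem lie_mem_of_co (W : Submodule ℝ M.G) {x : M.G} (h : ∀ i, M.co i x = 0 ∨ M.X i ∈ W) :
    x ∈ W := by
  rw [← M.sum_co x]
  refine W.sum_mem fun i _ => Or.elim (h i) (fun e => ?_) (W.smul_mem _)
  rw [e, zero_smul]
  exact W.zero_mem

theorem mem_u0 {x : M.G} : x ∈ M.u0 ↔ ∀ i, M.wt i ≠ 0 → M.co i x = 0 := by
  refine ⟨fun h => M.lie_mem_Ws.1 (Submodule.span_le.2 ?_ h), fun h => M.lie_mem_of_co _ fun i =>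
    (em (M.wt i = 0)).symm.imp (h i) fun e => Submodule.subset_span ⟨i, e, rfl⟩⟩
  rintro _ ⟨i, hi, rfl⟩
  exact hi ▸ M.lie_X_Ws i
theorem lie_u0 {x : M.G} : x ∈ M.u0 ↔ x ∈ M.lieWs 0 := M.mem_u0.trans M.lie_mem_Ws.symm
theorem del_u0 (v : M.V) {x : M.G} (hx : x ∈ M.u0) : M.del v x = x := by
  refine M.ext_co fun i => ?_
  rw [co_del]
  by_cases h : M.wt i = 0
  · rw [h, inner_zero_left, Real.exp_zero, one_mul]
  · rw [M.mem_u0.1 hx i h, mul_zero]
theorem B_u0 {x y : M.G} (hx : x ∈ M.u0) (hy : y ∈ M.u0) : M.B x y ∈ M.u0 :=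
  M.lie_u0.2 (add_zero (0 : M.V) ▸ M.lie_B_Ws (M.lie_u0.1 hx) (M.lie_u0.1 hy))
theorem X_mem_e {i} (hi : M.wt i ≠ 0) : M.X i ∈ M.e :=
  Submodule.subset_span (Mon.base ⟨i, hi, rfl⟩)
theorem lie_mem_e {x : M.G} (h : ∀ i, M.wt i = 0 → M.co i x = 0) : x ∈ M.e :=
  M.lie_mem_of_co _ fun i => (em (M.wt i = 0)).imp (h i) M.X_mem_e
theorem lie_ee {x y : M.G} (hx : x ∈ M.e) (hy : y ∈ M.e) : M.B x y ∈ M.e := by
  have h1 : ∀ x, M.Mon {y | ∃ i, M.wt i ≠ 0 ∧ y = M.X i} x → M.e ≤ M.e.comap (M.B x) :=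
    fun x hx => Submodule.span_le.2 fun y hy => Submodule.subset_span (Mon.lie hx hy)
  exact (Submodule.span_le.2 fun x hx => h1 x hx hy : M.e ≤ M.e.comap (M.B.flip y)) hx
theorem B_e (x : M.G) {y : M.G} (hy : y ∈ M.e) : M.B x y ∈ M.e := by
  refine M.lie_mem_of_co (M.e.comap (M.B.flip y)) (x := x) fun i => Or.inr ?_
  by_cases hi : M.wt i = 0
  swap
  · exact M.lie_ee (M.X_mem_e hi) hy
  refine (Submodule.span_le.2 fun z hz => ?_ : M.e ≤ M.e.comap (M.B (M.X i))) hy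
  change M.B (M.X i) z ∈ M.e
  induction hz with
  | base h =>
    obtain ⟨j, hj, rfl⟩ := h
    refine M.lie_mem_e fun m hm => M.lie_mem_Ws.1 (M.lie_B_Ws (M.lie_X_Ws i) (M.lie_X_Ws j)) m ?_
    rw [hm, hi, zero_add]
    exact hj.symm
  | neg _ ih => rw [map_neg]; exact M.e.neg_mem ih
  | lie h1 h2 ih1 ih2 =>
    rw [B_jacobi]
    exact M.e.add_mem (M.lie_ee ih1 (Submodule.subset_span h2))
      (M.lie_ee (Submodule.subset_span h1) ih2)
theorem lie_B_e {x : M.G} (hx : x ∈ M.e) (y : M.G) : M.B x y ∈ M.e := by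
  rw [B_anti]
  exact M.e.neg_mem (M.B_e y hx)
theorem A_e {x : M.G} (hx : x ∈ M.e) : M.A x = 0 := by
  refine (Submodule.span_le.2 fun z hz => ?_ : M.e ≤ LinearMap.ker M.A) hx
  change M.A z = 0
  induction hz with
  | base h =>
    obtain ⟨j, hj, rfl⟩ := h
    exact M.A_X j hj
  | neg _ ih => rw [map_neg, ih, neg_zero]
  | lie => exact M.A_B _ _
theorem lie_del_sub (v : M.V) (x : M.G) : M.del v x - x ∈ M.e :=
  M.lie_mem_e fun i hi => by
    rw [map_sub, co_del, hi, inner_zero_left, Real.exp_zero, one_mul, sub_self]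
theorem del_e (v : M.V) {x : M.G} (hx : x ∈ M.e) : M.del v x ∈ M.e := by
  simpa using M.e.add_mem (M.lie_del_sub v x) hx
theorem e_orth_le : M.eᗮ ≤ M.u0 := fun x hx => M.mem_u0.2 fun i hi => by
  have h := Submodule.inner_right_of_mem_orthogonal (M.X_mem_e hi) hx
  have e : ⟪M.X i, x⟫_ℝ = (starRingEnd ℝ) 1 * M.co i x :=
    EuclideanSpace.inner_single_left (𝕜 := ℝ) i 1 x
  rwa [e, map_one, one_mul] at h
theorem lie_st (x y : M.G) : M.st x y = M.st x y - x - y + x + y := by abel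
theorem st_mem (W : Submodule ℝ M.G) (hW : ∀ x ∈ W, ∀ y ∈ W, M.B x y ∈ W) {x y : M.G}
    (hx : x ∈ W) (hy : y ∈ W) : M.st x y ∈ W := by
  rw [lie_st]
  exact W.add_mem (W.add_mem (M.bchG.mem W W hW hW hx hy) hx) hy

theorem lie_del {x y : M.G} (h : M.A x = 0 ∨ y ∈ M.u0) : M.del (M.A x) y = y :=
  Or.elim h (fun e => by rw [e, del_zero]) (M.del_u0 _)
theorem mul_eq_st {x y : M.G} (h : M.A x = 0 ∨ y ∈ M.u0) : x * y = M.st x y := by
  rw [mul_def, M.lie_del h]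
theorem inv_eq_neg {x : M.G} (h : M.A x = 0 ∨ x ∈ M.u0) : x⁻¹ = -x := by
  rw [inv_def, ← map_neg M.A, M.lie_del (h.imp_left fun e => by rw [map_neg, e, neg_zero])]
theorem smul_mul_smul {x : M.G} (h : M.A x = 0 ∨ x ∈ M.u0) (s t : ℝ) :
    (s • x) * (t • x) = (s + t) • x := by
  rw [M.mul_eq_st (h.imp (fun e => by rw [map_smul, e, smul_zero]) (M.u0.smul_mem t)), st_smul]
theorem pow_eq_smul {x : M.G} (h : M.A x = 0 ∨ x ∈ M.u0) (n : ℕ) : x ^ n = (n : ℝ) • x := by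
  induction n with
  | zero => rw [pow_zero, Nat.cast_zero, zero_smul, one_def]
  | succ n ih => rw [pow_succ, ih, Nat.cast_succ, ← M.smul_mul_smul h, one_smul]
theorem mul_mem_e {x y : M.G} (hx : x ∈ M.e) (hy : y ∈ M.e) : x * y ∈ M.e :=
  M.st_mem _ (fun a _ _ hb => M.B_e a hb) hx (M.del_e _ hy)
theorem inv_mem_e {x : M.G} (hx : x ∈ M.e) : x⁻¹ ∈ M.e := M.e.neg_mem (M.del_e _ hx)
theorem mul_mem_u0 {x y : M.G} (hx : x ∈ M.u0) (hy : y ∈ M.u0) : x * y ∈ M.u0 := by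
  rw [M.mul_eq_st (Or.inr hy)]
  exact M.st_mem _ (fun _ ha _ hb => M.B_u0 ha hb) hx hy
theorem inv_mem_u0 {x : M.G} (hx : x ∈ M.u0) : x⁻¹ ∈ M.u0 := by
  rw [M.inv_eq_neg (Or.inr hx)]
  exact M.u0.neg_mem hx
theorem lie_sub_proj (W : Submodule ℝ M.G) (g : M.G) : g - Wᗮ.starProjection g ∈ W := by
  simpa only [Submodule.orthogonal_orthogonal] using Wᗮ.sub_starProjection_mem_orthogonal g
theorem lie_key (q : M.G) : ∀ a ∈ (ℝ ∙ q) ⊔ M.e, ∀ b ∈ (ℝ ∙ q) ⊔ M.e, M.B a b ∈ M.e := by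
  intro a ha b hb
  obtain ⟨a', ha', u, hu, h1⟩ := Submodule.mem_sup.1 ha
  obtain ⟨b', hb', w, hw, h2⟩ := Submodule.mem_sup.1 hb
  obtain ⟨s, h3⟩ := Submodule.mem_span_singleton.1 ha'
  obtain ⟨t, h4⟩ := Submodule.mem_span_singleton.1 hb'
  have e : M.B (s • q + u) (t • q + w) = M.B u (t • q) + M.B (s • q + u) w := by
    simp only [map_add, map_smul, LinearMap.add_apply, LinearMap.smul_apply, B_self, smul_zero,
      zero_add]
  rw [← h1, ← h2, ← h3, ← h4, e]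
  exact M.e.add_mem (M.lie_B_e hu _) (M.B_e _ hw)
/-- Normal form: `g = (g * q⁻¹) * q` with `q` the projection to the complement of `e`. -/
theorem mul_proj_inv_mem_e (g : M.G) : g * (M.eᗮ.starProjection g)⁻¹ ∈ M.e := by
  have h1 := M.e_orth_le (M.eᗮ.starProjection_apply_mem g)
  have h2 := M.lie_sub_proj M.e g
  generalize M.eᗮ.starProjection g = q at h1 h2
  have key := M.lie_key q
  have hq : q ∈ (ℝ ∙ q) ⊔ M.e := Submodule.mem_sup_left (Submodule.mem_span_singleton_self q)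
  have hg : g ∈ (ℝ ∙ q) ⊔ M.e := by
    simpa using Submodule.add_mem _ hq (Submodule.mem_sup_right h2)
  rw [M.inv_eq_neg (Or.inr h1), M.mul_eq_st (Or.inr (M.u0.neg_mem h1)), lie_st, add_assoc,
    ← sub_eq_add_neg g]
  exact M.e.add_mem (M.bchG.mem _ _ (fun a ha b hb => Submodule.mem_sup_right (key a ha b hb)) key
    hg (Submodule.neg_mem _ hq)) h2

theorem continuous_st : Continuous (fun p : M.G × M.G => M.st p.1 p.2) :=
  ((M.bchG.liePoly.contDiff.continuous.add continuous_fst).add continuous_snd).congr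
    fun p => (M.lie_st p.1 p.2).symm
theorem continuous_del : Continuous (fun p : M.V × M.G => M.del p.1 p.2) := by
  simp only [del, LinearMap.sum_apply, LinearMap.smulRight_apply]
  refine continuous_finsetSum _ fun i _ => Continuous.smul
    ((M.co i).continuous_of_finiteDimensional.comp continuous_snd) (by fun_prop)
theorem lie_cA : Continuous M.A := M.A.continuous_of_finiteDimensional
instance : IsTopologicalGroup M.G where
  continuous_mul := M.continuous_st.comp (continuous_fst.prodMk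
    (M.continuous_del.comp ((M.lie_cA.comp continuous_fst).prodMk continuous_snd)))
  continuous_inv := (M.continuous_del.comp (M.lie_cA.neg.prodMk continuous_id)).neg

theorem lie_Ad (g x : M.G) : M.Ad g x = M.st (M.st g (M.del (M.A g) x)) (-g) := by
  rw [Ad, LinearMap.comp_apply, LinearMap.sum_apply]
  exact (M.conj g _).symm
theorem lie_neg_st (g h : M.G) : -M.st g h = M.st (-h) (-g) := by
  have h1 : M.st (M.st g h) (M.st (-h) (-g)) = 0 := by
    rw [st_assoc, ← M.st_assoc h, st_neg, zero_st, st_neg]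
  rw [← M.zero_st (M.st (-h) (-g)), ← M.neg_st (M.st g h), st_assoc, h1, st_zero]
theorem lie_Ad_mem (W : Submodule ℝ M.G) {g : M.G} (hW : ∀ y ∈ W, M.B g y ∈ W) {x : M.G}
    (hx : M.del (M.A g) x ∈ W) : M.Ad g x ∈ W := by
  rw [Ad, LinearMap.comp_apply, LinearMap.sum_apply]
  exact W.sum_mem fun j _ => W.smul_mem _ (Module.End.pow_apply_mem_of_forall_mem j hW _ hx)

theorem conj_eq {g x : M.G} (h : M.A x = 0 ∨ g ∈ M.u0) : g * x * g⁻¹ = M.Ad g x := by
  rw [lie_Ad, M.mul_def (g * x), inv_def, map_neg, ← del_add, A_mul, add_neg_cancel_comm,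
    M.lie_del h, mul_def]
theorem Ad_one (x : M.G) : M.Ad 1 x = x := by
  rw [lie_Ad, A_one, del_zero, one_def, zero_st, neg_zero, st_zero]
theorem Ad_mul (g g' x : M.G) : M.Ad (g * g') x = M.Ad g (M.Ad g' x) := by
  simp only [lie_Ad, A_mul]
  rw [mul_def, lie_neg_st, del_st, del_st, del_add, map_neg]
  simp only [st_assoc]
theorem Ad_B (g x y : M.G) : M.Ad g (M.B x y) = M.B (M.Ad g x) (M.Ad g y) := by
  have h1 : ∀ (n : ℕ) (z : M.G),
      (M.B g ^ n) z = (List.replicate n g).foldr (fun x z => M.B x z) z := by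
    intro n z
    induction n with
    | zero => rfl
    | succ n ih => rw [pow_succ', Module.End.mul_apply, ih, List.replicate_succ, List.foldr_cons]
  simp only [Ad, LinearMap.comp_apply, del_B]
  exact lie_exp M.B (M.B g) (fun a b => (M.B_jacobi g a b).trans (add_comm _ _))
    (LinearMap.ext fun z => (h1 _ z).trans (M.nil _ (List.length_replicate).ge z)) _ _
theorem A_Ad (g x : M.G) : M.A (M.Ad g x) = M.A x := by
  rw [lie_Ad, A_st, A_st, A_del, map_neg, add_neg_cancel_comm]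
theorem Ad_mem_e (g : M.G) {x : M.G} (hx : x ∈ M.e) : M.Ad g x ∈ M.e :=
  M.lie_Ad_mem _ (fun _ hy => M.B_e g hy) (M.del_e _ hx)
theorem Ad_mem_u0 {g x : M.G} (hg : g ∈ M.u0) (hx : x ∈ M.u0) : M.Ad g x ∈ M.u0 :=
  M.lie_Ad_mem _ (fun _ hy => M.B_u0 hg hy) ((M.del_u0 _ hx).symm ▸ hx)
theorem Ad_mem_of_B (W : Submodule ℝ M.G) {g : M.G} (hg : M.A g = 0)
    (hW : ∀ y ∈ W, M.B g y ∈ W) {x : M.G} (hx : x ∈ W) : M.Ad g x ∈ W :=
  M.lie_Ad_mem W hW (by rwa [hg, del_zero])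
theorem co_Ad_X {g : M.G} (hg : g ∈ M.u0) {i j} (h : M.wt j ≠ M.wt i) :
    M.co j (M.Ad g (M.X i)) = 0 :=
  M.lie_mem_Ws.1 (M.lie_Ad_mem _ (fun _ hy => zero_add (M.wt i) ▸ M.lie_B_Ws (M.lie_u0.1 hg) hy)
    (M.lie_del_Ws _ (M.lie_X_Ws i))) j h
theorem continuous_Ad : Continuous (fun p : M.G × M.G => M.Ad p.1 p.2) :=
  (M.continuous_st.comp ((M.continuous_st.comp (continuous_fst.prodMk (M.continuous_del.comp
    ((M.lie_cA.comp continuous_fst).prodMk continuous_snd)))).prodMk continuous_fst.neg)).congr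
      fun p => (M.lie_Ad p.1 p.2).symm

theorem exists_sec : ∃ ι : M.V →ₗ[ℝ] M.G, (∀ v, ι v ∈ M.u0) ∧ ∀ v, M.A (ι v) = v := by
  obtain ⟨σ, hσ⟩ := M.A.exists_rightInverse_of_surjective (LinearMap.range_eq_top.2 M.a_surj)
  refine ⟨M.eᗮ.starProjection.toLinearMap ∘ₗ σ,
    fun v => M.e_orth_le (M.eᗮ.starProjection_apply_mem _), fun v => ?_⟩
  have h := M.A_e (M.lie_sub_proj M.e (σ v))
  rw [map_sub, sub_eq_zero] at h
  exact h.symm.trans (LinearMap.congr_fun hσ v)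

theorem lie_ah {x : M.G} (hx : x ∈ M.e ⊔ Submodule.span ℝ {z | ∃ x y, z = M.B x y}) :
    M.ah x = 0 :=
  (Submodule.starProjection_apply_eq_zero_iff _).2 (Submodule.le_orthogonal_orthogonal _ hx)
theorem ah_mem_u0 (x : M.G) : M.ah x ∈ M.u0 :=
  M.e_orth_le (Submodule.orthogonal_le le_sup_left (M.ab.starProjection_apply_mem x))
theorem A_ah (x : M.G) : M.A (M.ah x) = M.A x := by
  have h : M.e ⊔ Submodule.span ℝ {z | ∃ x y, z = M.B x y} ≤ LinearMap.ker M.A :=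
    sup_le (fun _ hy => M.A_e hy) (Submodule.span_le.2 (by rintro _ ⟨a, b, rfl⟩; exact M.A_B a b))
  have h1 := h (M.lie_sub_proj _ x)
  rw [LinearMap.mem_ker, map_sub, sub_eq_zero] at h1
  exact h1.symm
theorem ah_e {x : M.G} (hx : x ∈ M.e) : M.ah x = 0 := M.lie_ah (Submodule.mem_sup_left hx)
theorem ah_B (x y : M.G) : M.ah (M.B x y) = 0 :=
  M.lie_ah (Submodule.mem_sup_right (Submodule.subset_span ⟨x, y, rfl⟩))
theorem ah_ah (x : M.G) : M.ah (M.ah x) = M.ah x :=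
  Submodule.starProjection_eq_self_iff.2 (M.ab.starProjection_apply_mem x)
theorem lie_map_st {Y : Type} [AddCommGroup Y] [Module ℝ Y] (p : M.G →ₗ[ℝ] Y)
    (hp : ∀ x y, p (M.B x y) = 0) (x y : M.G) : p (M.st x y) = p x + p y := by
  have h : p (M.st x y - x - y) = 0 := M.bchG.mem ⊤ (LinearMap.ker p) (fun _ _ _ _ => trivial)
    (fun a _ b _ => hp a b) (x := x) (y := y) trivial trivial
  rw [lie_st, map_add, map_add, h, zero_add]
theorem ah_mul (x y : M.G) : M.ah (x * y) = M.ah x + M.ah y := by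
  have h := M.ah_e (M.lie_del_sub (M.A x) y)
  rw [map_sub, sub_eq_zero] at h
  rw [← h]
  exact M.lie_map_st M.ah.toLinearMap M.ah_B _ _

theorem GenF.del {μ p} (hp : M.GenF μ p) (v : M.V) (x : M.G) :
    p (M.del v x) = Real.exp ⟪μ, v⟫_ℝ * p x := by
  rw [← M.sum_co x]
  simp only [map_sum, map_smul, del_X, smul_eq_mul, Finset.mul_sum]
  refine Finset.sum_congr rfl fun i _ => ?_
  by_cases h : M.wt i = μ
  · rw [h, mul_left_comm]
  · simp only [hp.2.2.1 i h, mul_zero]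
theorem GenF.mul {μ p} (hp : M.GenF μ p) (x y : M.G) :
    p (x * y) = p x + Real.exp ⟪μ, M.A x⟫_ℝ * p y := by
  rw [mul_def, M.lie_map_st p hp.2.1, GenF.del M hp]
theorem GenF.u0 {μ p} (hp : M.GenF μ p) {x : M.G} (hx : x ∈ M.u0) : p x = 0 :=
  M.lie_mem_of_co (LinearMap.ker p) fun i => (em (M.wt i = μ)).imp
    (fun e : M.wt i = μ => M.mem_u0.1 hx i (e.trans_ne hp.1)) (hp.2.2.1 i)
theorem GenF.exists_X {μ p} (hp : M.GenF μ p) : ∃ i, M.wt i = μ ∧ p (M.X i) ≠ 0 :=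
  hp.2.2.2.imp fun i hi => ⟨by_contra fun h => hi (hp.2.2.1 i h), hi⟩

end Vale.Agent.P188.Geo
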