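import Vale.Agent.P188.Defs

/-! Polycyclic basics, in inductive form. -/

namespace Vale.Agent.P188

/-- inductive form of polycyclicity, for subgroups -/
inductive PC {G : Type*} [Group G] : Subgroup G → Prop
  | bot : PC ⊥
  | step {A B : Subgroup G} (t : G) : PC A → A ≤ B → t ∈ B →
      (∀ b ∈ B, ∀ a ∈ A, b * a * b⁻¹ ∈ A) → (∀ b ∈ B, ∃ n : ℤ, b * t ^ n ∈ A) → PC B

variable {G G' : Type*} [Group G] [Group G'] {A B : Subgroup G}

theorem PC.map (f : G →* G') (h : PC A) : PC (A.map f) := by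
  induction h with
  | bot => exact (Subgroup.map_bot f).symm ▸ PC.bot
  | step t _ h1 h2 h3 h4 ih =>
    refine ih.step (f t) (Subgroup.map_mono h1) ⟨t, h2, rfl⟩ ?_ ?_
    · rintro _ ⟨b, hb, rfl⟩ _ ⟨a, ha, rfl⟩
      exact ⟨_, h3 b hb a ha, by simp⟩
    · rintro _ ⟨b, hb, rfl⟩
      exact (h4 b hb).imp fun n hn => ⟨_, hn, by simp⟩

theorem PC.comap (f : G →* G') (hk : PC f.ker) {B : Subgroup G'} (h : PC B) :
    PC (B.comap f) := by
  induction h with
  | bot => exact hk
  | @step A B t _ h1 h2 h3 h4 ih =>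
    let P : Subgroup (G × Multiplicative ℤ) :=
      { carrier := {p | f p.1 ∈ B ∧ f p.1 * t ^ p.2.toAdd ∈ A}
        one_mem' := ⟨by simp, by simp⟩
        mul_mem' := fun {p q} hp hq => ⟨by simpa using B.mul_mem hp.1 hq.1, by
          have h5 := A.mul_mem (h3 _ hp.1 _ hq.2) hp.2
          rwa [show f p.1 * (f q.1 * t ^ q.2.toAdd) * (f p.1)⁻¹ * (f p.1 * t ^ p.2.toAdd) =
            f (p * q).1 * t ^ (p * q).2.toAdd by
              simp only [Prod.fst_mul, Prod.snd_mul, map_mul, toAdd_mul]; group] at h5⟩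
        inv_mem' := fun {p} hp => ⟨by simpa using hp.1, by
          have h5 := h3 _ (B.inv_mem hp.1) _ (A.inv_mem hp.2)
          rwa [show (f p.1)⁻¹ * (f p.1 * t ^ p.2.toAdd)⁻¹ * (f p.1)⁻¹⁻¹ =
            f p⁻¹.1 * t ^ p⁻¹.2.toAdd by
              simp only [Prod.fst_inv, Prod.snd_inv, map_inv, toAdd_inv]; group] at h5⟩ }
    obtain ⟨⟨_, p, hp, rfl⟩, hg⟩ := IsCyclic.exists_generator (α := P.map (MonoidHom.snd _ _))
    refine ih.step p.1 (Subgroup.comap_mono h1) hp.1 (fun b hb a ha => ?_) fun b hb => ?_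
    · simpa using h3 _ hb _ ha
    · obtain ⟨n, hn⟩ := h4 _ hb
      have h5 : (b, Multiplicative.ofAdd n) ∈ P := ⟨hb, hn⟩
      obtain ⟨k, hk⟩ := hg ⟨_, _, h5, rfl⟩
      have h6 : p.2 ^ k = Multiplicative.ofAdd n := congrArg Subtype.val hk
      have h7 := (P.mul_mem h5 (P.zpow_mem hp (-k))).2
      refine ⟨-k, ?_⟩
      simpa [h6] using h7

theorem PC.mono (h : PC B) (hA : A ≤ B) : PC A := by
  have h1 := (PC.comap A.subtype (A.ker_subtype.symm ▸ PC.bot) h).map A.subtype
  rwa [Subgroup.comap_subtype, Subgroup.subgroupOf_map_subtype, inf_eq_right.2 hA] at h1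

theorem PC.fg (h : PC A) : A.FG := by
  induction h with
  | bot => exact ⟨∅, by simp⟩
  | @step A B t _ h1 h2 _ h4 ih =>
    classical
    obtain ⟨T, rfl⟩ := ih
    refine ⟨insert t T, le_antisymm ?_ fun b hb => ?_⟩
    · rw [Subgroup.closure_le, Finset.coe_insert]
      exact Set.insert_subset h2 (Subgroup.subset_closure.trans h1)
    · obtain ⟨n, hn⟩ := h4 b hb
      have h5 := Subgroup.mul_mem _ (Subgroup.closure_mono (Finset.coe_subset.2
        (Finset.subset_insert t T)) hn) (Subgroup.zpow_mem _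
          (Subgroup.subset_closure (Finset.mem_insert_self t T)) (-n))
      simpa using h5

theorem PC.of_comm (hA : A.FG) (hc : ∀ a ∈ A, ∀ b ∈ A, a * b = b * a) : PC A := by
  classical
  obtain ⟨T, hT⟩ := hA
  suffices h : ∀ T : Finset G, (T : Set G) ⊆ A → PC (Subgroup.closure (T : Set G)) from
    hT ▸ h T (hT ▸ Subgroup.subset_closure)
  intro T
  induction T using Finset.induction_on with
  | empty => exact fun _ => by simpa using PC.bot
  | insert t T _ ih =>
    intro h
    have h1 := Finset.coe_subset.2 (Finset.subset_insert t T)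
    have h2 := (Subgroup.closure_le A).2 h
    have h3 : t ∈ A := h (Finset.mem_insert_self t T)
    refine (ih (h1.trans h)).step t (Subgroup.closure_mono h1)
      (Subgroup.subset_closure (Finset.mem_insert_self t T)) (fun b hb a ha => ?_) fun b hb => ?_
    · rwa [hc b (h2 hb) a (h2 (Subgroup.closure_mono h1 ha)), mul_inv_cancel_right]
    · induction hb using Subgroup.closure_induction with
      | mem x hx =>
        rcases Finset.mem_insert.1 hx with rfl | hx
        · exact ⟨-1, by simp⟩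
        · exact ⟨0, by simpa using Subgroup.subset_closure hx⟩
      | one => exact ⟨0, by simp⟩
      | mul x y _ hy h4 h5 =>
        obtain ⟨m, hm⟩ := h4
        obtain ⟨n, hn⟩ := h5
        refine ⟨m + n, ?_⟩
        have h6 := Subgroup.mul_mem _ hm hn
        rwa [mul_assoc, ← mul_assoc (t ^ m), hc _ (A.zpow_mem h3 m) y (h2 hy), mul_assoc,
          ← zpow_add, ← mul_assoc] at h6
      | inv x hx h4 =>
        obtain ⟨m, hm⟩ := h4
        refine ⟨-m, ?_⟩
        have h6 := Subgroup.inv_mem _ hm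
        rwa [hc x (h2 hx) _ (A.zpow_mem h3 m), mul_inv_rev, ← zpow_neg] at h6

/-- one step of a polycyclic series -/
def PStep (A B : Subgroup G) : Prop :=
  A ≤ B ∧ ∃ _ : (A.subgroupOf B).Normal, IsCyclic (B ⧸ A.subgroupOf B)

theorem poly_series (h : PC A) : ∃ (m : ℕ) (s : ℕ → Subgroup G), s 0 = ⊥ ∧ s m = A ∧
    ∀ i < m, PStep (s i) (s (i + 1)) := by
  induction h with
  | bot => exact ⟨0, fun _ => ⊥, rfl, rfl, fun _ h => absurd h (Nat.not_lt_zero _)⟩
  | @step A B t _ h1 h2 h3 h4 ih =>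
    obtain ⟨m, s, h0, hm, hs⟩ := ih
    refine ⟨m + 1, fun i => if i ≤ m then s i else B, by simp [h0], by simp, fun i hi => ?_⟩
    rcases (Nat.le_of_lt_succ hi).eq_or_lt with rfl | hi
    · simp only [le_refl, if_true, Nat.not_succ_le_self, if_false, hm]
      have hn : (A.subgroupOf B).Normal := ⟨fun a ha b => h3 b b.2 a ha⟩
      refine ⟨h1, hn, ⟨⟨QuotientGroup.mk ⟨t, h2⟩, fun q => ?_⟩⟩⟩
      obtain ⟨b, rfl⟩ := QuotientGroup.mk_surjective q
      obtain ⟨n, hb⟩ := h4 _ b⁻¹.2
      exact ⟨n, (QuotientGroup.mk_zpow _ _ n).symm.trans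
        (QuotientGroup.eq.2 (Subgroup.mem_subgroupOf.2 hb)).symm⟩
    · simp only [if_pos hi.le, if_pos (Nat.succ_le_of_lt hi)]
      exact hs i hi

theorem isPolycyclic_iff : IsPolycyclic G ↔ PC (⊤ : Subgroup G) := by
  constructor
  · rintro ⟨m, s, h0, hm, hs⟩
    suffices h : ∀ i ≤ m, PC (s i) from hm ▸ h m le_rfl
    intro i
    induction i with
    | zero => exact fun _ => h0 ▸ PC.bot
    | succ i ih =>
      intro hi
      obtain ⟨h1, h2, h3⟩ := hs i hi
      obtain ⟨q, hq⟩ := IsCyclic.exists_generator (α := s (i + 1) ⧸ (s i).subgroupOf (s (i + 1)))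
      obtain ⟨t, rfl⟩ := QuotientGroup.mk_surjective q
      refine (ih (Nat.le_of_succ_le hi)).step t h1 t.2 (fun b hb a ha => ?_) fun b hb => ?_
      · exact h2.conj_mem ⟨a, h1 ha⟩ ha ⟨b, hb⟩
      · obtain ⟨n, hn⟩ := hq (QuotientGroup.mk (⟨b, hb⟩ : s (i + 1))⁻¹)
        have h4 := QuotientGroup.eq.1 (hn.symm.trans (QuotientGroup.mk_zpow _ t n).symm)
        exact ⟨n, by simpa [Subgroup.mem_subgroupOf] using h4⟩
  · exact poly_series

theorem pc_top_iff (H : Subgroup G) : PC (⊤ : Subgroup H) ↔ PC H := by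
  refine ⟨fun h => ?_, fun h => ?_⟩
  · have h1 := h.map H.subtype
    rwa [← MonoidHom.range_eq_map, Subgroup.range_subtype] at h1
  · have h1 := PC.comap H.subtype (H.ker_subtype.symm ▸ PC.bot) h
    rwa [Subgroup.comap_subtype, Subgroup.subgroupOf_self] at h1

theorem isPolycyclic_coe_iff (H : Subgroup G) : IsPolycyclic H ↔ PC H :=
  isPolycyclic_iff.trans (pc_top_iff H)

theorem virtPolycyclic_iff : VirtPolycyclic G ↔ ∃ H : Subgroup G, H.FiniteIndex ∧ PC H := by
  simp only [VirtPolycyclic, isPolycyclic_coe_iff]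

/-- a finite-index subgroup of a finitely generated normal subgroup contains a finite-index
subgroup that is normal in the big group -/
theorem exists_normal_le (N : Subgroup G) [N.Normal] (hN : N.FG) (N0 : Subgroup N)
    [N0.FiniteIndex] :
    ∃ N1 : Subgroup G, N1.Normal ∧ N1 ≤ N0.map N.subtype ∧ (N1.subgroupOf N).FiniteIndex := by
  have : Group.FG N := (Group.fg_iff_subgroup_fg N).2 hN
  obtain ⟨T, hT⟩ := Group.FG.out (G := N)
  have : Finite (N →* Equiv.Perm (N ⧸ N0)) :=
    Finite.of_injective (fun f (x : T) => f x) fun f f' h =>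
      MonoidHom.eq_of_eqOn_dense hT fun x hx => congrFun h ⟨x, hx⟩
  refine ⟨(⨅ f : N →* Equiv.Perm (N ⧸ N0), f.ker).map N.subtype, ⟨?_⟩, Subgroup.map_mono
    ((iInf_le _ (MulAction.toPermHom N (N ⧸ N0))).trans
      (N0.normalCore_eq_ker ▸ N0.normalCore_le)), ?_⟩
  · rintro _ ⟨x, hx, rfl⟩ g
    exact ⟨MulAut.conjNormal g x, Subgroup.mem_iInf.2 fun f =>
      Subgroup.mem_iInf.1 hx (f.comp (MulAut.conjNormal (H := N) g).toMonoidHom), rfl⟩
  · rw [← Subgroup.comap_subtype, Subgroup.comap_map_eq_self_of_injective N.subtype_injective]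
    exact Subgroup.finiteIndex_iInf fun f => inferInstance

end Vale.Agent.P188
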