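import Vale.Agent.P188.Len
import Vale.Agent.P188.Haar

/-! Quasi-isometries of `G` and volume.
Plan: `exists_inv`: countable dense sequence `y j`, chosen preimages `x j`, `ψ y = x j` for the
first `j` with `(y j)⁻¹ * y` in the open unit ball (`Measurable.find`); `IsQI.inv`.
`vol_preimage_le`: a maximal `K (C + 3)`-separated subset `N` of `φ ⁻¹' A` (Zorn, or bound all
finite separated subsets): the sets `φ x * Q`, `x ∈ N`, are disjoint in `A * Q`, and balls around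
`N` cover.  `vol_transfer`: source set `x₁ * Y * (Q ∩ eᗮ)` has volume `mE Y * const`
(`fubini_G`); its image lies in `x₀ * (D * K small) * {q ∈ eᗮ | ‖q‖ ≤ poly ρ}` (`nf_of_ln`,
`conj_eq`, `Ad_Z_K`, `proj_Z`, `K_prod`); use `toMeasurable` for `D * K small`. -/

namespace Vale.Agent.P188.Geo
open scoped InnerProductSpace Pointwise
open MeasureTheory
variable (M : Geo)

theorem MQI.comp_mul_left {K C φ} (h : M.MQI K C φ) (g : M.G) :
    M.MQI K C (fun x => φ (g * x)) :=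
  ⟨h.1.comp (continuous_const_mul g).measurable, h.2.comp_mul_left g⟩
theorem IsQI.ln_le {K C φ} (h : IsQI M.Q M.Q K C φ) (x b : M.G) :
    M.ln ((φ x)⁻¹ * φ (x * b)) ≤ K * M.ln b + C := by
  have h1 := (h.2.2.1 x (x * b)).2
  rwa [wdist_eq, wdist_mul_right] at h1

theorem qv_ah_sub (x y : M.G) : M.ah y - M.ah x = M.ah (x⁻¹ * y) := by
  have h := M.ah_mul x (x⁻¹ * y)
  rw [mul_inv_cancel_left] at h
  rw [h]; abel

theorem A_lip (K C : ℝ) : ∃ C' : ℝ, 1 ≤ C' ∧ ∀ φ, IsQI M.Q M.Q K C φ → ∀ x b,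
    ‖M.A (φ (x * b)) - M.A (φ x)‖ ≤ C' * (M.ln b + 1) ∧
    ‖M.ah (φ (x * b)) - M.ah (φ x)‖ ≤ C' * (M.ln b + 1) := by
  obtain ⟨D, hD, h⟩ := M.norm_ah_le
  refine ⟨D * (|K| + |C|) + 1, by have : 0 ≤ D * (|K| + |C|) := by positivity
                                  linarith, fun φ hφ x b => ?_⟩
  have h1 := IsQI.ln_le M hφ x b
  have hb := M.ln_nonneg b
  have hK := hφ.1
  have hC := hφ.2.1
  have h2 : D * M.ln ((φ x)⁻¹ * φ (x * b)) ≤ (D * (|K| + |C|) + 1) * (M.ln b + 1) := by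
    rw [abs_of_nonneg hC, abs_of_nonneg (by linarith : 0 ≤ K)]
    have h3 : M.ln ((φ x)⁻¹ * φ (x * b)) ≤ (K + C) * (M.ln b + 1) := by nlinarith
    have h4 := mul_le_mul_of_nonneg_left h3 (by linarith : 0 ≤ D)
    nlinarith
  have hA : M.A (φ (x * b)) - M.A (φ x) = M.A ((φ x)⁻¹ * φ (x * b)) := by
    rw [A_mul, A_inv]; abel
  rw [hA, qv_ah_sub]
  exact ⟨(h _).2.trans h2, (h _).1.trans h2⟩

theorem exists_inv (K C : ℝ) : ∃ C' : ℝ, ∀ φ, IsQI M.Q M.Q K C φ → ∃ ψ, M.MQI K C' ψ ∧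
    (∀ y, M.ln (y⁻¹ * φ (ψ y)) ≤ C') ∧ ∀ x, M.ln (x⁻¹ * ψ (φ x)) ≤ C' := by
  classical
  refine ⟨K * (C + 2 * (C + 1)) + (C + 1), fun φ hφ => ?_⟩
  have hK := hφ.1
  have hC := hφ.2.1
  choose x hx using hφ.2.2.2
  let y := TopologicalSpace.denseSeq M.G
  have hex : ∀ z : M.G, ∃ j, ‖(y j)⁻¹ * z‖ < 1 := fun z => by
    have ho : IsOpen {w : M.G | ‖w⁻¹ * z‖ < 1} :=
      isOpen_lt (continuous_norm.comp (continuous_inv.mul continuous_const)) continuous_const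
    obtain ⟨j, hj⟩ := (TopologicalSpace.denseRange_denseSeq M.G).exists_mem_open ho
      ⟨z, by simp [one_def]⟩
    exact ⟨j, hj⟩
  have hm : Measurable fun z => x (y (Nat.find (hex z))) :=
    Measurable.find (f := fun j (_ : M.G) => x (y j)) (fun _ => measurable_const)
      (fun j => (isOpen_lt (continuous_norm.comp (continuous_const_mul (y j)⁻¹))
        continuous_const).measurableSet) hex
  have h1 : ∀ z, wdist M.Q z (φ (x (y (Nat.find (hex z))))) ≤ C + 1 := fun z => by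
    have h2 := wdist_triangle M.closure_Q z (y (Nat.find (hex z))) (φ (x (y (Nat.find (hex z)))))
    have h3 : wdist M.Q z (y (Nat.find (hex z))) ≤ 1 := by
      rw [wdist_comm, wdist_eq]
      exact M.ln_le_one (Nat.find_spec (hex z)).le
    linarith [hx (y (Nat.find (hex z)))]
  obtain ⟨h2, h3⟩ := hφ.inv M.closure_Q M.closure_Q (by linarith : 0 ≤ C + 1) h1
  have h4 : 0 ≤ K * (C + 2 * (C + 1)) := by positivity
  refine ⟨_, ⟨hm, h2.mono le_rfl (by linarith)⟩, fun z => ?_, fun z => ?_⟩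
  · rw [← wdist_eq]; linarith [h1 z]
  · rw [← wdist_eq]; nlinarith [h3 z]

theorem qv_Q_pos : volume M.Q ≠ 0 :=
  (Metric.measure_closedBall_pos volume (0 : M.G) one_pos).ne'

theorem qv_Q_cpt : IsCompact M.Q := isCompact_closedBall _ _

theorem qv_close {K C φ} (h : IsQI M.Q M.Q K C φ) {x x' q q' : M.G} (hq : q ∈ M.Q) (hq' : q' ∈ M.Q)
    (he : φ x * q = φ x' * q') : M.ln (x⁻¹ * x') ≤ K * (C + 2) := by
  have h1 := (h.2.2.1 x x').1
  have h2 : (φ x)⁻¹ * φ x' = q * q'⁻¹ := by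
    rw [inv_mul_eq_iff_eq_mul, ← mul_assoc, he, mul_inv_cancel_right]
  have h3 := M.ln_mul q q'⁻¹
  rw [wdist_eq, wdist_eq, h2] at h1
  rw [ln_inv] at h3
  have h4 := M.ln_le_one (mem_closedBall_zero_iff.1 hq)
  have h5 := M.ln_le_one (mem_closedBall_zero_iff.1 hq')
  have hK : 0 < K := by linarith [h.1]
  have h6 : K⁻¹ * M.ln (x⁻¹ * x') ≤ C + 2 := by linarith
  rwa [inv_mul_le_iff₀ hK] at h6

theorem qv_ball (R : ℝ) (x : M.G) :
    volume {z : M.G | M.ln (x⁻¹ * z) ≤ R} = volume {z : M.G | M.ln z ≤ R} :=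
  measure_preimage_mul volume x⁻¹ {z : M.G | M.ln z ≤ R}

theorem vol_preimage_le (K C : ℝ) : ∃ C' : ℝ, 1 ≤ C' ∧ ∀ φ, IsQI M.Q M.Q K C φ → ∀ S : Set M.G,
    volume (φ ⁻¹' S) ≤ ENNReal.ofReal C' * volume (S * M.Q) := by
  classical
  set a := volume {z : M.G | M.ln z ≤ K * (C + 2)} with ha
  have ha' : a ≠ ⊤ := (M.isCompact_ball _).measure_lt_top.ne
  have hb0 := M.qv_Q_pos
  have hb1 : volume M.Q ≠ ⊤ := M.qv_Q_cpt.measure_lt_top.ne
  refine ⟨max 1 (a / volume M.Q).toReal, le_max_left _ _, fun φ hφ S => ?_⟩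
  have hab : a ≤ ENNReal.ofReal (max 1 (a / volume M.Q).toReal) * volume M.Q := by
    refine le_trans ?_ (mul_le_mul_left (ENNReal.ofReal_le_ofReal (le_max_right _ _)) _)
    rw [ENNReal.ofReal_toReal (ENNReal.div_lt_top ha' hb0).ne, ENNReal.div_mul_cancel hb0 hb1]
  by_cases htop : volume (S * M.Q) = ⊤
  · rw [htop, ENNReal.mul_top (by simp)]; exact le_top
  let P : Finset M.G → Prop := fun N => (∀ x ∈ N, φ x ∈ S) ∧
    ∀ x ∈ N, ∀ x' ∈ N, x ≠ x' → K * (C + 2) < M.ln (x⁻¹ * x')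
  have hN : ∀ N, P N → N.card * volume M.Q ≤ volume (S * M.Q) := fun N hN => by
    have h1 : volume (⋃ x ∈ N, (fun z => (φ x)⁻¹ * z) ⁻¹' M.Q) =
        ∑ x ∈ N, volume ((fun z => (φ x)⁻¹ * z) ⁻¹' M.Q) := by
      refine measure_biUnion_finset (fun x hx x' hx' hne => ?_) fun x _ =>
        (continuous_const_mul _).measurable M.qv_Q_cpt.measurableSet
      refine Set.disjoint_left.2 fun z h1 h2 => ?_
      exact (hN.2 x hx x' hx' hne).not_ge (M.qv_close hφ h1 h2 (by simp))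
    simp only [measure_preimage_mul, Finset.sum_const, nsmul_eq_mul] at h1
    rw [← h1]
    refine measure_mono (Set.iUnion₂_subset fun x hx z hz => ⟨φ x, hN.1 x hx, _, hz, by simp⟩)
  have hbdd : BddAbove {n | ∃ N, P N ∧ N.card = n} := by
    obtain ⟨n, hn⟩ := ENNReal.exists_nat_gt (ENNReal.div_lt_top htop hb0).ne
    refine ⟨n, ?_⟩
    rintro _ ⟨N, h, rfl⟩
    have h1 := (ENNReal.le_div_iff_mul_le (Or.inl hb0) (Or.inl hb1)).2 (hN N h)
    exact_mod_cast (h1.trans_lt hn).le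
  obtain ⟨N, hP, hc⟩ := Nat.sSup_mem (s := {n | ∃ N, P N ∧ N.card = n})
    ⟨0, ∅, ⟨by simp, by simp⟩, rfl⟩ hbdd
  have hK0 : 0 ≤ K * (C + 2) := by have := hφ.1; have := hφ.2.1; positivity
  have hcov : φ ⁻¹' S ⊆ ⋃ x ∈ N, {z : M.G | M.ln (x⁻¹ * z) ≤ K * (C + 2)} := fun z hz => by
    by_contra hcon
    simp only [Set.mem_iUnion, Set.mem_ofPred_eq, not_exists, not_le] at hcon
    have hzN : z ∉ N := fun h => by
      have := hcon z h
      rw [inv_mul_cancel, ln_one] at this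
      linarith
    have h1 : P (insert z N) := by
      refine ⟨fun x hx => ?_, fun x hx x' hx' hne => ?_⟩
      · rcases Finset.mem_insert.1 hx with rfl | hx
        · exact hz
        · exact hP.1 x hx
      · rcases Finset.mem_insert.1 hx with h1 | h1 <;>
          rcases Finset.mem_insert.1 hx' with h2 | h2
        · exact absurd (h1.trans h2.symm) hne
        · rw [← ln_inv, mul_inv_rev, inv_inv, h1]; exact hcon x' h2
        · rw [h2]; exact hcon x h1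
        · exact hP.2 x h1 x' h2 hne
    have h2 := le_csSup hbdd ⟨_, h1, rfl⟩
    rw [Finset.card_insert_of_notMem hzN, ← hc] at h2
    omega
  calc volume (φ ⁻¹' S) ≤ ∑ x ∈ N, volume {z : M.G | M.ln (x⁻¹ * z) ≤ K * (C + 2)} :=
        (measure_mono hcov).trans (measure_biUnion_finset_le _ _)
    _ = N.card * a := by simp only [qv_ball, Finset.sum_const, nsmul_eq_mul, ha]
    _ ≤ N.card * (ENNReal.ofReal (max 1 (a / volume M.Q).toReal) * volume M.Q) :=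
        mul_le_mul_right hab _
    _ ≤ _ := by rw [mul_left_comm]; exact mul_le_mul_right (hN N hP) _

theorem qv_m0 : Measurable fun p : M.G × M.G => p.1⁻¹ * p.2 := by
  have h : Continuous fun p : M.G × M.G => p.1⁻¹ * p.2 := continuous_fst.inv.mul continuous_snd
  exact h.measurable

theorem qv_gen {X : Type} [MeasurableSpace X] {m : X × X → X} (h0 : Measurable m) {φ : X → X}
    (hφ : Measurable φ) {S : Set X} (hS : MeasurableSet S)
    {f : X → ENNReal} (hf : Measurable f) : Measurable (Function.uncurry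
      fun x y => {x | m (φ x, y) ∈ S}.indicator (fun _ => f y) x) :=
  (hf.comp measurable_snd).indicator ((h0.comp ((hφ.comp measurable_fst).prodMk measurable_snd)) hS)

theorem lintegral_comp_le (K C : ℝ) : ∃ C' : ℝ, 1 ≤ C' ∧ ∀ φ, M.MQI K C φ →
    ∀ f : M.G → ENNReal, Measurable f →
      ∫⁻ x, ∫⁻ b in M.Q, f (φ x * b) ≤ ENNReal.ofReal C' * ∫⁻ y, f y := by
  set a := volume {z : M.G | M.ln z ≤ K * (C + 2)} with ha
  have ha' : a ≠ ⊤ := (M.isCompact_ball _).measure_lt_top.ne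
  refine ⟨max 1 a.toReal, le_max_left _ _, fun φ hφ f hf => ?_⟩
  have hQ := M.qv_Q_cpt.measurableSet
  let F : M.G → M.G → ENNReal := fun x y => {x | (φ x)⁻¹ * y ∈ M.Q}.indicator (fun _ => f y) x
  have hF : Measurable (Function.uncurry F) := qv_gen M.qv_m0 hφ.1 hQ hf
  have h1 : ∀ x, ∫⁻ b in M.Q, f (φ x * b) = ∫⁻ y, F x y := by
    intro x
    rw [← lintegral_indicator hQ, ← lintegral_mul_left_eq_self _ (φ x)⁻¹]
    refine lintegral_congr fun y => ?_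
    by_cases h : (φ x)⁻¹ * y ∈ M.Q <;> simp [F, Set.indicator, h]
  rw [lintegral_congr h1, lintegral_lintegral_swap hF.aemeasurable, ← lintegral_const_mul _ hf]
  refine lintegral_mono fun y => ?_
  refine (lintegral_indicator_const_le _ _).trans ?_
  rw [mul_comm]
  refine mul_le_mul_left ?_ _
  refine le_trans ?_ (ENNReal.ofReal_le_ofReal (le_max_right _ _))
  rw [ENNReal.ofReal_toReal ha']
  rcases Set.eq_empty_or_nonempty {x | (φ x)⁻¹ * y ∈ M.Q} with h | ⟨x₀, hx₀⟩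
  · simp [h]
  · rw [ha, ← M.qv_ball _ x₀]
    exact measure_mono fun x hx => M.qv_close hφ.2 hx₀ hx (by simp)

theorem qv_proj {y q : M.G} (hy : y ∈ M.e) (hq : q ∈ M.eᗮ) :
    M.eᗮ.starProjection (y * q) = q := by
  have h1 : y * q - q ∈ M.e := by
    have h := M.bchG.mem ((ℝ ∙ q) ⊔ M.e) M.e
      (fun a ha b hb => Submodule.mem_sup_right (M.lie_key q a ha b hb)) (M.lie_key q)
      (Submodule.mem_sup_right hy) (Submodule.mem_sup_left (Submodule.mem_span_singleton_self q))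
    rw [M.mul_eq_st (Or.inl (M.A_e hy))]
    have h2 : M.st y q - q = M.st y q - y - q + y := by abel
    rw [h2]
    exact M.e.add_mem h hy
  have h2 : M.eᗮ.starProjection (y * q - q) = 0 := by
    rw [Submodule.starProjection_apply_eq_zero_iff]
    exact M.e.le_orthogonal_orthogonal h1
  rw [map_sub, sub_eq_zero] at h2
  rw [h2, Submodule.starProjection_eq_self_iff.2 hq]

theorem qv_fub {Y : Set M.G} (hY : MeasurableSet Y) (R : ℝ) :
    volume {g : M.G | g * (M.eᗮ.starProjection g)⁻¹ ∈ Y ∧ ‖M.eᗮ.starProjection g‖ ≤ R} =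
      M.mE Y * subMu M.eᗮ (Metric.closedBall 0 R) := by
  have hc := M.eᗮ.starProjection.continuous
  have hm : MeasurableSet
      {g : M.G | g * (M.eᗮ.starProjection g)⁻¹ ∈ Y ∧ ‖M.eᗮ.starProjection g‖ ≤ R} :=
    ((continuous_id.mul hc.inv).measurable hY).inter
      (isClosed_le hc.norm continuous_const).measurableSet
  rw [← lintegral_indicator_one hm, M.fubini_G (measurable_one.indicator hm),
    ← lintegral_indicator_const measurableSet_closedBall]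
  refine lintegral_congr_ae ((subMu_ae _).mono fun q hq => ?_)
  by_cases h : ‖q‖ ≤ R
  · rw [Set.indicator_of_mem (mem_closedBall_zero_iff.2 h), ← lintegral_indicator_one hY]
    refine lintegral_congr_ae ((subMu_ae _).mono fun y hy => ?_)
    by_cases h' : y ∈ Y <;> simp [Set.indicator, M.qv_proj hy hq, h, h']
  · rw [Set.indicator_of_notMem (by simpa using h)]
    refine (lintegral_congr_ae ((subMu_ae _).mono fun y hy => ?_)).trans lintegral_zero
    simp [Set.indicator, M.qv_proj hy hq, h]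

theorem qv_log (D : ℝ) (n : ℕ) : ∃ C : ℝ, 1 ≤ C ∧ ∀ ρ : ℝ, 0 ≤ ρ →
    D * (1 + ρ) ^ n ≤ Real.exp (C * Real.log (2 + ρ)) := by
  obtain ⟨m, hm⟩ := pow_unbounded_of_one_lt D (one_lt_two (α := ℝ))
  refine ⟨((m + n + 1 : ℕ) : ℝ), by exact_mod_cast Nat.le_add_left 1 (m + n), fun ρ hρ => ?_⟩
  rw [Real.exp_nat_mul, Real.exp_log (by linarith), pow_succ, pow_add]
  have h1 : D ≤ (2 + ρ) ^ m := hm.le.trans (pow_le_pow_left₀ (by norm_num) (by linarith) _)
  have h2 : (1 + ρ) ^ n ≤ (2 + ρ) ^ n := pow_le_pow_left₀ (by linarith) (by linarith) _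
  have h3 := mul_le_mul h1 h2 (by positivity) (by positivity)
  have h4 : 0 ≤ (2 + ρ) ^ m * (2 + ρ) ^ n := by positivity
  nlinarith

theorem qv_nf (L : ℝ) : ∃ C : ℝ, 1 ≤ C ∧ ∀ ρ ℓ : ℝ, 0 ≤ ρ → 0 ≤ ℓ → ∀ ζ ∈ M.Z ρ, ‖M.A ζ‖ ≤ ℓ →
    ∀ b, M.ln b ≤ L → ∃ k ∈ M.K (fun _ => C * (ℓ + Real.log (2 + ρ))), ∃ q ∈ M.eᗮ,
      ‖q‖ ≤ C * (1 + ρ) ^ M.c ∧ ζ * b = k * q := by
  obtain ⟨C1, h1, H1⟩ := M.nf_of_ln
  obtain ⟨C2, h2, H2⟩ := M.Ad_Z_K
  obtain ⟨C3, h3, H3⟩ := M.Z_mul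
  obtain ⟨C4, h4, H4⟩ := M.proj_Z
  obtain ⟨C5, h5, H5⟩ := M.Z_norm
  obtain ⟨C6, h6, H6⟩ := M.K_prod
  set u := C1 * (|L| + 1) with hu
  have hu0 : 0 ≤ u := by positivity
  set w := ∑ i, ‖M.wt i‖ with hw
  have hw0 : 0 ≤ w := Finset.sum_nonneg fun i _ => norm_nonneg _
  obtain ⟨C7, h7, H7⟩ := qv_log (2 + C3 * (1 + u)) 1
  have hl6 : 0 ≤ Real.log (C6 * (1 + 2)) := Real.log_nonneg (by linarith)
  have hp : 0 ≤ C5 * (1 + C3 * (1 + u)) ^ M.c := by positivity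
  have h47 : 0 ≤ C4 * C7 := by positivity
  refine ⟨1 + w + C2 + C4 * C7 + 2 * (u + Real.log (C6 * (1 + 2))) + C5 * (1 + C3 * (1 + u)) ^ M.c,
    by linarith, fun ρ ℓ hρ hℓ ζ hζ hA b hb => ?_⟩
  obtain ⟨k, hk, ξ, hξ, rfl⟩ := H1 b |L| (hb.trans (le_abs_self _))
  have hlog := len_log hρ
  have hζξ := H3 (ρ + u) (by linarith) ζ (M.Z_mono hρ (by linarith) hζ) ξ
    (M.Z_mono hu0 (by linarith) hξ)
  have h30 : 0 ≤ C3 * (ρ + u) := by positivity
  have hk1 := H2 ρ _ hρ (fun _ _ _ => rfl) ζ hζ ⟨k, hk, rfl⟩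
  have hk2 := H4 _ h30 _ hζξ
  have hle : C3 * (ρ + u) ≤ C3 * (1 + u) * (1 + ρ) := by
    rw [mul_assoc]; exact mul_le_mul_of_nonneg_left (by nlinarith) (by linarith)
  have hlog2 : Real.log (2 + C3 * (ρ + u)) ≤ C7 * Real.log (2 + ρ) := by
    rw [Real.log_le_iff_le_exp (by linarith)]
    refine le_trans ?_ (H7 ρ hρ)
    nlinarith
  set τ := u + w * ℓ + (C2 + C4 * C7) * Real.log (2 + ρ) with hτ
  have hwl : 0 ≤ w * ℓ := by positivity
  have hk1' : M.Ad ζ k ∈ M.K (fun _ => τ) := M.K_mono (fun i _ => by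
    have e1 : M.wv (M.A ζ) i ≤ w * ℓ := (real_inner_le_norm _ _).trans (mul_le_mul
      (Finset.single_le_sum (f := fun i => ‖M.wt i‖) (fun i _ => norm_nonneg _) (Finset.mem_univ i))
      hA (norm_nonneg _) hw0)
    have e2 : 0 ≤ C4 * C7 * Real.log (2 + ρ) := by positivity
    show u + _ + _ ≤ τ
    nlinarith) hk1
  have hk2' : ζ * ξ * (M.eᗮ.starProjection (ζ * ξ))⁻¹ ∈ M.K (fun _ => τ) := M.K_mono (fun i _ => by
    have e1 := mul_le_mul_of_nonneg_left hlog2 (by linarith : 0 ≤ C4)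
    have e2 : 0 ≤ C2 * Real.log (2 + ρ) := by positivity
    show _ ≤ τ
    nlinarith) hk2
  have hk3 := H6 (fun _ => τ) [M.Ad ζ k, ζ * ξ * (M.eᗮ.starProjection (ζ * ξ))⁻¹] (by
    simp only [List.mem_cons, List.not_mem_nil, or_false]
    rintro _ (rfl | rfl) <;> assumption)
  refine ⟨_, M.K_mono (fun i _ => ?_) hk3, _, M.eᗮ.starProjection_apply_mem (ζ * ξ), ?_, ?_⟩
  · simp only [List.length_cons, List.length_nil]
    have e1 : 0 ≤ C5 * (1 + C3 * (1 + u)) ^ M.c * (ℓ + Real.log (2 + ρ)) := by positivity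
    have e2 : 0 ≤ w * Real.log (2 + ρ) := by positivity
    have e3 : 0 ≤ (C2 + C4 * C7) * ℓ := by positivity
    have e4 : 0 ≤ (u + Real.log (C6 * (1 + 2))) * (2 * (ℓ + Real.log (2 + ρ)) - 1) :=
      mul_nonneg (by linarith) (by linarith)
    norm_num at e4 hl6 ⊢
    nlinarith
  · refine (M.eᗮ.norm_starProjection_apply_le _).trans ((H5 _ h30 _ hζξ).trans ?_)
    have e1 : (1 + C3 * (ρ + u)) ^ M.c ≤ ((1 + C3 * (1 + u)) * (1 + ρ)) ^ M.c :=
      pow_le_pow_left₀ (by linarith) (by nlinarith) _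
    rw [mul_pow] at e1
    have e2 := mul_le_mul_of_nonneg_left e1 (by linarith : 0 ≤ C5)
    have e3 : 0 ≤ (1 + w + C2 + C4 * C7 + 2 * (u + Real.log (C6 * (1 + 2)))) * (1 + ρ) ^ M.c := by
      positivity
    nlinarith
  · rw [← M.conj_eq (Or.inr (M.Z_sub_u0 ρ hζ))]
    simp [mul_assoc]

theorem vol_transfer (K C : ℝ) : ∃ C' : ℝ, 1 ≤ C' ∧ ∀ φ, IsQI M.Q M.Q K C φ →
    ∀ (x₁ x₀ : M.G) (Y D : Set M.G) (ρ ℓ : ℝ), MeasurableSet Y → Y ⊆ M.e → D ⊆ M.e → 0 ≤ ρ →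
      0 ≤ ℓ → (∀ y ∈ Y, ∃ x ∈ D, ∃ ζ ∈ M.Z ρ, ‖M.A ζ‖ ≤ ℓ ∧ φ (x₁ * y) = x₀ * x * ζ) →
      M.mE Y ≤ ENNReal.ofReal (Real.exp (C' * Real.log (2 + ρ))) *
        M.mE (D * M.K (fun _ => C' * (ℓ + Real.log (2 + ρ)))) := by
  obtain ⟨C0, h0, H0⟩ := M.vol_preimage_le K C
  obtain ⟨C1, h1, H1⟩ := M.qv_nf (K + C + 1)
  set n := Module.finrank ℝ M.eᗮ
  obtain ⟨C2, h2, H2⟩ := qv_log (C0 * C1 ^ n) (M.c * n)
  refine ⟨C1 + C2, by linarith, fun φ hφ x₁ x₀ Y D ρ ℓ hY hYe hD hρ hℓ h => ?_⟩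
  have hlog := len_log hρ
  set E := D * M.K (fun _ => (C1 + C2) * (ℓ + Real.log (2 + ρ))) with hE
  set R := C1 * (1 + ρ) ^ M.c with hR
  have hR0 : 0 < R := by positivity
  set T := {g : M.G | g * (M.eᗮ.starProjection g)⁻¹ ∈ Y ∧ ‖M.eᗮ.starProjection g‖ ≤ 1} with hT
  set b := subMu M.eᗮ (Metric.closedBall (0 : M.G) 1) with hb
  have hb0 : b ≠ 0 := subMu_pos _ one_pos fun x _ hx => mem_closedBall_zero_iff.2 hx
  have hb1 : b ≠ ⊤ := (isCompact_closedBall _ _).measure_lt_top.ne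
  have hsub : (fun g => φ (x₁ * g)) '' T * M.Q ⊆ (fun g => x₀⁻¹ * g) ⁻¹'
      {g : M.G | g * (M.eᗮ.starProjection g)⁻¹ ∈ toMeasurable M.mE E ∧
        ‖M.eᗮ.starProjection g‖ ≤ R} := by
    rintro _ ⟨_, ⟨g, hg, rfl⟩, q, hq, rfl⟩
    obtain ⟨x, hx, ζ, hζ, hA, he⟩ := h _ hg.1
    have e1 := IsQI.ln_le M hφ (x₁ * (g * (M.eᗮ.starProjection g)⁻¹)) (M.eᗮ.starProjection g)
    have e2 := M.ln_mul ((φ (x₁ * (g * (M.eᗮ.starProjection g)⁻¹)))⁻¹ * φ (x₁ * g)) q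
    have e3 := M.ln_le_one hg.2
    have e4 := M.ln_le_one (mem_closedBall_zero_iff.1 hq)
    rw [mul_assoc, inv_mul_cancel_right] at e1
    obtain ⟨k, hk, q', hq', hn, he'⟩ := H1 ρ ℓ hρ hℓ ζ hζ hA _ (e2.trans (by
      nlinarith [hφ.1, M.ln_nonneg (M.eᗮ.starProjection g)]))
    have e5 : x₀⁻¹ * (φ (x₁ * g) * q) = x * k * q' := by
      rw [mul_assoc x, ← he', he]; simp [mul_assoc]
    have hk' : k ∈ M.K (fun _ => (C1 + C2) * (ℓ + Real.log (2 + ρ))) :=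
      M.K_mono (fun _ _ => mul_le_mul_of_nonneg_right (by linarith) (by linarith)) hk
    have e6 := M.qv_proj (M.mul_mem_e (hD hx) (M.K_sub_e _ hk)) hq'
    show _ ∧ _
    simp only [e5, e6, mul_inv_cancel_right]
    exact ⟨subset_toMeasurable _ _ ⟨x, hx, k, hk', rfl⟩, hn⟩
  have hball : subMu M.eᗮ (Metric.closedBall (0 : M.G) R) = ENNReal.ofReal (R ^ n) * b := by
    have := subMu_smul M.eᗮ R hR0.ne' (Metric.closedBall (0 : M.G) 1)
    rwa [smul_closedBall _ _ zero_le_one, smul_zero, mul_one, Real.norm_eq_abs,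
      abs_of_pos hR0] at this
  have key : M.mE Y * b ≤ ENNReal.ofReal C0 * (M.mE E * (ENNReal.ofReal (R ^ n) * b)) := by
    rw [← hball, hb, ← M.qv_fub hY, ← measure_toMeasurable E,
      ← M.qv_fub (measurableSet_toMeasurable _ _)]
    refine le_trans (measure_mono (Set.subset_preimage_image (fun g => φ (x₁ * g)) T)) ?_
    refine (H0 _ (hφ.comp_mul_left x₁) _).trans (mul_le_mul_right ?_ _)
    exact (measure_mono hsub).trans (measure_preimage_mul volume x₀⁻¹ _).le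
  rw [← mul_assoc, ← mul_assoc, ENNReal.mul_le_mul_iff_left hb0 hb1, mul_right_comm,
    ← ENNReal.ofReal_mul (by linarith)] at key
  refine key.trans (mul_le_mul_left (ENNReal.ofReal_le_ofReal ?_) _)
  have e1 := H2 ρ hρ
  rw [hR, mul_pow, ← pow_mul, ← mul_assoc]
  exact e1.trans (Real.exp_le_exp.2 (mul_le_mul_of_nonneg_right (by linarith) (by linarith)))

end Vale.Agent.P188.Geo
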