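import Vale.Agent.P188.Kit

/-! Symmetric convex sets: dilation calculus; Lipschitz estimates for Lie polynomials.
Plan: `lip` by induction on `LiePoly` (for `lie`: `[f,g]-[f',g'] = [f-f',g] + [f',g-g']`, use
antisymmetry only through the two-sided hypothesis); `lipBr` by induction on `LieBr` using `lip`. -/

namespace Vale.Agent.P188
open scoped Pointwise

section
variable {X : Type} [AddCommGroup X] [Module ℝ X] {S T : Set X}

theorem SC.smul (h : SC S) (t : ℝ) : SC (t • S) := by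
  refine ⟨h.convex.smul t, ?_, ⟨0, h.zero_mem, smul_zero t⟩⟩
  rintro _ ⟨x, hx, rfl⟩
  exact ⟨-x, h.neg_mem x hx, smul_neg t x⟩
theorem SC.add (h : SC S) (h' : SC T) : SC (S + T) := by
  refine ⟨h.convex.add h'.convex, ?_, ⟨0, h.zero_mem, 0, h'.zero_mem, add_zero 0⟩⟩
  rintro _ ⟨x, hx, y, hy, rfl⟩
  exact ⟨-x, h.neg_mem x hx, -y, h'.neg_mem y hy, (neg_add x y).symm⟩
theorem SC.inter (h : SC S) (h' : SC T) : SC (S ∩ T) :=
  ⟨h.convex.inter h'.convex, fun x hx => ⟨h.neg_mem x hx.1, h'.neg_mem x hx.2⟩,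
    h.zero_mem, h'.zero_mem⟩
theorem SC.image (h : SC S) (f : X →ₗ[ℝ] X) : SC (f '' S) := by
  refine ⟨h.convex.linear_image f, ?_, ⟨0, h.zero_mem, map_zero f⟩⟩
  rintro _ ⟨x, hx, rfl⟩
  exact ⟨-x, h.neg_mem x hx, map_neg f x⟩
theorem SC.submodule (W : Submodule ℝ X) : SC (W : Set X) :=
  ⟨W.convex, fun _ hx => W.neg_mem hx, W.zero_mem⟩
theorem SC.smul_mem (h : SC S) {x : X} (hx : x ∈ S) {t : ℝ} (ht : |t| ≤ 1) : t • x ∈ S := by
  rcases le_total 0 t with h0 | h0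
  · exact h.convex.smul_mem_of_zero_mem h.zero_mem hx ⟨h0, (abs_le.1 ht).2⟩
  · rw [← neg_smul_neg]
    exact h.convex.smul_mem_of_zero_mem h.zero_mem (h.neg_mem x hx)
      ⟨neg_nonneg.2 h0, neg_le.1 (abs_le.1 ht).1⟩
theorem SC.smul_mono (h : SC S) {s t : ℝ} (hst : |s| ≤ t) : s • S ⊆ t • S := by
  rintro _ ⟨x, hx, rfl⟩
  rcases ((abs_nonneg s).trans hst).eq_or_lt with h0 | h0
  · rw [← h0] at hst ⊢
    rw [abs_nonpos_iff.1 hst]
    exact ⟨x, hx, rfl⟩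
  · refine ⟨(s / t) • x, h.smul_mem hx ?_, ?_⟩
    · rwa [abs_div, abs_of_pos h0, div_le_one h0]
    · simp only [smul_smul, mul_div_cancel₀ s h0.ne']
theorem SC.subset_smul (h : SC S) {t : ℝ} (ht : 1 ≤ t) : S ⊆ t • S := by
  simpa using h.smul_mono (s := 1) (by rwa [abs_one])
theorem SC.add_mem (h : SC S) {s t : ℝ} (hs : 0 ≤ s) (ht : 0 ≤ t) {x y : X}
    (hx : x ∈ s • S) (hy : y ∈ t • S) : x + y ∈ (s + t) • S := by
  rw [h.convex.add_smul hs ht]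
  exact Set.add_mem_add hx hy
theorem SC.sub_mem (h : SC S) {s t : ℝ} (hs : 0 ≤ s) (ht : 0 ≤ t) {x y : X}
    (hx : x ∈ s • S) (hy : y ∈ t • S) : x - y ∈ (s + t) • S := by
  rw [sub_eq_add_neg]
  exact h.add_mem hs ht hx ((h.smul t).neg_mem y hy)
theorem SC.smul_mem_smul (h : SC S) {s t u : ℝ} (hs : 0 ≤ s) {x : X} (hx : x ∈ s • S)
    (hu : |t| * s ≤ u) : t • x ∈ u • S := by
  obtain ⟨y, hy, rfl⟩ := hx
  exact h.smul_mono (s := t * s) (by rwa [abs_mul, abs_of_nonneg hs]) ⟨y, hy, mul_smul t s y⟩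
theorem SC.sum_mem (h : SC S) {ι : Type*} (I : Finset ι) (f : ι → X) (t : ι → ℝ)
    (ht : ∀ i ∈ I, 0 ≤ t i) (hf : ∀ i ∈ I, f i ∈ t i • S) :
    ∑ i ∈ I, f i ∈ (∑ i ∈ I, t i) • S := by
  induction I using Finset.cons_induction with
  | empty => exact (h.smul _).zero_mem
  | cons a I ha ih =>
    rw [Finset.forall_mem_cons] at ht hf
    rw [Finset.sum_cons, Finset.sum_cons]
    exact h.add_mem ht.1 (Finset.sum_nonneg ht.2) hf.1 (ih ht.2 hf.2)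
theorem SC.map_mem₂ {U : Set X} (br : X →ₗ[ℝ] X →ₗ[ℝ] X)
    (h : ∀ x ∈ S, ∀ y ∈ T, br x y ∈ U) {s t : ℝ} {x y : X} (hx : x ∈ s • S) (hy : y ∈ t • T) :
    br x y ∈ (s * t) • U := by
  obtain ⟨x, hx, rfl⟩ := hx
  obtain ⟨y, hy, rfl⟩ := hy
  exact ⟨br x y, h x hx y hy, by simp [smul_smul, mul_comm]⟩

variable {br : X →ₗ[ℝ] X →ₗ[ℝ] X}

theorem sc_lie {K L L' : Set X} (hL' : SC L') (h : ∀ x ∈ K, ∀ y ∈ L, br x y ∈ L' ∧ br y x ∈ L')
    {a b : ℝ} (ha : 1 ≤ a) (hb : 1 ≤ b) {u u' w w' : X} (hu : u' ∈ a • K) (hw : w ∈ b • K)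
    (h1 : u - u' ∈ a • L) (h2 : w - w' ∈ b • L) :
    br u w - br u' w' ∈ (a * b + a * b) • L' := by
  have e : br u w - br u' w' = br (u - u') w + br u' (w - w') := by simp
  have h0 : 0 ≤ a * b := by positivity
  rw [e]
  exact hL'.add_mem h0 h0 (SC.map_mem₂ br (fun x hx y hy => (h y hy x hx).2) h1 hw)
    (SC.map_mem₂ br (fun x hx y hy => (h x hx y hy).1) hu h2)

theorem LiePoly.lip {f} (hf : LiePoly br f) (C : ℝ) (hC : 0 ≤ C) :
    ∃ C' : ℝ, 1 ≤ C' ∧ ∀ K L : Set X, SC K → SC L → (∀ x ∈ K, ∀ y ∈ K, br x y ∈ K) →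
      (∀ x ∈ K, ∀ y ∈ L, br x y ∈ L ∧ br y x ∈ L) →
      ∀ x ∈ C • K, ∀ y ∈ C • K, ∀ x' ∈ C • K, ∀ y' ∈ C • K, x - x' ∈ L → y - y' ∈ L →
        f x y ∈ C' • K ∧ f x y - f x' y' ∈ C' • L := by
  have hm : |C| ≤ max 1 C := (abs_of_nonneg hC).trans_le (le_max_right _ _)
  induction hf with
  | fst =>
    exact ⟨max 1 C, le_max_left _ _, fun K L hK hL _ _ x hx y _ x' _ y' _ h1 _ =>
      ⟨hK.smul_mono hm hx, hL.subset_smul (le_max_left _ _) h1⟩⟩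
  | snd =>
    exact ⟨max 1 C, le_max_left _ _, fun K L hK hL _ _ x _ y hy x' _ y' _ _ h2 =>
      ⟨hK.smul_mono hm hy, hL.subset_smul (le_max_left _ _) h2⟩⟩
  | add _ _ ih1 ih2 =>
    obtain ⟨a, ha, h1⟩ := ih1
    obtain ⟨b, hb, h2⟩ := ih2
    refine ⟨a + b, by linarith, fun K L hK hL k1 k2 x hx y hy x' hx' y' hy' d1 d2 => ?_⟩
    obtain ⟨p1, p2⟩ := h1 K L hK hL k1 k2 x hx y hy x' hx' y' hy' d1 d2
    obtain ⟨q1, q2⟩ := h2 K L hK hL k1 k2 x hx y hy x' hx' y' hy' d1 d2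
    rw [add_sub_add_comm]
    exact ⟨hK.add_mem (by linarith) (by linarith) p1 q1,
      hL.add_mem (by linarith) (by linarith) p2 q2⟩
  | smul t _ ih =>
    obtain ⟨a, ha, h1⟩ := ih
    refine ⟨max 1 (|t| * a), le_max_left _ _,
      fun K L hK hL k1 k2 x hx y hy x' hx' y' hy' d1 d2 => ?_⟩
    obtain ⟨p1, p2⟩ := h1 K L hK hL k1 k2 x hx y hy x' hx' y' hy' d1 d2
    rw [← smul_sub]
    exact ⟨hK.smul_mem_smul (by linarith) p1 (le_max_right _ _),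
      hL.smul_mem_smul (by linarith) p2 (le_max_right _ _)⟩
  | lie _ _ ih1 ih2 =>
    obtain ⟨a, ha, h1⟩ := ih1
    obtain ⟨b, hb, h2⟩ := ih2
    have hab := one_le_mul_of_one_le_of_one_le ha hb
    refine ⟨a * b + a * b, by linarith,
      fun K L hK hL k1 k2 x hx y hy x' hx' y' hy' d1 d2 => ?_⟩
    obtain ⟨p1, p2⟩ := h1 K L hK hL k1 k2 x hx y hy x' hx' y' hy' d1 d2
    obtain ⟨q1, q2⟩ := h2 K L hK hL k1 k2 x hx y hy x' hx' y' hy' d1 d2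
    have h0 : ∀ z : X, z - z ∈ L := fun z => (sub_self z).symm ▸ hL.zero_mem
    exact ⟨hK.smul_mono (by rw [abs_of_nonneg] <;> linarith) (SC.map_mem₂ br k1 p1 q1),
      sc_lie hL k2 ha hb (h1 K L hK hL k1 k2 x' hx' y' hy' x' hx' y' hy' (h0 _) (h0 _)).1
        q1 p2 q2⟩

theorem LieBr.lip {f} (hf : LieBr br f) (C : ℝ) (hC : 0 ≤ C) :
    ∃ C' : ℝ, 1 ≤ C' ∧ ∀ K L L' : Set X, SC K → SC L → SC L' →
      (∀ x ∈ K, ∀ y ∈ K, br x y ∈ K) →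
      (∀ x ∈ K, ∀ y ∈ L, br x y ∈ L ∧ br y x ∈ L) →
      (∀ x ∈ K, ∀ y ∈ L, br x y ∈ L' ∧ br y x ∈ L') →
      ∀ x ∈ C • K, ∀ y ∈ C • K, ∀ x' ∈ C • K, ∀ y' ∈ C • K, x - x' ∈ L → y - y' ∈ L →
        f x y - f x' y' ∈ C' • L' := by
  induction hf with
  | zero =>
    exact ⟨1, le_rfl, fun K L L' _ _ hL' _ _ _ x _ y _ x' _ y' _ _ _ =>
      (sub_self (0 : X)).symm ▸ (hL'.smul 1).zero_mem⟩
  | lie hf hg =>
    obtain ⟨a, ha, h1⟩ := hf.lip C hC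
    obtain ⟨b, hb, h2⟩ := hg.lip C hC
    have hab := one_le_mul_of_one_le_of_one_le ha hb
    refine ⟨a * b + a * b, by linarith,
      fun K L L' hK hL hL' k1 k2 k3 x hx y hy x' hx' y' hy' d1 d2 => ?_⟩
    obtain ⟨q1, q2⟩ := h2 K L hK hL k1 k2 x hx y hy x' hx' y' hy' d1 d2
    have h0 : ∀ z : X, z - z ∈ L := fun z => (sub_self z).symm ▸ hL.zero_mem
    exact sc_lie hL' k3 ha hb (h1 K L hK hL k1 k2 x' hx' y' hy' x' hx' y' hy' (h0 _) (h0 _)).1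
      q1 (h1 K L hK hL k1 k2 x hx y hy x' hx' y' hy' d1 d2).2 q2
  | add _ _ ih1 ih2 =>
    obtain ⟨a, ha, h1⟩ := ih1
    obtain ⟨b, hb, h2⟩ := ih2
    refine ⟨a + b, by linarith,
      fun K L L' hK hL hL' k1 k2 k3 x hx y hy x' hx' y' hy' d1 d2 => ?_⟩
    rw [add_sub_add_comm]
    exact hL'.add_mem (by linarith) (by linarith)
      (h1 K L L' hK hL hL' k1 k2 k3 x hx y hy x' hx' y' hy' d1 d2)
      (h2 K L L' hK hL hL' k1 k2 k3 x hx y hy x' hx' y' hy' d1 d2)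
  | smul t _ ih =>
    obtain ⟨a, ha, h1⟩ := ih
    refine ⟨max 1 (|t| * a), le_max_left _ _,
      fun K L L' hK hL hL' k1 k2 k3 x hx y hy x' hx' y' hy' d1 d2 => ?_⟩
    rw [← smul_sub]
    exact hL'.smul_mem_smul (by linarith)
      (h1 K L L' hK hL hL' k1 k2 k3 x hx y hy x' hx' y' hy' d1 d2) (le_max_right _ _)

end

theorem LiePoly.contDiff {X : Type} [NormedAddCommGroup X] [NormedSpace ℝ X]
    [FiniteDimensional ℝ X] {br : X →ₗ[ℝ] X →ₗ[ℝ] X} {f} (hf : LiePoly br f) :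
    ContDiff ℝ ⊤ (fun p : X × X => f p.1 p.2) := by
  induction hf with
  | fst => exact contDiff_fst
  | snd => exact contDiff_snd
  | add _ _ h1 h2 => exact h1.add h2
  | smul t _ h => exact h.const_smul t
  | lie _ _ h1 h2 =>
    exact ((LinearMap.toContinuousLinearMap
      (LinearMap.toContinuousLinearMap.toLinearMap ∘ₗ br)).contDiff.comp h1).clm_apply h2

end Vale.Agent.P188
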