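import Vale.Agent.P188.Haar

/-! The functional `Phi` and the volume of `K r`.
Plan: frames have words of length between `1` and `c` (`mono_eq_zero`, `mono [] = 0`), so there
are finitely many; they exist because right-nested monomials span `e` (`gen_subset_mono`).
`Phi_wv`: the monomials of a frame are eigenvectors of `del v`, whose determinant on `e` is `1`
(`mE_image_del`, or `M.unimod`).  `Phi_strict`: `p` is nonzero on `e` and kills brackets and other
weights, so every frame contains a one-letter word of weight `μ`.  `vol_K`: lower bound: the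
cross-polytope of the maximising frame; upper bound: `gen_subset_mono`, take the tuple of scaled
monomials maximising `|det|`, Cramer's rule puts everything in its parallelepiped. -/

namespace Vale.Agent.P188.Geo
open scoped InnerProductSpace Pointwise
open MeasureTheory
variable (M : Geo)

theorem vol_mono_smul (f : Fin M.d → ℝ) : ∀ w : List (Fin M.d),
    M.mono (w.map fun i => f i • M.X i) = (w.map f).prod • M.mono (w.map M.X)
  | [] => by simp [mono]
  | [i] => by simp [mono]
  | i :: j :: w => by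
    have h := vol_mono_smul f (j :: w)
    simp only [List.map_cons, mono, List.prod_cons] at h ⊢
    rw [h]
    simp only [map_smul, LinearMap.smul_apply, smul_smul]
    congr 1
    ring

theorem vol_mono_exp (r : Fin M.d → ℝ) (w : List (Fin M.d)) :
    M.mono (w.map fun i => Real.exp (r i) • M.X i) =
      Real.exp (w.map r).sum • M.mono (w.map M.X) := by
  rw [vol_mono_smul, Real.exp_list_sum, List.map_map]
  rfl

theorem vol_mono_del (v : M.V) : ∀ l : List M.G, M.del v (M.mono l) = M.mono (l.map (M.del v))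
  | [] => by simp [mono]
  | [x] => by simp [mono]
  | x :: y :: l => by
    have h := vol_mono_del v (y :: l)
    simp only [List.map_cons, mono] at h ⊢
    rw [del_B, h]

theorem vol_del_word (v : M.V) (w : List (Fin M.d)) :
    M.del v (M.mono (w.map M.X)) = Real.exp (w.map (M.wv v)).sum • M.mono (w.map M.X) := by
  rw [vol_mono_del, List.map_map, ← vol_mono_exp]
  congr 1
  exact List.map_congr_left fun i _ => M.del_X v i

theorem vol_word_mem : ∀ w : List (Fin M.d), (∀ i ∈ w, M.wt i ≠ 0) → M.mono (w.map M.X) ∈ M.e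
  | [], _ => M.e.zero_mem
  | [i], h => M.X_mem_e (h i (by simp))
  | _ :: j :: w, h => M.B_e _ (vol_word_mem (j :: w) fun a ha => h a (List.mem_cons_of_mem _ ha))

theorem vol_exists_word {f : Fin M.d → M.G} : ∀ l : List M.G,
    (∀ y ∈ l, y ∈ {y | ∃ i, M.wt i ≠ 0 ∧ y = f i}) →
      ∃ w : List (Fin M.d), (∀ i ∈ w, M.wt i ≠ 0) ∧ l = w.map f
  | [], _ => ⟨[], by simp, rfl⟩
  | x :: l, h => by
    obtain ⟨w, hw, rfl⟩ := vol_exists_word l fun y hy => h y (List.mem_cons_of_mem _ hy)
    obtain ⟨i, hi, rfl⟩ := h x (by simp)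
    refine ⟨i :: w, fun a ha => ?_, rfl⟩
    rcases List.mem_cons.1 ha with rfl | ha
    · exact hi
    · exact hw a ha

theorem Frame.length_le {β} (hβ : M.Frame β) (j) : (β j).length ≤ M.c := by
  by_contra h
  exact hβ.2.ne_zero j (M.mono_eq_zero (by simpa using h))

theorem frames_finite : {β | M.Frame β}.Finite :=
  (Set.Finite.pi' fun _ => List.finite_length_le (Fin M.d) M.c).subset
    fun _ hβ j => Frame.length_le M hβ j

theorem vol_span : Submodule.span ℝ
    {x | ∃ w : List (Fin M.d), (∀ i ∈ w, M.wt i ≠ 0) ∧ x = M.mono (w.map M.X)} = M.e := by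
  refine le_antisymm (Submodule.span_le.2 ?_) (Submodule.span_le.2 ?_)
  · rintro _ ⟨w, hw, rfl⟩
    exact M.vol_word_mem w hw
  · intro x hx
    obtain ⟨C, -, hC⟩ := M.gen_subset_mono
    obtain ⟨y, hy, rfl⟩ := hC _ (subset_convexHull ℝ _ (Set.mem_insert_of_mem _ hx))
    refine Submodule.smul_mem _ C (convexHull_min ?_ (Submodule.convex _) hy)
    rintro z (rfl | ⟨l, -, -, hl, hz⟩)
    · exact Submodule.zero_mem _
    · obtain ⟨w, hw, rfl⟩ := M.vol_exists_word l hl
      rcases hz with rfl | rfl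
      · exact Submodule.subset_span ⟨w, hw, rfl⟩
      · exact Submodule.neg_mem _ (Submodule.subset_span ⟨w, hw, rfl⟩)

theorem frames_nonempty : ∃ β, M.Frame β := by
  have h := Submodule.exists_fun_fin_finrank_span_eq ℝ
    {x | ∃ w : List (Fin M.d), (∀ i ∈ w, M.wt i ≠ 0) ∧ x = M.mono (w.map M.X)}
  rw [vol_span] at h
  obtain ⟨f, hf, -, hi⟩ := h
  choose β hβ hβ' using hf
  refine ⟨β, hβ, ?_⟩
  rwa [← funext hβ']

theorem vol_finite (r : Fin M.d → ℝ) :
    {t | ∃ β, M.Frame β ∧ t = ∑ j, ((β j).map r).sum}.Finite :=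
  (M.frames_finite.image fun β => ∑ j, ((β j).map r).sum).subset
    fun _ ⟨β, hβ, h⟩ => ⟨β, hβ, h.symm⟩

theorem le_Phi {β} (hβ : M.Frame β) (r) : ∑ j, ((β j).map r).sum ≤ M.Phi r :=
  le_csSup (M.vol_finite r).bddAbove ⟨β, hβ, rfl⟩

theorem exists_Phi (r) : ∃ β, M.Frame β ∧ M.Phi r = ∑ j, ((β j).map r).sum := by
  obtain ⟨β, hβ⟩ := M.frames_nonempty
  exact Set.Nonempty.csSup_mem (s := {t | ∃ β, M.Frame β ∧ t = ∑ j, ((β j).map r).sum})
    ⟨_, β, hβ, rfl⟩ (M.vol_finite r)

theorem Phi_mono {r r'} (h : ∀ i, M.wt i ≠ 0 → r i ≤ r' i) : M.Phi r ≤ M.Phi r' := by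
  obtain ⟨β, hβ, h1⟩ := M.exists_Phi r
  rw [h1]
  exact (Finset.sum_le_sum fun j _ => List.sum_le_sum fun i hi => h i (hβ.1 j i hi)).trans
    (M.le_Phi hβ r')

theorem vol_sum_add (r r' : Fin M.d → ℝ) (β : Fin (Module.finrank ℝ M.e) → List (Fin M.d)) :
    ∑ j, ((β j).map (r + r')).sum = ∑ j, ((β j).map r).sum + ∑ j, ((β j).map r').sum := by
  rw [← Finset.sum_add_distrib]
  exact Finset.sum_congr rfl fun j _ => List.sum_map_add

theorem vol_sum_smul (t : ℝ) (r : Fin M.d → ℝ) (β : Fin (Module.finrank ℝ M.e) → List (Fin M.d)) :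
    ∑ j, ((β j).map (t • r)).sum = t * ∑ j, ((β j).map r).sum := by
  rw [Finset.mul_sum]
  exact Finset.sum_congr rfl fun j _ => List.sum_map_mul_left _ _ _

theorem Phi_add_le (r r') : M.Phi (r + r') ≤ M.Phi r + M.Phi r' := by
  obtain ⟨β, hβ, h1⟩ := M.exists_Phi (r + r')
  rw [h1, vol_sum_add]
  exact add_le_add (M.le_Phi hβ r) (M.le_Phi hβ r')

theorem Phi_smul {t : ℝ} (ht : 0 ≤ t) (r) : M.Phi (t • r) = t * M.Phi r := by
  refine le_antisymm ?_ ?_
  · obtain ⟨β, hβ, h1⟩ := M.exists_Phi (t • r)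
    rw [h1, vol_sum_smul]
    exact mul_le_mul_of_nonneg_left (M.le_Phi hβ r) ht
  · obtain ⟨β, hβ, h1⟩ := M.exists_Phi r
    rw [h1, ← vol_sum_smul]
    exact M.le_Phi hβ _

/-- The basis of `e` given by a frame. -/
theorem Frame.basis {β} (hβ : M.Frame β) : ∃ b : Module.Basis (Fin (Module.finrank ℝ M.e)) ℝ M.e,
    ∀ j, (b j : M.G) = M.mono ((β j).map M.X) := by
  have h : LinearIndependent ℝ
      (fun j => (⟨M.mono ((β j).map M.X), M.vol_word_mem _ (hβ.1 j)⟩ : M.e)) :=
    LinearIndependent.of_comp M.e.subtype hβ.2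
  exact ⟨basisOfLinearIndependentOfCardEqFinrank' _ h (Fintype.card_fin _), fun j => by simp⟩

theorem vol_det {E ι : Type} [AddCommGroup E] [Module ℝ E] [Fintype ι] (b : Module.Basis ι ℝ E)
    (T : E →ₗ[ℝ] E) (t : ι → ℝ) (h : ∀ j, T (b j) = t j • b j) : LinearMap.det T = ∏ j, t j := by
  classical
  rw [← LinearMap.det_toMatrix b, ← Matrix.det_diagonal]
  congr 1
  ext i j
  rw [LinearMap.toMatrix_apply, h, map_smul, b.repr_self, Matrix.diagonal_apply, Finsupp.smul_apply,
    Finsupp.single_apply]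
  by_cases hij : i = j
  · simp [hij]
  · simp [hij, Ne.symm hij]

theorem Frame.sum_wv {β} (hβ : M.Frame β) (v : M.V) : ∑ j, ((β j).map (M.wv v)).sum = 0 := by
  obtain ⟨b, hb⟩ := Frame.basis M hβ
  have h1 := vol_det b ((M.del v).restrict fun x hx => M.del_e v hx)
    (fun j => Real.exp ((β j).map (M.wv v)).sum) fun j => by
      refine Subtype.ext ?_
      rw [LinearMap.coe_restrict_apply, Submodule.coe_smul, hb, vol_del_word]
  have h2 := subMu_image_linear M.e (M.del v) (fun x hx => M.del_e v hx) (M.K 0) (M.K_sub_e 0)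
  have h3 := M.mE_image_del v (M.K 0)
  have h4 := M.mE_K_pos 0
  rw [h1, ← Real.exp_sum, abs_of_pos (Real.exp_pos _)] at h2
  have h5 : M.mE.real (M.K 0) = Real.exp (∑ j, ((β j).map (M.wv v)).sum) * M.mE.real (M.K 0) := by
    have h6 := congrArg ENNReal.toReal (h3.symm.trans h2)
    rwa [ENNReal.toReal_mul, ENNReal.toReal_ofReal (Real.exp_pos _).le] at h6
  have h7 : Real.exp (∑ j, ((β j).map (M.wv v)).sum) = 1 :=
    mul_right_cancel₀ h4.ne' (by rw [one_mul]; exact h5.symm)
  exact (Real.exp_eq_one_iff _).1 h7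

theorem Phi_wv (r v) : M.Phi (r + M.wv v) = M.Phi r := by
  refine le_antisymm ?_ ?_
  · obtain ⟨β, hβ, h1⟩ := M.exists_Phi (r + M.wv v)
    rw [h1, vol_sum_add, Frame.sum_wv M hβ, add_zero]
    exact M.le_Phi hβ r
  · obtain ⟨β, hβ, h1⟩ := M.exists_Phi r
    have h2 := M.le_Phi hβ (r + M.wv v)
    rwa [vol_sum_add, Frame.sum_wv M hβ, add_zero, ← h1] at h2

theorem vol_finrank_le : Module.finrank ℝ M.e ≤ M.d := by
  refine (Submodule.finrank_le M.e).trans (le_of_eq ?_)
  exact finrank_euclideanSpace_fin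

theorem Phi_le_add {r r'} {t : ℝ} (ht : 0 ≤ t) (h : ∀ i, M.wt i ≠ 0 → r' i ≤ r i + t) :
    M.Phi r' ≤ M.Phi r + M.d * M.c * t := by
  obtain ⟨β, hβ, h1⟩ := M.exists_Phi (fun _ => t)
  have h2 : M.Phi (fun _ => t) ≤ M.d * M.c * t := by
    rw [h1]
    calc ∑ j, ((β j).map fun _ => t).sum ≤ ∑ _j : Fin (Module.finrank ℝ M.e), M.c * t := by
          refine Finset.sum_le_sum fun j _ => ?_
          rw [List.map_const', List.sum_replicate, nsmul_eq_mul]
          exact mul_le_mul_of_nonneg_right (by exact_mod_cast Frame.length_le M hβ j) ht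
      _ = Module.finrank ℝ M.e * (M.c * t) := by simp
      _ ≤ M.d * (M.c * t) :=
          mul_le_mul_of_nonneg_right (by exact_mod_cast M.vol_finrank_le) (by positivity)
      _ = _ := by ring
  calc M.Phi r' ≤ M.Phi (r + fun _ => t) := M.Phi_mono h
    _ ≤ M.Phi r + M.Phi (fun _ => t) := M.Phi_add_le _ _
    _ ≤ _ := by linarith

theorem Phi_strict {μ p} (hp : M.GenF μ p) {r r'} {κ : ℝ} (hκ : 0 ≤ κ)
    (h : ∀ i, M.wt i ≠ 0 → r' i ≤ r i) (hμ : ∀ i, M.wt i = μ → r' i + κ ≤ r i) :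
    M.Phi r' + κ ≤ M.Phi r := by
  classical
  have _ := hκ
  obtain ⟨β, hβ, h1⟩ := M.exists_Phi r'
  obtain ⟨b, hb⟩ := Frame.basis M hβ
  obtain ⟨i, hi, hpi⟩ := GenF.exists_X M hp
  have h2 : ∃ j, p (M.mono ((β j).map M.X)) ≠ 0 := by
    by_contra hc
    push Not at hc
    have h3 : p ∘ₗ M.e.subtype = 0 := b.ext fun j => by
      rw [LinearMap.comp_apply, Submodule.subtype_apply, hb, hc, LinearMap.zero_apply]
    exact hpi (LinearMap.congr_fun h3 ⟨M.X i, M.X_mem_e (by rw [hi]; exact hp.1)⟩)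
  obtain ⟨j, hj⟩ := h2
  have h3 : ((β j).map r').sum + κ ≤ ((β j).map r).sum := by
    rcases hw : β j with _ | ⟨a, _ | ⟨a', w⟩⟩
    · rw [hw] at hj
      exact absurd (map_zero p) hj
    · rw [hw] at hj
      have h4 : M.wt a = μ := by
        by_contra h5
        exact hj (hp.2.2.1 a h5)
      simpa using hμ a h4
    · rw [hw] at hj
      exact absurd (hp.2.1 _ _) hj
  refine le_trans ?_ (M.le_Phi hβ r)
  rw [h1, ← Finset.add_sum_erase _ _ (Finset.mem_univ j),
    ← Finset.add_sum_erase _ _ (Finset.mem_univ j)]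
  have h4 : ∑ j' ∈ Finset.univ.erase j, ((β j').map r').sum ≤
      ∑ j' ∈ Finset.univ.erase j, ((β j').map r).sum :=
    Finset.sum_le_sum fun j' _ => List.sum_le_sum fun i hi => h i (hβ.1 j' i hi)
  linarith

theorem Phi_hb (o : M.V) (R : ℝ) : M.Phi (M.hb o R) = M.Phi (M.hb 0 R) := by
  rw [← M.Phi_wv (M.hb 0 R) o]
  congr 1
  funext i
  simp [hb, wv, add_comm]

/-- The volume of a box. -/
theorem vol_box {E ι : Type} [NormedAddCommGroup E] [NormedSpace ℝ E] [FiniteDimensional ℝ E]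
    [MeasurableSpace E] [BorelSpace E] (ν : Measure E) [ν.IsAddHaarMeasure] [Fintype ι]
    (b : Module.Basis ι ℝ E) : ∃ c : ℝ, 0 < c ∧ ∀ t : ι → ℝ, (∀ j, 0 < t j) →
      ν {x | ∀ j, |b.repr x j| ≤ t j} = ENNReal.ofReal (c * ∏ j, t j) := by
  classical
  have h1 : {x : E | ∀ j, |b.repr x j| ≤ 1} = b.equivFunL ⁻¹' Metric.closedBall 0 1 := by
    ext x
    simp [pi_norm_le_iff_of_nonneg]
  have h2 : ν {x : E | ∀ j, |b.repr x j| ≤ 1} ≠ ⊤ := by
    rw [h1]
    exact (b.equivFunL.toHomeomorph.isCompact_preimage.2 (isCompact_closedBall 0 1)).measure_lt_top.ne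
  have h3 : ν {x : E | ∀ j, |b.repr x j| ≤ 1} ≠ 0 := by
    rw [h1]
    refine (Measure.measure_pos_of_mem_nhds ν (x := 0) ?_).ne'
    refine b.equivFunL.continuous.continuousAt.preimage_mem_nhds ?_
    rw [map_zero]
    exact Metric.closedBall_mem_nhds 0 one_pos
  refine ⟨(ν {x : E | ∀ j, |b.repr x j| ≤ 1}).toReal, ENNReal.toReal_pos h3 h2, fun t ht => ?_⟩
  let D : E →ₗ[ℝ] E := b.constr ℝ fun j => (t j)⁻¹ • b j
  have hD : LinearMap.det D = ∏ j, (t j)⁻¹ := vol_det b D _ fun j => b.constr_basis ℝ _ j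
  have hp : 0 < ∏ j, t j := Finset.prod_pos fun j _ => ht j
  have hr : ∀ x j, b.repr (D x) j = (t j)⁻¹ * b.repr x j := fun x j => by
    have h4 : (b.coord j) ∘ₗ D = (t j)⁻¹ • b.coord j := b.ext fun i => by
      simp only [D, LinearMap.comp_apply, Module.Basis.constr_basis, map_smul, LinearMap.smul_apply,
        Module.Basis.coord_apply, Module.Basis.repr_self, Finsupp.single_apply, smul_eq_mul]
      split_ifs with hij
      · rw [hij]
      · simp
    exact LinearMap.congr_fun h4 x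
  have h5 : {x | ∀ j, |b.repr x j| ≤ t j} = D ⁻¹' {x : E | ∀ j, |b.repr x j| ≤ 1} := by
    ext x
    refine forall_congr' fun j => ?_
    rw [hr, abs_mul, abs_of_pos (inv_pos.2 (ht j)), inv_mul_le_iff₀ (ht j), mul_one]
  rw [h5, Measure.addHaar_preimage_linearMap ν (by
    rw [hD, Finset.prod_inv_distrib]; exact (inv_pos.2 hp).ne'), hD, Finset.prod_inv_distrib,
    inv_inv, abs_of_pos hp, mul_comm, ENNReal.ofReal_mul ENNReal.toReal_nonneg,
    ENNReal.ofReal_toReal h2]

/-- Exchange of one word in a frame. -/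
theorem Frame.update {β} (hβ : M.Frame β) {b : Module.Basis (Fin (Module.finrank ℝ M.e)) ℝ M.e}
    (hb : ∀ j, (b j : M.G) = M.mono ((β j).map M.X)) {w : List (Fin M.d)}
    (hw : ∀ i ∈ w, M.wt i ≠ 0) {j} (hj : b.repr ⟨_, M.vol_word_mem w hw⟩ j ≠ 0) :
    M.Frame (Function.update β j w) := by
  classical
  refine ⟨fun j' => ?_, ?_⟩
  · by_cases h : j' = j
    · rw [h, Function.update_self]
      exact hw
    · rw [Function.update_of_ne h]
      exact hβ.1 j'
  have h1 : b.det (Function.update b j ⟨_, M.vol_word_mem w hw⟩) ≠ 0 := by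
    rw [Module.Basis.det_apply, Module.Basis.toMatrix_update, Module.Basis.toMatrix_self,
      ← Matrix.cramer_apply, Matrix.cramer_one]
    exact hj
  have h2 := ((b.is_basis_iff_det).2 (Ne.isUnit h1)).1
  have h3 := h2.map' M.e.subtype M.e.ker_subtype
  have h4 : (fun j' => M.mono ((Function.update β j w j').map M.X)) =
      M.e.subtype ∘ Function.update b j ⟨_, M.vol_word_mem w hw⟩ := by
    funext j'
    by_cases h : j' = j
    · simp [h]
    · simp [h, hb]
  rw [h4]
  exact h3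

theorem vol_frame {β} (hβ : M.Frame β) : ∃ C : ℝ, ∀ r, M.Phi r = ∑ j, ((β j).map r).sum →
    Real.exp (M.Phi r) ≤ C * M.mE.real (M.K r) ∧
      M.mE.real (M.K r) ≤ C * Real.exp (M.Phi r) := by
  classical
  obtain ⟨b, hb⟩ := Frame.basis M hβ
  obtain ⟨c, hc, hbox⟩ := vol_box (volume : Measure M.e) b
  obtain ⟨C, hC, hgen⟩ := M.gen_subset_mono
  obtain ⟨π, hπ⟩ := M.e.subtype.exists_leftInverse_of_injective M.e.ker_subtype
  have hπ' : ∀ x : M.e, π x = x := fun x => LinearMap.congr_fun hπ x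
  obtain ⟨B, hB⟩ := (((List.finite_length_le (Fin M.d) M.c).prod
    (Set.finite_univ (α := Fin (Module.finrank ℝ M.e)))).image
      fun q => |b.repr (π (M.mono (q.1.map M.X))) q.2|).bddAbove
  have hB' : ∀ w : List (Fin M.d), w.length ≤ M.c → ∀ j,
      |b.repr (π (M.mono (w.map M.X))) j| ≤ max B 1 := fun w hw j =>
    (hB ⟨(w, j), ⟨hw, Set.mem_univ _⟩, rfl⟩).trans (le_max_left _ _)
  have hB0 : (0 : ℝ) < max B 1 := lt_of_lt_of_le one_pos (le_max_right _ _)
  obtain ⟨n, hn⟩ : ∃ n, Module.finrank ℝ M.e = n := ⟨_, rfl⟩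
  have hcard : (Finset.univ : Finset (Fin (Module.finrank ℝ M.e))).card = n := by
    rw [Finset.card_univ, Fintype.card_fin, hn]
  have hn0 : (0 : ℝ) < n + 1 := by positivity
  refine ⟨max ((n + 1) ^ n / c) (c * (C * max B 1) ^ n), fun r hr => ?_⟩
  have hK := M.K_isLB r
  have hfin : M.mE (M.K r) ≠ ⊤ := by
    intro h
    have := M.mE_K_pos r
    rw [Measure.real, h] at this
    simp at this
  have hE : M.mE (M.K r) = volume ((Subtype.val : M.e → M.G) ⁻¹' M.K r) := subMu_apply _ _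
  constructor
  · have h1 : {x : M.e | ∀ j, |b.repr x j| ≤ (n + 1 : ℝ)⁻¹ * Real.exp ((β j).map r).sum} ⊆
        (Subtype.val : M.e → M.G) ⁻¹' M.K r := by
      intro x hx
      have h2 : (x : M.G) = ∑ j, b.repr x j • M.mono ((β j).map M.X) := by
        conv_lhs => rw [← b.sum_repr x]
        simp only [Submodule.coe_sum, Submodule.coe_smul, hb]
      have h3 := hK.sc.sum_mem Finset.univ (fun j => b.repr x j • M.mono ((β j).map M.X))
        (fun _ => (n + 1 : ℝ)⁻¹) (fun _ _ => by positivity) fun j _ => by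
          have h4 : Real.exp ((β j).map r).sum • M.mono ((β j).map M.X) ∈ (1 : ℝ) • M.K r := by
            rw [one_smul, ← vol_mono_exp]
            refine M.mono_mem_gen fun y hy => ?_
            obtain ⟨i, hi, rfl⟩ := List.mem_map.1 hy
            exact M.subset_gen _ ⟨i, hβ.1 j i hi, rfl⟩
          have h5 := hK.sc.smul_mem_smul (t := b.repr x j / Real.exp ((β j).map r).sum)
            (u := (n + 1 : ℝ)⁻¹) zero_le_one h4 (by
              rw [mul_one, abs_div, abs_of_pos (Real.exp_pos _), div_le_iff₀ (Real.exp_pos _)]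
              exact hx j)
          rwa [smul_smul, div_mul_cancel₀ _ (Real.exp_pos _).ne'] at h5
      rw [← h2] at h3
      have h6 := hK.sc.smul_mono (t := 1) (by
        rw [Finset.sum_const, hcard, nsmul_eq_mul,
          abs_of_nonneg (by positivity), ← div_eq_mul_inv, div_le_one hn0]
        linarith) h3
      rwa [one_smul] at h6
    have h7 := measure_mono (μ := (volume : Measure M.e)) h1
    rw [hbox _ (fun j => by positivity), ← hE, Finset.prod_mul_distrib, ← Real.exp_sum, ← hr,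
      Finset.prod_const, hcard,
      ENNReal.ofReal_le_iff_le_toReal hfin] at h7
    calc Real.exp (M.Phi r)
        = (n + 1) ^ n / c * (c * ((n + 1 : ℝ)⁻¹ ^ n * Real.exp (M.Phi r))) := by
          rw [inv_pow]
          field_simp
      _ ≤ (n + 1) ^ n / c * M.mE.real (M.K r) := mul_le_mul_of_nonneg_left h7 (by positivity)
      _ ≤ _ := mul_le_mul_of_nonneg_right (le_max_left _ _) measureReal_nonneg
  · have hw : ∀ w : List (Fin M.d), (∀ i ∈ w, M.wt i ≠ 0) → w.length ≤ M.c → ∀ j,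
        |b.repr (π (M.mono (w.map fun i => Real.exp (r i) • M.X i))) j| ≤
          max B 1 * Real.exp ((β j).map r).sum := by
      intro w hw hl j
      rw [vol_mono_exp, map_smul, map_smul, Finsupp.smul_apply, smul_eq_mul, abs_mul,
        abs_of_pos (Real.exp_pos _), mul_comm]
      by_cases h0 : b.repr (π (M.mono (w.map M.X))) j = 0
      · rw [h0, abs_zero, zero_mul]
        positivity
      refine mul_le_mul (hB' w hl j) (Real.exp_le_exp.2 ?_) (Real.exp_pos _).le hB0.le
      have h1 := M.le_Phi (Frame.update M hβ hb hw (j := j) (by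
        rwa [← hπ' ⟨_, M.vol_word_mem w hw⟩])) r
      rw [hr, ← Finset.add_sum_erase _ _ (Finset.mem_univ j),
        ← Finset.add_sum_erase _ _ (Finset.mem_univ j), Function.update_self,
        Finset.sum_congr rfl fun j' hj' => by
          rw [Function.update_of_ne (Finset.ne_of_mem_erase hj')]] at h1
      linarith
    have h1 : (Subtype.val : M.e → M.G) ⁻¹' M.K r ⊆
        {x : M.e | ∀ j, |b.repr x j| ≤ C * max B 1 * Real.exp ((β j).map r).sum} := by
      intro x hx j
      obtain ⟨y, hy, hxy⟩ := hgen _ hx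
      have h2 : |((b.coord j) ∘ₗ π) y| ≤ max B 1 * Real.exp ((β j).map r).sum := by
        have hconv : Convex ℝ
            {z : M.G | |((b.coord j) ∘ₗ π) z| ≤ max B 1 * Real.exp ((β j).map r).sum} := by
          have := (convex_Icc (𝕜 := ℝ) (-(max B 1 * Real.exp ((β j).map r).sum))
            (max B 1 * Real.exp ((β j).map r).sum)).linear_preimage ((b.coord j) ∘ₗ π)
          simp only [abs_le]
          exact this
        refine convexHull_min ?_ hconv hy
        rintro z (rfl | ⟨l, -, hl1, hl, hz⟩)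
        · change |((b.coord j) ∘ₗ π) 0| ≤ _
          rw [map_zero, abs_zero]
          positivity
        · obtain ⟨w, hw', rfl⟩ := M.vol_exists_word l hl
          rw [List.length_map] at hl1
          rcases hz with rfl | rfl
          · exact hw w hw' hl1 j
          · change |((b.coord j) ∘ₗ π) (-_)| ≤ _
            rw [map_neg, abs_neg]
            exact hw w hw' hl1 j
      have h3 : b.repr x j = C * ((b.coord j) ∘ₗ π) y := by
        rw [← smul_eq_mul, ← map_smul, show C • y = (x : M.G) from hxy, LinearMap.comp_apply, hπ']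
        rfl
      rw [h3, abs_mul, abs_of_pos (by linarith), mul_assoc]
      exact mul_le_mul_of_nonneg_left h2 (by linarith)
    have h7 := measure_mono (μ := (volume : Measure M.e)) h1
    have hC0 : 0 < C := by linarith
    rw [hbox _ (fun j => by positivity), ← hE, Finset.prod_mul_distrib, ← Real.exp_sum, ← hr,
      Finset.prod_const, hcard] at h7
    calc M.mE.real (M.K r) ≤ c * ((C * max B 1) ^ n * Real.exp (M.Phi r)) :=
          ENNReal.toReal_le_of_le_ofReal (by positivity) h7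
      _ = c * (C * max B 1) ^ n * Real.exp (M.Phi r) := by ring
      _ ≤ _ := mul_le_mul_of_nonneg_right (le_max_right _ _) (Real.exp_pos _).le

theorem vol_K : ∃ C : ℝ, 1 ≤ C ∧ ∀ r, Real.exp (M.Phi r) ≤ C * M.mE.real (M.K r) ∧
    M.mE.real (M.K r) ≤ C * Real.exp (M.Phi r) := by
  choose! C hC using fun β (hβ : M.Frame β) => M.vol_frame hβ
  obtain ⟨B, hB⟩ := (M.frames_finite.image C).bddAbove
  refine ⟨max B 1, le_max_right _ _, fun r => ?_⟩
  obtain ⟨β, hβ, h1⟩ := M.exists_Phi r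
  have h2 : C β ≤ max B 1 := (hB ⟨β, hβ, rfl⟩).trans (le_max_left _ _)
  exact ⟨(hC β hβ r h1).1.trans (mul_le_mul_of_nonneg_right h2 measureReal_nonneg),
    (hC β hβ r h1).2.trans (mul_le_mul_of_nonneg_right h2 (Real.exp_pos _).le)⟩

theorem vol_Phi_zero : M.Phi 0 = 0 := by simpa using M.Phi_smul le_rfl 0

theorem Psi_nonneg (s) : 0 ≤ M.Psi s :=
  M.vol_Phi_zero.ge.trans (M.Phi_mono fun _ _ => le_max_left _ _)

theorem Psi_neg (s) : M.Psi (-s) = M.Psi s := by
  unfold Psi
  rw [← M.Phi_wv (fun i => max 0 ⟪M.wt i, s⟫_ℝ) (-s)]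
  congr 1
  funext i
  simp only [Pi.add_apply, wv, inner_neg_right]
  rcases le_total 0 ⟪M.wt i, s⟫_ℝ with h | h
  · rw [max_eq_left (by linarith), max_eq_right h, add_neg_cancel]
  · rw [max_eq_right (by linarith), max_eq_left h, zero_add]

theorem Psi_add_le (s s') : M.Psi (s + s') ≤ M.Psi s + M.Psi s' := by
  refine le_trans (M.Phi_mono fun i _ => ?_) (M.Phi_add_le _ _)
  rw [inner_add_right, Pi.add_apply]
  exact max_le (add_nonneg (le_max_left _ _) (le_max_left _ _))
    (add_le_add (le_max_right _ _) (le_max_right _ _))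

theorem vol_Psi_smul {t : ℝ} (ht : 0 ≤ t) (s) : M.Psi (t • s) = t * M.Psi s := by
  unfold Psi
  rw [← M.Phi_smul ht]
  congr 1
  funext i
  rw [real_inner_smul_right, Pi.smul_apply, smul_eq_mul, mul_max_of_nonneg _ _ ht, mul_zero]

theorem Psi_smul (t : ℝ) (s) : M.Psi (t • s) = |t| * M.Psi s := by
  rcases le_total 0 t with h | h
  · rw [abs_of_nonneg h, M.vol_Psi_smul h]
  · rw [abs_of_nonpos h, ← M.Psi_neg (t • s), ← neg_smul, M.vol_Psi_smul (neg_nonneg.2 h)]

theorem Psi_le : ∃ C : ℝ, 1 ≤ C ∧ ∀ s, M.Psi s ≤ C * ‖s‖ := by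
  have h0 : 0 ≤ ∑ i, ‖M.wt i‖ := Finset.sum_nonneg fun _ _ => norm_nonneg _
  refine ⟨M.d * M.c * (∑ i, ‖M.wt i‖) + 1, le_add_of_nonneg_left (by positivity), fun s => ?_⟩
  have h1 := M.Phi_le_add (r := 0) (r' := fun i => max 0 ⟪M.wt i, s⟫_ℝ)
    (t := (∑ i, ‖M.wt i‖) * ‖s‖) (by positivity) fun i _ => by
      rw [Pi.zero_apply, zero_add]
      refine max_le (by positivity) ((real_inner_le_norm _ _).trans ?_)
      exact mul_le_mul_of_nonneg_right
        (Finset.single_le_sum (f := fun i => ‖M.wt i‖) (fun _ _ => norm_nonneg _)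
          (Finset.mem_univ i)) (norm_nonneg _)
  rw [vol_Phi_zero, zero_add] at h1
  have h2 := norm_nonneg s
  unfold Psi
  nlinarith

end Vale.Agent.P188.Geo
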